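import Vale.Agent.P256.Gen.EdgeEnds

/-!
The kernel is a sum of squares on the whole normalised boundary.
-/

namespace Vale.Agent.P256.Gen

open MvPolynomial Filter Topology
open scoped BigOperators Polynomial

set_option linter.unusedSectionVars false

variable {n : ℕ}

namespace Hyp

variable {H : Hyp n}

lemma line_neg (x h : Fin n → ℝ) (hl : line H.p x h = 0) : line H.p x (-h) = 0 := by
  refine Polynomial.funext fun t => ?_
  rw [eval_line, Polynomial.eval_zero, show x + t • -h = x + (-t) • h by module]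
  exact H.line_zero_eval hl _

lemma not_mem_of_τ (hP : H.Pointed) {h : Fin n → ℝ} (hτ : H.τ h = 0) (h0 : h ≠ 0) : h ∉ H.K :=
  fun hk => h0 (hP h hk (H.τ_zero hk hτ).1)

/-- A zero line leaving a singular point into the cone gives a flat segment. -/
theorem edge_from (hP : H.Pointed) (hO : H.Ordinary) {s h : Fin n → ℝ} (hs : H.SingB s)
    (hτ : H.τ h = 0) (h0 : h ≠ 0) (hl : line H.p s h = 0) {t₀ : ℝ} (ht₀ : 0 < t₀)
    (hm : s + t₀ • h ∈ H.K) :
    ∃ (E : Edge H) (T : ℝ), E.s = s ∧ 0 < T ∧ E.b = s + T • h ∧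
      ∀ t : ℝ, 0 ≤ t → s + t • h ∈ H.K → t ≤ T := by
  obtain ⟨T, -, hsg, hmax⟩ := H.flat_exit hs.mem hl (H.not_mem_of_τ hP hτ h0)
  have hle : ∀ t, 0 ≤ t → s + t • h ∈ H.K → t ≤ T := fun t _ hk =>
    not_lt.1 fun hlt => hmax t hlt hk
  have hT : 0 < T := ht₀.trans_le (hle t₀ ht₀.le hm)
  have hb : H.SingB (s + T • h) :=
    ⟨⟨hsg.1, by simp [hs.τ_eq, hτ], hsg.2.1⟩, hsg⟩
  have hne : s ≠ s + T • h := fun h' => by
    have : T • h = 0 := by simpa using h'.symm
    exact h0 ((smul_eq_zero.1 this).resolve_left hT.ne')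
  obtain ⟨i, hi⟩ : ∃ i, h i ≠ 0 := by
    by_contra hc
    push Not at hc
    exact h0 (funext hc)
  set f : (Fin n → ℝ) →ₗ[ℝ] ℝ := (T * h i)⁻¹ • LinearMap.proj i
  refine ⟨{ s := s, b := s + T • h, hs := hs, hb := hb, ne := hne,
            flat := ?_, μ := f - f s • H.τ, μs := ?_, μb := ?_, hP := hP, hO := hO },
    T, rfl, hT, rfl, hle⟩
  · refine Polynomial.funext fun t => ?_
    rw [eval_line, Polynomial.eval_zero, add_sub_cancel_left, smul_smul]
    exact H.line_zero_eval hl _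
  · simp [hs.τ_eq]
  · simp only [f, LinearMap.sub_apply, LinearMap.smul_apply, LinearMap.proj_apply, smul_eq_mul,
      map_add, map_smul, hs.τ_eq, hτ]
    field_simp [hT.ne', hi]
    ring

/-- A zero line through a smooth boundary point lies on a flat segment. -/
theorem Smooth.edge {x h : Fin n → ℝ} (hx : H.Smooth x) (hP : H.Pointed) (hO : H.Ordinary)
    (hx1 : H.τ x = 1) (hτ : H.τ h = 0) (h0 : h ≠ 0) (hl : line H.p x h = 0) :
    ∃ E : Edge H, (∃ u ∈ Set.Ioo (0 : ℝ) 1, x = E.pnt u) ∧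
      ∀ t : ℝ, x + t • h ∈ H.K → ∃ v ∈ Set.Icc (0 : ℝ) 1, x + t • h = E.pnt v := by
  have hl' := line_neg x h hl
  have hn : -h ∉ H.K := H.not_mem_of_τ hP (by simp [hτ]) (neg_ne_zero.2 h0)
  obtain ⟨m, hm0, hsg, hmax⟩ := H.flat_exit hx.1 hl' hn
  have hm : 0 < m := by
    refine lt_of_le_of_ne hm0 fun h' => ?_
    rw [← h', zero_smul, add_zero] at hsg
    exact hx.2.2.ne' hsg.2.2
  have hs : H.SingB (x + m • -h) := ⟨⟨hsg.1, by simp [hx1, hτ], hsg.2.1⟩, hsg⟩
  have hls : line H.p (x + m • -h) h = 0 := by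
    refine Polynomial.funext fun t => ?_
    rw [eval_line, Polynomial.eval_zero, show x + m • -h + t • h = x + (t - m) • h by module]
    exact H.line_zero_eval hl _
  have hback : x + m • -h + m • h = x := by module
  obtain ⟨E, T, es, hT, eb, hle⟩ :=
    H.edge_from hP hO hs hτ h0 hls hm (by rw [hback]; exact hx.1)
  have hpnt : ∀ v, E.pnt v = x + (v * T - m) • h := fun v => by
    rw [Edge.pnt, eb, es]; module
  refine ⟨E, ⟨m / T, ⟨div_pos hm hT, (div_lt_one hT).2 ?_⟩, ?_⟩, fun t ht => ?_⟩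
  · refine lt_of_le_of_ne (hle m hm.le (by rw [hback]; exact hx.1)) fun hc => ?_
    have : x = E.b := by rw [eb, ← hc, hback]
    exact hx.2.2.ne' (this ▸ E.hb.2.2.2)
  · rw [hpnt, div_mul_cancel₀ _ hT.ne', sub_self, zero_smul, add_zero]
  · have h1 : 0 ≤ t + m := by
      by_contra hc
      exact hmax (-t) (by linarith) (by rwa [show x + (-t) • -h = x + t • h by module])
    have h2 : t + m ≤ T := hle (t + m) h1 (by
      rwa [show x + m • -h + (t + m) • h = x + t • h by module])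
    refine ⟨(t + m) / T, ⟨div_nonneg h1 hT.le, (div_le_one hT).2 h2⟩, ?_⟩
    rw [hpnt, div_mul_cancel₀ _ hT.ne', add_sub_cancel_right]

variable {s : Fin n → ℝ}

attribute [local irreducible] SingB.P der

lemma SingB.T_der_e_mono (h : H.SingB s) {θ : Fin n → ℝ} (hθ : θ ∈ h.T.K) {r : ℝ} (hr : 0 ≤ r) :
    der h.T.p θ H.e ≤ der h.T.p (θ + r • H.e) H.e := by
  set L := line h.T.p θ H.e
  rw [← derivative_line, ← cf_one]
  show L.coeff 1 ≤ L.derivative.eval r
  have hco : ∀ j, 0 ≤ L.coeff j := fun j =>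
    h.T.cf_nonneg hθ (h.T.core_subset h.T.e_mem_core) j
  rw [Polynomial.eval_eq_sum_range' (Nat.lt_succ_self L.derivative.natDegree)]
  refine le_trans (le_of_eq ?_) (Finset.single_le_sum
    (fun j _ => mul_nonneg ?_ (pow_nonneg hr _)) (Finset.mem_range.2 (Nat.succ_pos _)))
  · simp [Polynomial.coeff_derivative]
  · rw [Polynomial.coeff_derivative]
    exact mul_nonneg (hco _) (by positivity)

/-- A zero line leaving a singular point along its tangent boundary enters the cone. -/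
theorem SingB.ray (h : H.SingB s) (hO : H.Ordinary) {θ : Fin n → ℝ} (hθ : θ ∈ h.link)
    (hl : line H.p s θ = 0) : ∀ᶠ t in 𝓝[>] (0 : ℝ), s + t • θ ∈ H.K := by
  have hT0 : eval θ h.T.p = 0 := by
    show eval θ (H.tg h.mem).p = 0
    rw [H.tg_eval, cf, hl, Polynomial.coeff_zero]
  have hbig : ∀ᶠ r in 𝓝 (0 : ℝ), H.e + r • θ ∈ H.core :=
    (by fun_prop : Continuous fun r : ℝ => H.e + r • θ).continuousAt.eventually
      (H.isOpen_core.mem_nhds (by simpa using H.e_mem_core))
  obtain ⟨δ, hδ, hball⟩ := Metric.eventually_nhds_iff.1 hbig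
  set R := 2 / δ with hR
  have hRp : 0 < R := by positivity
  have hc : Continuous fun q : ℝ × ℝ => der h.P (pt q.1 (θ + q.2 • H.e)) (pt 0 H.e) :=
    (h.continuous_P_der_θ H.e).comp (continuous_fst.prodMk (by fun_prop))
  have hder : ∀ᶠ t in 𝓝 (0 : ℝ), ∀ r ∈ Set.Icc (0 : ℝ) R,
      0 < der h.P (pt t (θ + r • H.e)) (pt 0 H.e) := by
    refine isCompact_Icc.eventually_forall_of_forall_eventually fun r hr => ?_
    refine hc.continuousAt.eventually (lt_mem_nhds ?_)
    simp only [h.P_der_θ_zero]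
    exact lt_of_lt_of_le (h.link_smooth hO hθ hT0).2.2 (h.T_der_e_mono hθ.1 hr.1)
  filter_upwards [hder.filter_mono nhdsWithin_le_nhds, self_mem_nhdsWithin] with t ht (ht0 : 0 < t)
  intro σ hσ h0
  rcases le_or_gt σ (t * R) with hle | hgt
  · have hr : σ / t ∈ Set.Icc (0 : ℝ) R :=
      ⟨div_nonneg hσ.le ht0.le, (div_le_iff₀ ht0).2 (by linarith)⟩
    have e0 : eval (pt t θ) h.P = 0 := h.P_eq_zero ht0.ne' (H.line_zero_eval hl t)
    have e1 : eval (pt t (θ + (σ / t) • H.e)) h.P = 0 := by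
      refine h.P_eq_zero ht0.ne' ?_
      rwa [smul_add, smul_smul, mul_div_cancel₀ _ ht0.ne', ← add_assoc]
    set L := line h.P (pt t θ) (pt 0 H.e)
    have hmono : StrictMonoOn (fun r => L.eval r) (Set.Icc 0 R) := by
      refine strictMonoOn_of_deriv_pos (convex_Icc _ _) (Polynomial.continuousOn _) fun r hr' => ?_
      rw [interior_Icc] at hr'
      rw [Polynomial.deriv, derivative_line, pt_smul, pt_add, mul_zero, add_zero]
      exact ht r ⟨hr'.1.le, hr'.2.le⟩
    have := hmono ⟨le_rfl, hRp.le⟩ hr (div_pos hσ ht0)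
    simp only [L, eval_line, pt_smul, pt_add, mul_zero, zero_smul, add_zero, e0, e1] at this
    exact lt_irrefl _ this
  · have hlt : dist (t / σ) 0 < δ := by
      rw [dist_zero_right, Real.norm_eq_abs, abs_of_pos (div_pos ht0 hσ), div_lt_iff₀ hσ]
      rw [hR, mul_div_assoc', div_lt_iff₀ hδ] at hgt
      nlinarith
    have := H.core_pos (H.add_mem_core h.mem (H.smul_mem_core (hball hlt) hσ))
    rw [smul_add, smul_smul, mul_div_cancel₀ _ hσ.ne', add_comm (σ • H.e), ← add_assoc] at this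
    exact this.ne' h0

/-- No boundary point leaves a singular point where the next coefficient is positive. -/
theorem SingB.blow_bot_pos (h : H.SingB s) (hO : H.Ordinary) {θ : Fin n → ℝ}
    (hF : 0 < cf H.p (H.mult s + 1) s θ) : h.blow θ = ⊥ := by
  have hmd : H.mult s + 1 ≤ H.d := by
    by_contra hc
    push Not at hc
    rw [cf, Polynomial.coeff_eq_zero_of_natDegree_lt
      (lt_of_le_of_lt (H.natDegree_line _ _) hc)] at hF
    exact lt_irrefl _ hF
  set G : (Option (Fin n) → ℝ) → ℝ := fun q => ∑ j ∈ Finset.range (H.d - H.mult s),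
    q none ^ j * eval (fun i => q (some i)) (dirPoly H.p (H.mult s + (j + 1)) s)
  have hG : Continuous G := continuous_finsetSum _ fun j _ =>
    ((continuous_apply none).pow j).mul
      ((MvPolynomial.continuous_eval _).comp (continuous_pi fun i => continuous_apply _))
  have hG0 : G (pt 0 θ) = cf H.p (H.mult s + 1) s θ := by
    simp only [G, pt_none, pt_some, eval_dirPoly]
    rw [Finset.sum_eq_single 0 (fun j _ hj => by simp [zero_pow hj])
      (fun h0 => absurd (Finset.mem_range.2 (by omega)) h0)]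
    simp
  have hne : ∀ᶠ x in h.blow θ, eval (pt (h.ρ x) (h.θ x)) h.P ≠ 0 := by
    filter_upwards [((hG.tendsto _).comp (h.blow_tendsto θ)).eventually
      (lt_mem_nhds (show 0 < G (pt 0 θ) by rw [hG0]; exact hF)), h.blow_ev hO θ] with x hx hev
    obtain ⟨-, hρ, -, hl, -⟩ := hev
    rw [h.eval_P, show H.d + 1 - H.mult s = H.d - H.mult s + 1 by omega, Finset.sum_range_succ']
    have hT : 0 ≤ cf H.p (H.mult s) s (h.θ x) := by
      rw [← H.tg_eval h.mem]; exact h.T.K_nonneg hl.1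
    have e : ∑ j ∈ Finset.range (H.d - H.mult s),
        h.ρ x ^ (j + 1) * cf H.p (H.mult s + (j + 1)) s (h.θ x) =
        h.ρ x * G (pt (h.ρ x) (h.θ x)) := by
      simp only [G, pt_none, pt_some, eval_dirPoly, Finset.mul_sum]
      exact Finset.sum_congr rfl fun j _ => by ring
    rw [e, pow_zero, one_mul, add_zero]
    exact (add_pos_of_pos_of_nonneg (mul_pos hρ hx) hT).ne'
  exact empty_mem_iff_bot.1 ((hne.and (h.blow_ev hO θ)).mono fun x hx => absurd hx.2.2.2.2.2 hx.1)

variable (hP : H.Pointed) (hO : H.Ordinary)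
include hP hO

/-- Both points against a tangent boundary direction at a singular point. -/
theorem SingB.near_dir (h : H.SingB s) {a₀ θ : Fin n → ℝ} (ha : a₀ ∈ H.B) (hθ : θ ∈ h.link)
    (h0 : eval θ h.T.p = 0) : SOSNear (𝓝[H.B] a₀) (h.blow θ) H.slack := by
  have hnn : 0 ≤ der h.T.p θ a₀ := h.T.der_nonneg hθ.1 (H.subset_tg h.mem ha.1)
  rcases hnn.eq_or_lt with hz | hpos
  swap
  · exact (cell_second h hO hpos).mono nhdsWithin_le_nhds le_rfl
  have hT : cf H.p (H.mult s) s θ = 0 := by rw [← H.tg_eval h.mem]; exact h0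
  -- a flat segment leaving in the direction `θ`
  have main : line H.p s θ = 0 → SOSNear (𝓝[H.B] a₀) (h.blow θ) H.slack := by
    intro hl
    obtain ⟨t₀, hm, ht₀⟩ := ((h.ray hO hθ hl).and self_mem_nhdsWithin).exists
    have hθ0 : θ ≠ 0 := fun h' => by simpa [h'] using hθ.2.2
    obtain ⟨E, T, es, hT', eb, hle⟩ := H.edge_from hP hO h hθ.2.1 hθ0 hl ht₀ hm
    have hθE : E.hs.θ E.b = θ ∧ E.hs.T.τ θ = 1 := by
      subst es
      have hρ : h.ρ E.b = T := by
        rw [eb]
        show h.T.τ (E.s + T • θ) = T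
        rw [map_add, map_smul, show h.T.τ E.s = 0 from h.ρ_s, hθ.2.2]; simp
      refine ⟨?_, hθ.2.2⟩
      show h.θ E.b = θ
      rw [SingB.θ, hρ, eb, add_sub_cancel_left, smul_smul, inv_mul_cancel₀ hT'.ne', one_smul]
    have hblow : h.blow θ ≤ E.near 0 := by
      subst es
      have := E.blow_le_near
      rwa [hθE.1] at this
    obtain ⟨v, hv, rfl⟩ : ∃ v ∈ Set.Icc (0 : ℝ) 1, a₀ = E.pnt v := by
      rcases eq_or_ne a₀ s with rfl | hne
      · exact ⟨0, ⟨le_rfl, zero_le_one⟩, by rw [E.pnt_zero, es]⟩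
      have hρ := h.ρ_pos hO ha.1 ha.2.1 hne
      have hdir : h.θ a₀ = θ := h.strict hO hθ h0 (h.θ_mem hO ha.1 ha.2.1 hne) (by
        rw [SingB.θ, der_smul, der_sub, ← hz, show der h.T.p θ s = 0 from H.tg_der_self h.mem hθ.1,
          sub_self, mul_zero])
      have hle' : h.ρ a₀ ≤ T := hle _ hρ.le (by rw [← hdir, ← h.eq_θ hρ.ne']; exact ha.1)
      refine ⟨h.ρ a₀ / T, ⟨div_nonneg hρ.le hT'.le, (div_le_one hT').2 hle'⟩, ?_⟩
      rw [Edge.pnt, es, eb, add_sub_cancel_left, smul_smul, div_mul_cancel₀ _ hT'.ne', ← hdir]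
      exact h.eq_θ hρ.ne'
    exact (E.point_near ⟨le_rfl, zero_le_one⟩ hv).mono le_rfl hblow
  have zero_next : cf H.p (H.mult s + 1) s θ = 0 → line H.p s θ = 0 := fun h1 =>
    H.line_eq_zero h.mem h.mult_pos (fun j hj v => H.cf_lt h.mem hj v)
      (h.link_smooth hO hθ h0).2.2 hT h1
  rcases lt_trichotomy (cf H.p (H.mult s + 1) s θ) 0 with hF | hF | hF
  · rcases eq_or_ne a₀ s with rfl | hne
    · refine h.split_left hO ((h.blow_ev hO θ).mono fun x hx => hx.1.1) fun θ₂ hθ₂ => ?_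
      by_cases h2 : eval θ₂ h.T.p = 0
      swap
      · exact sosNear_bot (Or.inl (h.blow_bot hO h2))
      rcases eq_or_ne θ₂ θ with rfl | hne2
      · exact cell_node h hO hθ h0 hF
      obtain ⟨g1, g2, g3⟩ := h.second_data hO θ
      refine cell_first h hO _ _ _ (g1.mono fun x hx => ⟨hx.1, hx.2.1, fun w _ => hx.2.2 w⟩) g2 ?_
      rw [g3]
      exact lt_of_le_of_ne (h.T.der_nonneg hθ.1 hθ₂.1) fun hd =>
        hne2 (h.strict hO hθ h0 hθ₂ hd.symm)
    · -- such a point would force a flat segment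
      exfalso
      have hρ := h.ρ_pos hO ha.1 ha.2.1 hne
      have hdir : h.θ a₀ = θ := h.strict hO hθ h0 (h.θ_mem hO ha.1 ha.2.1 hne) (by
        rw [SingB.θ, der_smul, der_sub, ← hz, show der h.T.p θ s = 0 from H.tg_der_self h.mem hθ.1,
          sub_self, mul_zero])
      have hl : line H.p s θ = 0 := by
        refine Polynomial.eq_zero_of_infinite_isRoot _ ((Set.Ioo_infinite hρ).mono fun t ht => ?_)
        rw [Set.mem_ofPred_eq, Polynomial.IsRoot.def, eval_line]
        have hK : s + t • θ ∈ H.K := by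
          have := H.convex_K h.mem ha.1 (show (0 : ℝ) ≤ 1 - t / h.ρ a₀ by
            rw [sub_nonneg, div_le_one hρ]; exact ht.2.le) (div_nonneg ht.1.le hρ.le) (by ring)
          convert this using 1
          have e : a₀ - s = h.ρ a₀ • θ := by
            rw [← hdir, SingB.θ, smul_smul, mul_inv_cancel₀ hρ.ne', one_smul]
          rw [show (1 - t / h.ρ a₀) • s + (t / h.ρ a₀) • a₀ = s + (t / h.ρ a₀) • (a₀ - s) by module,
            e, smul_smul, div_mul_cancel₀ _ hρ.ne']
        by_contra hp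
        have := H.cf_mult_pos h.mem (H.core_iff.2 ⟨hK, hp⟩)
        rw [← H.tg_eval h.mem, show s + t • θ = t • θ + (1 : ℝ) • s by module,
          H.tg_translate h.mem] at this
        · rw [show eval (t • θ) (H.tg h.mem).p = t ^ (H.tg h.mem).d * eval θ (H.tg h.mem).p from
            (H.tg h.mem).smul_eval t θ, show eval θ (H.tg h.mem).p = 0 from h0, mul_zero] at this
          exact lt_irrefl _ this
      rw [cf, hl, Polynomial.coeff_zero] at hF
      exact lt_irrefl _ hF
  · exact main (zero_next hF)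
  · exact sosNear_bot (Or.inr (h.blow_bot_pos hO hF))

/-- Sums of squares near every pair of normalised boundary points. -/
theorem near_pair {a₀ x₀ : Fin n → ℝ} (ha : a₀ ∈ H.B) (hx : x₀ ∈ H.B) :
    SOSNear (𝓝[H.B] a₀) (𝓝[H.B] x₀) H.slack := by
  rcases H.smooth_or hx.1 hx.2.2 with hsm | hsg
  · rcases (H.der_nonneg hx.1 ha.1).eq_or_lt with hz | hpos
    swap
    · exact (cell_pos hpos).mono nhdsWithin_le_nhds nhdsWithin_le_nhds
    by_cases hflat : ∀ v, H.τ v = 0 → line H.p x₀ v = 0 → v = 0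
    · have hl := hsm.segment ha.1 hz.symm
      have := hflat _ (by simp [ha.2.1, hx.2.1]) hl
      rw [sub_eq_zero.1 this]
      exact cell_diag hsm hflat
    · push Not at hflat
      obtain ⟨v, hv, hlv, hv0⟩ := hflat
      obtain ⟨w, t, hw, hlw, hw0, e⟩ : ∃ (w : Fin n → ℝ) (t : ℝ),
          H.τ w = 0 ∧ line H.p x₀ w = 0 ∧ w ≠ 0 ∧ a₀ = x₀ + t • w := by
        rcases eq_or_ne a₀ x₀ with rfl | hne
        · exact ⟨v, 0, hv, hlv, hv0, by simp⟩
        · exact ⟨a₀ - x₀, 1, by simp [ha.2.1, hx.2.1], hsm.segment ha.1 hz.symm,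
            sub_ne_zero.2 hne, by simp⟩
      obtain ⟨E, ⟨u, hu, hxu⟩, hall⟩ := hsm.edge hP hO hx.2.1 hw hw0 hlw
      obtain ⟨r, hr, har⟩ := hall t (e ▸ ha.1)
      rw [e, har, hxu]
      exact (E.point_near ⟨hu.1.le, hu.2.le⟩ hr).mono le_rfl (E.nhds_le_near hu)
  · have hs : H.SingB x₀ := ⟨hx, hsg⟩
    refine hs.split_right hO fun θ hθ => ?_
    by_cases h0 : eval θ hs.T.p = 0
    · exact hs.near_dir hP hO ha hθ h0
    · exact sosNear_bot (Or.inr (hs.blow_bot hO h0))

/-- The kernel on the normalised boundary. -/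
theorem sosOn_B : SOSOn H.B H.B H.slack := by
  have hB := H.isCompact_B hP
  have e : ∀ c : Fin n → ℝ, 𝓟 H.B ⊓ Filter.comap id (𝓝 c) = 𝓝[H.B] c := fun c => by
    rw [Filter.comap_id, inf_comm]; rfl
  have hB' : ∀ᶠ x in 𝓟 H.B, id x ∈ H.B := eventually_principal.2 fun x hx => hx
  obtain ⟨U, hU, V, hV, hS⟩ : SOSNear (𝓟 H.B) (𝓟 H.B) H.slack :=
    sosNear_of_local_left hB id hB' fun a ha =>
      sosNear_of_local_right hB id hB' fun x hx => by
        rw [e, e]; exact H.near_pair hP hO ha hx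
  exact sosOn_mono hS (mem_principal.1 hU) (mem_principal.1 hV)

end Hyp

end Vale.Agent.P256.Gen
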