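import Vale.Agent.P256.Gen.Tangent

/-!
The blown up polynomial at a singular point.
-/

namespace Vale.Agent.P256.Gen

open MvPolynomial Filter Topology
open scoped BigOperators Polynomial

set_option linter.unusedSectionVars false

/-- A parameter together with a vector. -/
def pt {n : ℕ} (t : ℝ) (v : Fin n → ℝ) : Option (Fin n) → ℝ := fun o => o.elim t v

variable {n : ℕ}

@[simp] lemma pt_none (t : ℝ) (v : Fin n → ℝ) : pt t v none = t := rfl

@[simp] lemma pt_some (t : ℝ) (v : Fin n → ℝ) (i : Fin n) : pt t v (some i) = v i := rfl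

lemma pt_add (t t' : ℝ) (v v' : Fin n → ℝ) : pt t v + pt t' v' = pt (t + t') (v + v') := by
  funext o; cases o <;> simp

lemma pt_smul (c t : ℝ) (v : Fin n → ℝ) : c • pt t v = pt (c * t) (c • v) := by
  funext o; cases o <;> simp

lemma pt_sub (t t' : ℝ) (v v' : Fin n → ℝ) : pt t v - pt t' v' = pt (t - t') (v - v') := by
  funext o; cases o <;> simp

lemma continuous_pt {X : Type*} [TopologicalSpace X] {t : X → ℝ} {v : X → Fin n → ℝ}
    (ht : Continuous t) (hv : Continuous v) : Continuous fun x => pt (t x) (v x) :=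
  continuous_pi fun o => by
    cases o with
    | none => exact ht
    | some i =>
      show Continuous fun x => v x i
      exact (continuous_apply i).comp hv

lemma continuousAt_pt {X : Type*} [TopologicalSpace X] {x₀ : X} {t : X → ℝ} {v : X → Fin n → ℝ}
    (ht : ContinuousAt t x₀) (hv : ContinuousAt v x₀) :
    ContinuousAt (fun x => pt (t x) (v x)) x₀ :=
  continuousAt_pi.2 fun o => by
    cases o with
    | none => exact ht
    | some i =>
      show ContinuousAt (fun x => v x i) x₀
      exact continuousAt_pi.1 hv i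

lemma continuous_der {σ : Type*} [Fintype σ] (f : MvPolynomial σ ℝ) :
    Continuous fun q : (σ → ℝ) × (σ → ℝ) => der f q.1 q.2 :=
  continuous_finsetSum _ fun i _ => ((MvPolynomial.continuous_eval _).comp continuous_fst).mul
    ((continuous_apply i).comp continuous_snd)

namespace Hyp

variable {H : Hyp n} {s : Fin n → ℝ}

/-- `p (s + ρ θ) / ρ ^ m` as a polynomial in `(ρ, θ)`. -/
noncomputable def SingB.P (h : H.SingB s) : MvPolynomial (Option (Fin n)) ℝ :=
  ∑ j ∈ Finset.range (H.d + 1 - H.mult s),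
    X none ^ j * rename some (dirPoly H.p (H.mult s + j) s)

lemma SingB.eval_P (h : H.SingB s) (ρ : ℝ) (θ : Fin n → ℝ) :
    eval (pt ρ θ) h.P = ∑ j ∈ Finset.range (H.d + 1 - H.mult s),
      ρ ^ j * cf H.p (H.mult s + j) s θ := by
  simp only [SingB.P, map_sum, map_mul, map_pow, eval_X, pt_none, eval_rename]
  refine Finset.sum_congr rfl fun j _ => ?_
  rw [← eval_dirPoly]
  rfl

lemma SingB.P_mul (h : H.SingB s) (ρ : ℝ) (θ : Fin n → ℝ) :
    ρ ^ H.mult s * eval (pt ρ θ) h.P = eval (s + ρ • θ) H.p := by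
  rw [h.eval_P, ← eval_line, Polynomial.eval_eq_sum_range' (Nat.lt_succ_of_le (H.natDegree_line s θ)),
    Finset.mul_sum]
  conv_rhs => rw [← Nat.add_sub_cancel' (Nat.le_succ_of_le (H.mult_le s)),
    Finset.sum_range_add]
  rw [Finset.sum_eq_zero (s := Finset.range (H.mult s)) fun j hj => by
    rw [show (line H.p s θ).coeff j = 0 from H.cf_lt h.mem (Finset.mem_range.1 hj) θ, zero_mul],
    zero_add]
  refine Finset.sum_congr rfl fun j _ => ?_
  rw [cf, pow_add]
  ring

lemma SingB.eval_P_zero (h : H.SingB s) (θ : Fin n → ℝ) :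
    eval (pt 0 θ) h.P = eval θ h.T.p := by
  rw [h.eval_P, show eval θ h.T.p = cf H.p (H.mult s) s θ from H.tg_eval h.mem θ,
    Finset.sum_eq_single 0 (fun j _ hj => by simp [zero_pow hj])]
  · simp
  · intro h0
    exact absurd (Finset.mem_range.2 (by have := H.mult_le s; omega)) h0

attribute [local irreducible] SingB.P der

/-- Derivative in the direction variable. -/
lemma SingB.P_der_θ (h : H.SingB s) (ρ : ℝ) (θ w : Fin n → ℝ) :
    ρ ^ H.mult s * der h.P (pt ρ θ) (pt 0 w) = ρ * der H.p (s + ρ • θ) w := by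
  have key : Polynomial.C (ρ ^ H.mult s) * line h.P (pt ρ θ) (pt 0 w) =
      line H.p (s + ρ • θ) (ρ • w) := by
    refine Polynomial.funext fun t => ?_
    rw [Polynomial.eval_mul, Polynomial.eval_C, eval_line, pt_smul, pt_add, mul_zero, add_zero,
      h.P_mul, eval_line]
    congr 2
    module
  have := congrArg (fun f : ℝ[X] => f.coeff 1) key
  simp only [Polynomial.coeff_C_mul] at this
  rw [← cf, ← cf, cf_one, cf_one, der_smul] at this
  exact this

lemma SingB.P_der_θ' (h : H.SingB s) {ρ : ℝ} (hρ : ρ ≠ 0) (θ w : Fin n → ℝ) :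
    ρ ^ (H.mult s - 1) * der h.P (pt ρ θ) (pt 0 w) = der H.p (s + ρ • θ) w := by
  have := h.P_der_θ ρ θ w
  rw [show H.mult s = H.mult s - 1 + 1 by have := h.mult_pos; omega, pow_succ] at this
  refine mul_left_cancel₀ hρ ?_
  linear_combination this

lemma SingB.P_der_θ_zero (h : H.SingB s) (θ w : Fin n → ℝ) :
    der h.P (pt 0 θ) (pt 0 w) = der h.T.p θ w := by
  have key : line h.P (pt 0 θ) (pt 0 w) = line h.T.p θ w := by
    refine Polynomial.funext fun t => ?_
    rw [eval_line, pt_smul, pt_add, mul_zero, add_zero, h.eval_P_zero, eval_line]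
  rw [← cf_one, ← cf_one, cf, key, cf]

/-- Derivative in the height. -/
lemma SingB.P_der_ρ (h : H.SingB s) (ρ : ℝ) (θ : Fin n → ℝ) :
    (H.mult s : ℝ) * ρ ^ (H.mult s - 1) * eval (pt ρ θ) h.P +
      ρ ^ H.mult s * der h.P (pt ρ θ) (pt 1 0) = der H.p (s + ρ • θ) θ := by
  have key : (Polynomial.C ρ + Polynomial.X) ^ H.mult s * line h.P (pt ρ θ) (pt 1 0) =
      line H.p (s + ρ • θ) θ := by
    refine Polynomial.funext fun t => ?_
    rw [Polynomial.eval_mul, Polynomial.eval_pow, Polynomial.eval_add, Polynomial.eval_C,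
      Polynomial.eval_X, eval_line, pt_smul, pt_add, mul_one, smul_zero, add_zero, h.P_mul,
      eval_line, add_smul, add_assoc]
  have := congrArg (fun f : ℝ[X] => (Polynomial.derivative f).eval 0) key
  simp only [derivative_line, zero_smul, add_zero, Polynomial.derivative_mul,
    Polynomial.derivative_pow, Polynomial.eval_add, Polynomial.eval_mul, Polynomial.eval_pow,
    Polynomial.eval_C, Polynomial.eval_X, Polynomial.derivative_add, Polynomial.derivative_C,
    Polynomial.derivative_X, Polynomial.eval_one, Polynomial.eval_zero, zero_add, mul_one,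
    eval_line] at this
  exact this

lemma SingB.P_der_ρ_zero (h : H.SingB s) (θ : Fin n → ℝ) :
    der h.P (pt 0 θ) (pt 1 0) = cf H.p (H.mult s + 1) s θ := by
  have key : line h.P (pt 0 θ) (pt 1 0) = ∑ j ∈ Finset.range (H.d + 1 - H.mult s),
      Polynomial.C (cf H.p (H.mult s + j) s θ) * Polynomial.X ^ j := by
    refine Polynomial.funext fun t => ?_
    rw [eval_line, pt_smul, pt_add, mul_one, smul_zero, add_zero, zero_add, h.eval_P,
      Polynomial.eval_finsetSum]
    refine Finset.sum_congr rfl fun j _ => ?_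
    rw [Polynomial.eval_mul, Polynomial.eval_C, Polynomial.eval_pow, Polynomial.eval_X, mul_comm]
  rw [← cf_one, cf, key, Polynomial.finsetSum_coeff]
  simp only [Polynomial.coeff_C_mul_X_pow]
  rw [Finset.sum_ite_eq]
  split_ifs with hj
  · rfl
  · symm
    refine Polynomial.coeff_eq_zero_of_natDegree_lt (lt_of_le_of_lt (H.natDegree_line _ _) ?_)
    simp only [Finset.mem_range] at hj
    omega

lemma SingB.continuous_P_der_θ (h : H.SingB s) (w : Fin n → ℝ) :
    Continuous fun q : ℝ × (Fin n → ℝ) => der h.P (pt q.1 q.2) (pt 0 w) := by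
  have h1 : Continuous fun q : ℝ × (Fin n → ℝ) => pt q.1 q.2 :=
    continuous_pt continuous_fst continuous_snd
  exact Continuous.comp (g := fun z : (Option (Fin n) → ℝ) × (Option (Fin n) → ℝ) => der h.P z.1 z.2)
    (continuous_der h.P) (h1.prodMk (continuous_const (y := pt 0 w)))

/-- Zeros near the point have limit directions in the zero set of the tangent polynomial. -/
lemma SingB.P_eq_zero (h : H.SingB s) {ρ : ℝ} (hρ : ρ ≠ 0) {θ : Fin n → ℝ}
    (h0 : eval (s + ρ • θ) H.p = 0) : eval (pt ρ θ) h.P = 0 := by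
  have := h.P_mul ρ θ
  rw [h0, mul_eq_zero] at this
  exact this.resolve_left (pow_ne_zero _ hρ)

/-- Near a singular point every other boundary point is smooth. -/
theorem SingB.isolated (h : H.SingB s) (hO : H.Ordinary) :
    ∀ᶠ x in 𝓝 s, x ∈ H.B → x ≠ s → H.Smooth x := by
  have hc : Continuous fun q : ℝ × (Fin n → ℝ) =>
      |eval (pt q.1 q.2) h.P| + |der h.P (pt q.1 q.2) (pt 0 H.e)| :=
    (((MvPolynomial.continuous_eval _).comp (continuous_pt continuous_fst continuous_snd)).abs).add
      (h.continuous_P_der_θ H.e).abs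
  have hev := (h.isCompact_link hO).eventually_forall_of_forall_eventually (x₀ := (0 : ℝ))
    (P := fun ρ θ => 0 < |eval (pt ρ θ) h.P| + |der h.P (pt ρ θ) (pt 0 H.e)|) fun θ hθ => by
      refine hc.continuousAt.eventually (lt_mem_nhds ?_)
      simp only [h.eval_P_zero, h.P_der_θ_zero]
      rcases eq_or_ne (eval θ h.T.p) 0 with h0 | h0
      · have := (h.link_smooth hO hθ h0).2.2
        rw [h0, abs_zero, zero_add]
        exact abs_pos.2 this.ne'
      · have := abs_pos.2 h0
        have := abs_nonneg (der h.T.p θ H.e)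
        linarith
  have hρ0 : Tendsto h.ρ (𝓝 s) (𝓝 0) := by
    simpa [h.ρ_s] using h.continuous_ρ.tendsto s
  filter_upwards [hρ0.eventually hev] with x hx hxB hne
  obtain ⟨hxK, hx1, hx0⟩ := hxB
  have hpos := h.ρ_pos hO hxK hx1 hne
  refine (H.smooth_or hxK hx0).resolve_right fun hsg => ?_
  have h3 := hx _ (h.θ_mem hO hxK hx1 hne)
  have hP := h.P_eq_zero hpos.ne' (θ := h.θ x) (by rw [← h.eq_θ hpos.ne']; exact hx0)
  have hd := h.P_der_θ' hpos.ne' (h.θ x) H.e
  rw [← h.eq_θ hpos.ne', hsg.der_eq, mul_eq_zero] at hd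
  rw [hP, hd.resolve_left (pow_ne_zero _ hpos.ne'), abs_zero, add_zero] at h3
  exact lt_irrefl _ h3

/-- There are finitely many singular points in the normalised boundary. -/
theorem finite_singB (hP : H.Pointed) (hO : H.Ordinary) : {s | H.SingB s}.Finite := by
  set S := {s | H.SingB s}
  have hS : IsCompact S := by
    refine (H.isCompact_B hP).of_isClosed_subset ?_ fun s hs => hs.1
    have e : S = H.B ∩ {x | der H.p x H.e = 0} := by
      ext x
      exact ⟨fun hx => ⟨hx.1, hx.2.2.2⟩, fun hx => ⟨hx.1, hx.1.1, hx.1.2.2, hx.2⟩⟩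
    rw [e]
    exact (H.isCompact_B hP).isClosed.inter (isClosed_eq
      ((continuous_der H.p).comp (continuous_id.prodMk continuous_const)) continuous_const)
  obtain ⟨t, ht, hcov⟩ := hS.elim_nhds_subcover
    (fun s => {x | H.SingB x → x = s}) fun s hs => by
      filter_upwards [hs.isolated hO] with x hx hxs
      by_contra hne
      exact (hx hxs.1 hne).2.2.ne' hxs.2.2.2
  refine t.finite_toSet.subset fun x hx => ?_
  have := hcov hx
  simp only [Set.mem_iUnion] at this
  obtain ⟨s, hs, hmem⟩ := this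
  rw [hmem hx]
  exact hs

end Hyp

end Vale.Agent.P256.Gen
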