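import Vale.Agent.P256.Gen.Local
import Vale.Agent.P256.Gen.Chart

/-!
Local sums of squares for the tangency kernel away from flat segments.
-/

namespace Vale.Agent.P256.Gen

open MvPolynomial Filter Topology
open scoped BigOperators

set_option linter.unusedSectionVars false

lemma sosNear_bot {α β : Type*} {F : Filter α} {G : Filter β} {S : α → β → ℝ}
    (h : F = ⊥ ∨ G = ⊥) : SOSNear F G S := by
  rcases h with rfl | rfl
  · exact ⟨∅, mem_bot, Set.univ, univ_mem, 0, Fin.elim0, fun k => k.elim0, fun a ha => ha.elim⟩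
  · exact ⟨Set.univ, univ_mem, ∅, mem_bot, 0, Fin.elim0, fun k => k.elim0,
      fun a _ b hb => hb.elim⟩

/-- The linear relation between two zeros in terms of the second order coefficients. -/
lemma relation {σ : Type*} [Fintype σ] {f : MvPolynomial σ ℝ} {M : σ → σ → Ker σ}
    (hM : ∀ x a : σ → ℝ, eval a f = eval x f + der f x (a - x)
        + ∑ i, ∑ j, ev (M i j) x a * (a i - x i) * (a j - x j)) (x a : σ → ℝ) :
    ∑ i, (eval x (pderiv i f) + ∑ j, ev (M i j) x a * (a j - x j)) * (a i - x i) =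
      eval a f - eval x f := by
  rw [hM x a, der]
  simp only [add_mul, Finset.sum_add_distrib, Finset.sum_mul, Pi.sub_apply]
  rw [Finset.sum_congr rfl fun i _ => Finset.sum_congr rfl fun j _ => show
    ev (M i j) x a * (a j - x j) * (a i - x i) = ev (M i j) x a * (a i - x i) * (a j - x j) by ring]
  ring

variable {n : ℕ}

namespace Hyp

variable {H : Hyp n}

/-- The tangency kernel. -/
noncomputable def slack (H : Hyp n) (a x : Fin n → ℝ) : ℝ := der H.p x a

lemma slack_eq (a x : Fin n → ℝ) :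
    H.slack a x = ∑ i, a i * eval x (pderiv i H.p) := by
  simp only [slack, der, mul_comm]

/-- Pairs with positive kernel. -/
theorem cell_pos {a₀ x₀ : Fin n → ℝ} (h : 0 < H.slack a₀ x₀) :
    SOSNear (𝓝 a₀) (𝓝 x₀) H.slack := by
  rw [slack_eq] at h
  refine (sosNear_lin (fun i a => a i) (fun i x => eval x (pderiv i H.p)) _ _
    (fun i => (continuous_apply i).tendsto a₀) (fun i => (MvPolynomial.continuous_eval _).tendsto x₀)
    h).congr (p := fun _ => True) (q := fun _ => True) (by simp) (by simp)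
    fun a _ x _ => slack_eq a x

/-- Boundary points approaching a singular point from a given direction. -/
noncomputable def SingB.blow {s : Fin n → ℝ} (h : H.SingB s) (θ : Fin n → ℝ) :
    Filter (Fin n → ℝ) :=
  𝓝[H.B \ {s}] s ⊓ Filter.comap h.θ (𝓝 θ)

variable {s : Fin n → ℝ}

lemma SingB.blow_ev (h : H.SingB s) (hO : H.Ordinary) (θ : Fin n → ℝ) :
    ∀ᶠ x in h.blow θ, x ∈ H.B ∧ 0 < h.ρ x ∧ x = s + h.ρ x • h.θ x ∧ h.θ x ∈ h.link ∧
      eval (pt (h.ρ x) (h.θ x)) h.P = 0 := by
  refine Filter.Eventually.filter_mono inf_le_left ?_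
  filter_upwards [self_mem_nhdsWithin] with x hx
  obtain ⟨hxB, hne⟩ := hx
  obtain ⟨hxK, h1, h0⟩ := hxB
  have hp := h.ρ_pos hO hxK h1 hne
  refine ⟨⟨hxK, h1, h0⟩, hp, h.eq_θ hp.ne', h.θ_mem hO hxK h1 hne, h.P_eq_zero hp.ne' ?_⟩
  rw [← h.eq_θ hp.ne']; exact h0

lemma SingB.blow_tendsto_θ (h : H.SingB s) (θ : Fin n → ℝ) :
    Tendsto h.θ (h.blow θ) (𝓝 θ) := tendsto_comap.mono_left inf_le_right

lemma SingB.blow_tendsto (h : H.SingB s) (θ : Fin n → ℝ) :
    Tendsto (fun x => pt (h.ρ x) (h.θ x)) (h.blow θ) (𝓝 (pt 0 θ)) := by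
  have hρ : Tendsto h.ρ (h.blow θ) (𝓝 0) := by
    have := h.continuous_ρ.tendsto s
    rw [h.ρ_s] at this
    exact this.mono_left (inf_le_left.trans nhdsWithin_le_nhds)
  refine tendsto_pi_nhds.2 fun o => ?_
  cases o with
  | none => exact hρ
  | some i => exact ((continuous_apply i).tendsto θ).comp (h.blow_tendsto_θ θ)

lemma SingB.blow_bot (h : H.SingB s) (hO : H.Ordinary) {θ : Fin n → ℝ}
    (h0 : eval θ h.T.p ≠ 0) : h.blow θ = ⊥ := by
  have hne : ∀ᶠ x in h.blow θ, eval (pt (h.ρ x) (h.θ x)) h.P ≠ 0 :=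
    (((MvPolynomial.continuous_eval _).tendsto _).comp (h.blow_tendsto θ)).eventually_ne
      (by rw [h.eval_P_zero]; exact h0)
  exact empty_mem_iff_bot.1 ((hne.and (h.blow_ev hO θ)).mono fun x hx => absurd hx.2.2.2.2.2 hx.1)

/-- First point near a singular point, in a direction where the normalised kernel is positive. -/
theorem cell_first (h : H.SingB s) (hO : H.Ordinary) {θ : Fin n → ℝ} {G : Filter (Fin n → ℝ)}
    (N : (Fin n → ℝ) → ℝ) (g : Fin n → (Fin n → ℝ) → ℝ) (d : Fin n → ℝ)
    (hG : ∀ᶠ x in G, x ∈ H.K ∧ 0 ≤ N x ∧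
      ∀ w, H.τ w = 0 → der H.p x w = N x * ∑ i, w i * g i x)
    (hg : ∀ i, Tendsto (g i) G (𝓝 (d i))) (hpos : 0 < ∑ i, θ i * d i) :
    SOSNear (h.blow θ) G H.slack := by
  have h1 : SOSNear (h.blow θ) G (fun _ x => (1 : ℝ) * der H.p x s) :=
    sosNear_prod (fun _ => (1 : ℝ)) (fun x => der H.p x s) (Eventually.of_forall fun _ => zero_le_one)
      (hG.mono fun x hx => H.der_nonneg hx.1 h.mem)
  have h2 := (sosNear_prod (F := h.blow θ) (G := G) h.ρ N
    ((h.blow_ev hO θ).mono fun a ha => ha.2.1.le) (hG.mono fun x hx => hx.2.1)).mul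
    (sosNear_lin (fun i a => h.θ a i) g θ d
      (fun i => ((continuous_apply i).tendsto θ).comp (h.blow_tendsto_θ θ)) hg hpos)
  refine (h1.add h2).congr (h.blow_ev hO θ) hG fun a ha x hx => ?_
  obtain ⟨-, -, e, hl, -⟩ := ha
  show der H.p x a = _
  conv_lhs => rw [e]
  rw [der_add, der_smul, hx.2.2 _ hl.2.1]
  ring

/-- The data near a singular second point. -/
lemma SingB.second_data (h : H.SingB s) (hO : H.Ordinary) (θ : Fin n → ℝ) :
    (∀ᶠ x in h.blow θ, x ∈ H.K ∧ 0 ≤ h.ρ x ^ (H.mult s - 1) ∧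
      ∀ w : Fin n → ℝ, der H.p x w = h.ρ x ^ (H.mult s - 1) *
        ∑ i, w i * eval (pt (h.ρ x) (h.θ x)) (pderiv (some i) h.P)) ∧
    (∀ i, Tendsto (fun x => eval (pt (h.ρ x) (h.θ x)) (pderiv (some i) h.P)) (h.blow θ)
      (𝓝 (eval (pt 0 θ) (pderiv (some i) h.P)))) ∧
    ∀ w : Fin n → ℝ, ∑ i, w i * eval (pt 0 θ) (pderiv (some i) h.P) = der h.T.p θ w := by
  have hd : ∀ ρ θ' (w : Fin n → ℝ),
      ∑ i, w i * eval (pt ρ θ') (pderiv (some i) h.P) = der h.P (pt ρ θ') (pt 0 w) := by
    intro ρ θ' w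
    rw [der, Fintype.sum_option]
    simp [mul_comm]
  refine ⟨(h.blow_ev hO θ).mono fun x hx => ⟨hx.1.1, pow_nonneg hx.2.1.le _, fun w => ?_⟩,
    fun i => ((MvPolynomial.continuous_eval _).tendsto _).comp (h.blow_tendsto θ), fun w => ?_⟩
  · conv_lhs => rw [hx.2.2.1]
    rw [hd, h.P_der_θ' hx.2.1.ne']
  · rw [hd, h.P_der_θ_zero]

/-- Second point near a singular point. -/
theorem cell_second (h : H.SingB s) (hO : H.Ordinary) {θ a₀ : Fin n → ℝ}
    (hpos : 0 < der h.T.p θ a₀) : SOSNear (𝓝 a₀) (h.blow θ) H.slack := by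
  obtain ⟨h1, h2, h3⟩ := h.second_data hO θ
  refine ((sosNear_prod (fun _ : Fin n → ℝ => (1 : ℝ)) (fun x => h.ρ x ^ (H.mult s - 1))
    (Eventually.of_forall fun _ => zero_le_one) (h1.mono fun x hx => hx.2.1)).mul
    (sosNear_lin (fun i a => a i) (fun i x => eval (pt (h.ρ x) (h.θ x)) (pderiv (some i) h.P))
      a₀ _ (fun i => (continuous_apply i).tendsto a₀) h2 (by rw [h3]; exact hpos))).congr
    (p := fun _ => True) (Eventually.of_forall fun _ => trivial) h1 fun a _ x hx => ?_
  rw [one_mul]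
  exact hx.2.2 a

/-- The diagonal at a smooth point without flat segment. -/
theorem cell_diag {x₀ : Fin n → ℝ} (hx₀ : H.Smooth x₀)
    (hflat : ∀ v, H.τ v = 0 → line H.p x₀ v = 0 → v = 0) :
    SOSNear (𝓝[H.B] x₀) (𝓝[H.B] x₀) H.slack := by
  obtain ⟨M, hMs, hM⟩ := exists_quad H.p
  have hMn : ∀ i j, NiceAt x₀ x₀ (fun a x => ev (M i j) x a) := fun i j => by
    have h1 := niceAt_eval (rename Sum.swap (M i j)) (fun i (a : Fin n → ℝ) => a i)
      (fun i (x : Fin n → ℝ) => x i) (a₀ := x₀) (b₀ := x₀)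
      (fun i => (continuous_apply i).continuousAt) (fun i => (continuous_apply i).continuousAt)
    refine niceAt_congr h1 fun a x => ?_
    rw [eval_rename, ev]
    congr 2
    funext q
    rcases q with q | q <;> rfl
  have hvn : ∀ i, NiceAt x₀ x₀ (fun (a x : Fin n → ℝ) => a i - x i) := fun i =>
    (niceAt_left (continuous_apply i).continuousAt).sub (niceAt_right (continuous_apply i).continuousAt)
  let L : Unit ⊕ Unit → Fin n → (Fin n → ℝ) → (Fin n → ℝ) → ℝ := fun k i a x =>
    k.elim (fun _ => eval x (pderiv i H.p) + ∑ j, ev (M i j) x a * (a j - x j))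
      (fun _ => eval H.e (pderiv i H.p))
  have hL : ∀ k i, NiceAt x₀ x₀ (L k i) := by
    rintro (k | k) i
    · exact (niceAt_right (MvPolynomial.continuous_eval _).continuousAt).add
        (niceAt_sum Finset.univ fun j _ => (hMn i j).mul (hvn j))
    · exact niceAt_const _
  obtain ⟨U, hU, V, hV, hS⟩ := quad_sos (fun i a x => a i - x i) (fun i => (hvn i).finRank)
    (fun i j a x => -ev (M i j) x a) (fun i j => (hMn i j).neg) L hL (A := H.B) (B := H.B)
    (fun ξ hξ hk => by
      have hd : der H.p x₀ ξ = 0 := by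
        rw [der, ← hk (Sum.inl ())]
        simp [L]
      have hτ : H.τ ξ = 0 := hk (Sum.inr ())
      simp only [neg_mul, Finset.sum_neg_distrib, ← cf_two H.p hM, neg_pos]
      exact lt_of_le_of_ne (hx₀.cf_two_nonpos hd) fun h2 =>
        hξ (hflat ξ hτ (hx₀.line_eq_zero hd h2)))
    (fun a ha x hx k => by
      rcases k with k | k
      · simp only [L, Sum.elim_inl]
        rw [relation hM x a, ha.2.2, hx.2.2, sub_zero]
      · show H.τ (a - x) = 0
        rw [map_sub, ha.2.1, hx.2.1, sub_self])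
  refine (show SOSNear (𝓝[H.B] x₀) (𝓝[H.B] x₀) _ from
    ⟨_, inter_mem_nhdsWithin' hU, _, inter_mem_nhdsWithin' hV, hS⟩).congr
    self_mem_nhdsWithin self_mem_nhdsWithin fun a ha x hx => ?_
  simp only [neg_mul, Finset.sum_neg_distrib]
  have hd := hM x a
  rw [ha.2.2, hx.2.2, der_sub, H.der_self, hx.2.2] at hd
  simp only [mul_zero, sub_zero, zero_add] at hd
  show der H.p x a = _
  linarith
where
  inter_mem_nhdsWithin' {X : Type} [TopologicalSpace X] {U A : Set X} {x : X} (h : U ∈ 𝓝 x) :
      U ∩ A ∈ 𝓝[A] x := inter_mem (nhdsWithin_le_nhds h) self_mem_nhdsWithin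

/-- Two points near the same singular point in a common direction leaving the boundary. -/
theorem cell_node (h : H.SingB s) (hO : H.Ordinary) {θ₀ : Fin n → ℝ} (hθ : θ₀ ∈ h.link)
    (h0 : eval θ₀ h.T.p = 0) (hF : cf H.p (H.mult s + 1) s θ₀ < 0) :
    SOSNear (h.blow θ₀) (h.blow θ₀) H.slack := by
  obtain ⟨M, hMs, hM⟩ := exists_quad h.P
  set z₀ := pt 0 θ₀ with hz
  have hMn : ∀ i j, NiceAt z₀ z₀ (fun a x => ev (M i j) x a) := fun i j => by
    have h1 := niceAt_eval (rename Sum.swap (M i j)) (fun i (a : Option (Fin n) → ℝ) => a i)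
      (fun i (x : Option (Fin n) → ℝ) => x i) (a₀ := z₀) (b₀ := z₀)
      (fun i => (continuous_apply i).continuousAt) (fun i => (continuous_apply i).continuousAt)
    refine niceAt_congr h1 fun a x => ?_
    rw [eval_rename, ev]
    congr 2
    funext q
    rcases q with q | q <;> rfl
  have hΔ : ∀ o, NiceAt z₀ z₀ (fun (a x : Option (Fin n) → ℝ) => a o - x o) := fun o =>
    (niceAt_left (continuous_apply o).continuousAt).sub (niceAt_right (continuous_apply o).continuousAt)
  have hr : NiceAt z₀ z₀ (fun (a : Option (Fin n) → ℝ) (_ : Option (Fin n) → ℝ) =>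
      Real.sqrt (a none)) :=
    niceAt_left (Real.continuous_sqrt.comp (continuous_apply none)).continuousAt
  let v : Option (Fin n) → (Option (Fin n) → ℝ) → (Option (Fin n) → ℝ) → ℝ := fun o a x =>
    o.elim (a none - x none) (fun i => Real.sqrt (a none) * (a (some i) - x (some i)))
  let N : Option (Fin n) → Option (Fin n) → (Option (Fin n) → ℝ) → (Option (Fin n) → ℝ) → ℝ :=
    fun o o' a x => match o, o' with
      | none, none => -eval x (pderiv none h.P) - a none * ev (M none none) x a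
      | none, some j => -(Real.sqrt (a none) * ev (M none (some j)) x a)
      | some i, none => -(Real.sqrt (a none) * ev (M (some i) none) x a)
      | some i, some j => -ev (M (some i) (some j)) x a
  let Lin : Option (Fin n) → (Option (Fin n) → ℝ) → (Option (Fin n) → ℝ) → ℝ := fun o a x =>
    eval x (pderiv o h.P) + ∑ j, ev (M o j) x a * (a j - x j)
  have hLin : ∀ o, NiceAt z₀ z₀ (Lin o) := fun o =>
    (niceAt_right (MvPolynomial.continuous_eval _).continuousAt).add
      (niceAt_sum Finset.univ fun j _ => (hMn o j).mul (hΔ j))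
  let L : Fin 3 → Option (Fin n) → (Option (Fin n) → ℝ) → (Option (Fin n) → ℝ) → ℝ :=
    fun k o a x => o.elim (if k = 0 then Real.sqrt (a none) * Lin none a x else 0)
      (fun i => if k = 0 then Lin (some i) a x else
        if k = 1 then eval H.e (pderiv i H.p) else eval h.T.e (pderiv i h.T.p))
  have hL : ∀ k o, NiceAt z₀ z₀ (L k o) := by
    intro k o
    cases o with
    | none =>
      by_cases hk : k = 0 <;> simp only [L, Option.elim_none, hk, if_true, if_false]
      · exact hr.mul (hLin none)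
      · exact niceAt_const 0
    | some i =>
      simp only [L, Option.elim_some]
      split_ifs
      · exact hLin _
      all_goals exact niceAt_const _
  have hN : ∀ o o', NiceAt z₀ z₀ (N o o') := by
    intro o o'
    have ha : NiceAt z₀ z₀ (fun (a : Option (Fin n) → ℝ) (_ : Option (Fin n) → ℝ) => a none) :=
      niceAt_left (continuous_apply none).continuousAt
    cases o <;> cases o' <;> simp only [N]
    · exact (niceAt_right (MvPolynomial.continuous_eval _).continuousAt).neg.sub
        (ha.mul (hMn _ _))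
    · exact (hr.mul (hMn _ _)).neg
    · exact (hr.mul (hMn _ _)).neg
    · exact (hMn _ _).neg
  have hvF : ∀ o, FinRank (v o) := by
    intro o
    cases o with
    | none => exact (hΔ none).finRank
    | some i => exact (hr.mul (hΔ (some i))).finRank
  set A : Set (Option (Fin n) → ℝ) := {q | 0 ≤ q none ∧ eval q h.P = 0 ∧
    (fun i => q (some i)) ∈ h.link} with hA
  obtain ⟨U, hU, V, hV, hS⟩ := quad_sos v hvF N hN L hL (A := A) (B := A)
    (fun ξ hξ hk => by
      set η : Fin n → ℝ := fun i => ξ (some i) with hη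
      have hd : der h.T.p θ₀ η = 0 := by
        rw [← h.P_der_θ_zero, der, Fintype.sum_option]
        have hh := hk 0
        rw [Fintype.sum_option] at hh
        simpa [L, Lin, hz, η] using hh
      have hτ : H.τ η = 0 := by
        show der H.p H.e η = 0
        rw [der]
        have hh := hk 1
        rw [Fintype.sum_option] at hh
        simpa [L, η] using hh
      have hℓ : h.T.τ η = 0 := by
        show der h.T.p h.T.e η = 0
        rw [der]
        have hh := hk 2
        rw [Fintype.sum_option] at hh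
        simpa [L, η] using hh
      have hP1 : eval z₀ (pderiv none h.P) = cf H.p (H.mult s + 1) s θ₀ := by
        rw [← h.P_der_ρ_zero, der, Fintype.sum_option]
        simp [hz]
      have hMT : ∑ i, ∑ j, ev (M (some i) (some j)) z₀ z₀ * η i * η j = cf h.T.p 2 θ₀ η := by
        have key : line h.P z₀ (pt 0 η) = line h.T.p θ₀ η := by
          refine Polynomial.funext fun t => ?_
          rw [eval_line, hz, pt_smul, pt_add, mul_zero, add_zero, h.eval_P_zero, eval_line]
        rw [cf, ← key, ← cf, cf_two h.P hM, Fintype.sum_option]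
        simp [Fintype.sum_option]
      have e : ∑ o, ∑ o', N o o' z₀ z₀ * ξ o * ξ o' =
          -cf H.p (H.mult s + 1) s θ₀ * ξ none ^ 2 - cf h.T.p 2 θ₀ η := by
        rw [hz] at hP1
        rw [Fintype.sum_option]
        simp only [Fintype.sum_option, N, hP1, ← hMT, hz, pt_none, Real.sqrt_zero, zero_mul,
          neg_zero, sub_zero, Finset.sum_const_zero, add_zero, neg_mul, Finset.sum_neg_distrib,
          zero_add, η]
        ring
      rw [e]
      rcases eq_or_ne η 0 with hη0 | hη0
      · have hne : ξ none ≠ 0 := fun h00 => hξ (funext fun o => by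
          cases o with
          | none => exact h00
          | some i => exact congrFun hη0 i)
        rw [hη0, ← zero_smul ℝ θ₀, cf_smul]
        have := mul_pos (neg_pos.2 hF) (sq_pos_of_ne_zero hne)
        simpa using this
      · have h2 := h.curved hO hθ h0 hτ hℓ hd hη0
        have : 0 ≤ -cf H.p (H.mult s + 1) s θ₀ * ξ none ^ 2 :=
          mul_nonneg (neg_nonneg.2 hF.le) (sq_nonneg _)
        linarith)
    (fun a ha x hx k => by
      rw [Fintype.sum_option]
      fin_cases k
      · have := relation hM x a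
        rw [ha.2.1, hx.2.1, sub_zero, Fintype.sum_option] at this
        have e : ∑ i : Fin n, L 0 (some i) a x * v (some i) a x = Real.sqrt (a none) *
            ∑ i : Fin n, Lin (some i) a x * (a (some i) - x (some i)) := by
          rw [Finset.mul_sum]
          exact Finset.sum_congr rfl fun i _ => by simp [L, v]; ring
        simp only [Fin.zero_eta]
        rw [e]
        simp only [L, v, Option.elim_none, if_true]
        linear_combination Real.sqrt (a none) * this
      · simp only [L, v, Option.elim_none, Option.elim_some]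
        simp only [Fin.mk_one, one_ne_zero, if_false, if_true, zero_mul, zero_add]
        have h1 : ∑ i, eval H.e (pderiv i H.p) * (a (some i) - x (some i)) =
            H.τ ((fun i => a (some i)) - fun i => x (some i)) := rfl
        simp only [mul_left_comm _ (Real.sqrt (a none)), ← Finset.mul_sum]
        rw [h1, map_sub, ha.2.2.2.1, hx.2.2.2.1, sub_zero, mul_zero]
      · simp only [L, v, Option.elim_none, Option.elim_some]
        simp only [Fin.reduceFinMk, show (2 : Fin 3) ≠ 0 by decide, show (2 : Fin 3) ≠ 1 by decide,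
          if_false, zero_mul, zero_add]
        have h1 : ∑ i, eval h.T.e (pderiv i h.T.p) * (a (some i) - x (some i)) =
            h.T.τ ((fun i => a (some i)) - fun i => x (some i)) := rfl
        simp only [mul_left_comm _ (Real.sqrt (a none)), ← Finset.mul_sum]
        rw [h1, map_sub, ha.2.2.2.2, hx.2.2.2.2, sub_self, mul_zero])
  have hA' : ∀ᶠ x in h.blow θ₀, pt (h.ρ x) (h.θ x) ∈ A :=
    (h.blow_ev hO θ₀).mono fun x hx => ⟨hx.2.1.le, hx.2.2.2.2, hx.2.2.2.1⟩
  have hφ : Tendsto (fun x => pt (h.ρ x) (h.θ x)) (h.blow θ₀) (𝓝[A] z₀) :=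
    tendsto_nhdsWithin_iff.2 ⟨h.blow_tendsto θ₀, hA'⟩
  have hQ := SOSNear.comap (F := 𝓝[A] z₀) (G := 𝓝[A] z₀)
    ⟨_, inter_mem (nhdsWithin_le_nhds hU) self_mem_nhdsWithin, _,
      inter_mem (nhdsWithin_le_nhds hV) self_mem_nhdsWithin, hS⟩ hφ hφ
  refine ((sosNear_prod (fun _ : Fin n → ℝ => (1 : ℝ)) (fun x => h.ρ x ^ (H.mult s - 1))
    (Eventually.of_forall fun _ => zero_le_one)
    ((h.blow_ev hO θ₀).mono fun x hx => pow_nonneg hx.2.1.le _)).mul hQ).congr
    (h.blow_ev hO θ₀) (h.blow_ev hO θ₀) fun a ha x hx => ?_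
  obtain ⟨-, hρa, ea, -, hPa⟩ := ha
  obtain ⟨hxB, hρx, ex, -, hPx⟩ := hx
  set r := h.ρ a
  set q := h.ρ x
  set t₂ := h.θ a
  set t₁ := h.θ x
  -- the kernel in polar coordinates
  have hS1 : der H.p x a = q ^ (H.mult s - 1) *
      (r * der h.P (pt q t₁) (pt 0 (t₂ - t₁)) +
        (r - q) * (q * der h.P (pt q t₁) (pt 1 0))) := by
    have h1 := h.P_der_θ' hρx.ne' t₁ (t₂ - t₁)
    have h2 := h.P_der_ρ q t₁
    rw [hPx, mul_zero, zero_add] at h2
    have h3 : q ^ H.mult s = q ^ (H.mult s - 1) * q := by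
      rw [← pow_succ]; congr 1; have := h.mult_pos; omega
    rw [← ex] at h1 h2
    have e : a - x = r • (t₂ - t₁) + (r - q) • t₁ := by
      rw [ea, ex]; module
    have : der H.p x a = der H.p x (a - x) := by
      rw [der_sub, H.der_self, hxB.2.2, mul_zero, sub_zero]
    rw [this, e, der_add, der_smul, der_smul, ← h1, ← h2, h3]
    ring
  have hq : der h.P (pt q t₁) (pt (r - q) (t₂ - t₁)) +
      ∑ o, ∑ o', ev (M o o') (pt q t₁) (pt r t₂) * (pt r t₂ o - pt q t₁ o) *
        (pt r t₂ o' - pt q t₁ o') = 0 := by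
    have := hM (pt q t₁) (pt r t₂)
    rw [hPa, hPx, pt_sub] at this
    linarith
  have hsplit : der h.P (pt q t₁) (pt (r - q) (t₂ - t₁)) =
      (r - q) * der h.P (pt q t₁) (pt 1 0) + der h.P (pt q t₁) (pt 0 (t₂ - t₁)) := by
    rw [← der_smul, ← der_add, pt_smul, pt_add]
    simp
  rw [hsplit] at hq
  have hd1 : der h.P (pt q t₁) (pt 1 0) = eval (pt q t₁) (pderiv none h.P) := by
    rw [der, Fintype.sum_option]; simp
  rw [hd1] at hq hS1
  show der H.p x a = _
  rw [hS1, one_mul]
  congr 1
  simp only [v, N, Fintype.sum_option, Option.elim_none, Option.elim_some, pt_none, pt_some,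
    Finset.sum_add_distrib] at hq ⊢
  set F₀ := fun j : Fin n => ev (M none (some j)) (pt q t₁) (pt r t₂)
  set F₁ := fun j : Fin n => ev (M (some j) none) (pt q t₁) (pt r t₂)
  set F₂ := fun i j : Fin n => ev (M (some i) (some j)) (pt q t₁) (pt r t₂)
  set d : Fin n → ℝ := fun i => t₂ i - t₁ i
  set A₀ := ∑ j, F₀ j * d j
  set A₁ := ∑ j, F₁ j * d j
  set A₂ := ∑ i, ∑ j, F₂ i j * d i * d j
  have hr2 := Real.mul_self_sqrt hρa.le
  have g0 : ∑ j, -(Real.sqrt r * F₀ j) * (r - q) * (Real.sqrt r * d j) = -(r * (r - q) * A₀) := by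
    simp only [A₀, Finset.mul_sum, ← Finset.sum_neg_distrib]
    exact Finset.sum_congr rfl fun j _ => by
      linear_combination (-(F₀ j * (r - q) * d j)) * hr2
  have g1 : ∑ j, -(Real.sqrt r * F₁ j) * (Real.sqrt r * d j) * (r - q) = -(r * (r - q) * A₁) := by
    simp only [A₁, Finset.mul_sum, ← Finset.sum_neg_distrib]
    exact Finset.sum_congr rfl fun j _ => by
      linear_combination (-(F₁ j * (r - q) * d j)) * hr2
  have g2 : ∑ i, ∑ j, -F₂ i j * (Real.sqrt r * d i) * (Real.sqrt r * d j) = -(r * A₂) := by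
    simp only [A₂, Finset.mul_sum, ← Finset.sum_neg_distrib]
    exact Finset.sum_congr rfl fun i _ => Finset.sum_congr rfl fun j _ => by
      linear_combination (-(F₂ i j * d i * d j)) * hr2
  have q0 : ∑ j, F₀ j * (r - q) * d j = (r - q) * A₀ := by
    simp only [A₀, Finset.mul_sum]
    exact Finset.sum_congr rfl fun j _ => by ring
  have q1 : ∑ j, F₁ j * d j * (r - q) = (r - q) * A₁ := by
    simp only [A₁, Finset.mul_sum]
    exact Finset.sum_congr rfl fun j _ => by ring
  simp only [F₀, F₁, F₂, d] at g0 g1 g2 q0 q1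
  rw [g0, g1, g2]
  rw [q0, q1] at hq
  linear_combination r * hq

end Hyp

end Vale.Agent.P256.Gen
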