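import Vale.Agent.P256.Gen.Hyper

/-!
Coefficients along lines as polynomials in both arguments, and their derivatives.
-/

namespace Vale.Agent.P256.Gen

open MvPolynomial Filter Topology
open scoped BigOperators Polynomial

set_option linter.unusedSectionVars false

variable {σ : Type*} [Fintype σ] (f : MvPolynomial σ ℝ)

lemma lineK_mul_X (a : MvPolynomial σ ℝ) (k : σ) :
    lineK (a * X k) = lineK a * (Polynomial.C (X (Sum.inl k)) + Polynomial.X * Polynomial.C (X (Sum.inr k))) := by
  simp [lineK, lineS]

lemma lineK_add (a b : MvPolynomial σ ℝ) : lineK (a + b) = lineK a + lineK b := by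
  simp [lineK, lineS]

lemma lineK_C (c : ℝ) : lineK (C c : MvPolynomial σ ℝ) = Polynomial.C (C c) := by
  simp [lineK, lineS, IsScalarTower.algebraMap_apply ℝ (Ker σ) (Ker σ)[X], MvPolynomial.algebraMap_eq]

/-- Derivatives of the coefficients in the base point and in the direction. -/
lemma pderiv_coeff (i : σ) : ∀ j : ℕ,
    pderiv (Sum.inl i) ((lineK f).coeff j) = (lineK (pderiv i f)).coeff j ∧
    pderiv (Sum.inr i) ((lineK f).coeff (j + 1)) = (lineK (pderiv i f)).coeff j ∧
    pderiv (Sum.inr i) ((lineK f).coeff 0) = 0 := by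
  classical
  induction f using MvPolynomial.induction_on with
  | C c =>
    intro j
    have h0 : lineK (0 : MvPolynomial σ ℝ) = 0 := by simp [lineK, lineS]
    rcases j with _ | j <;> simp [lineK_C, Polynomial.coeff_C, h0]
  | add a b ha hb =>
    intro j
    obtain ⟨a1, a2, a3⟩ := ha j
    obtain ⟨b1, b2, b3⟩ := hb j
    simp only [lineK_add, map_add, Polynomial.coeff_add, a1, a2, a3, b1, b2, b3, add_zero, and_self]
  | mul_X a k ha =>
    intro j
    have hc0 : (lineK (a * X k)).coeff 0 = (lineK a).coeff 0 * X (Sum.inl k) := by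
      rw [lineK_mul_X, Polynomial.mul_coeff_zero]; simp
    have hcs : ∀ q, (lineK (a * X k)).coeff (q + 1) =
        (lineK a).coeff (q + 1) * X (Sum.inl k) + (lineK a).coeff q * X (Sum.inr k) := by
      intro q
      rw [lineK_mul_X, mul_add, ← mul_assoc, Polynomial.coeff_add, Polynomial.coeff_mul_C,
        Polynomial.coeff_mul_C, Polynomial.coeff_mul_X]
    have hd : pderiv i (a * X k) = pderiv i a * X k + a * C (if k = i then 1 else 0) := by
      rw [pderiv_mul, pderiv_X, Pi.single_apply]
      split_ifs <;> simp_all
    have hl : lineK (pderiv i (a * X k)) = lineK (pderiv i a) *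
        (Polynomial.C (X (Sum.inl k)) + Polynomial.X * Polynomial.C (X (Sum.inr k))) +
        lineK a * Polynomial.C (C (if k = i then 1 else 0)) := by
      rw [hd, lineK_add, lineK_mul_X]
      congr 1
      by_cases h : k = i <;> simp [lineK, lineS, h]
    have hl0 : (lineK (pderiv i (a * X k))).coeff 0 = (lineK (pderiv i a)).coeff 0 * X (Sum.inl k) +
        (lineK a).coeff 0 * C (if k = i then 1 else 0) := by
      rw [hl, Polynomial.coeff_add, Polynomial.mul_coeff_zero, Polynomial.coeff_mul_C]; simp
    have hls : ∀ q, (lineK (pderiv i (a * X k))).coeff (q + 1) =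
        (lineK (pderiv i a)).coeff (q + 1) * X (Sum.inl k) +
        (lineK (pderiv i a)).coeff q * X (Sum.inr k) +
        (lineK a).coeff (q + 1) * C (if k = i then 1 else 0) := by
      intro q
      rw [hl, mul_add, ← mul_assoc, Polynomial.coeff_add, Polynomial.coeff_add,
        Polynomial.coeff_mul_C, Polynomial.coeff_mul_C, Polynomial.coeff_mul_C,
        Polynomial.coeff_mul_X]
    have h3 : pderiv (Sum.inr i) ((lineK (a * X k)).coeff 0) = 0 := by
      rw [hc0, pderiv_mul, (ha 0).2.2, pderiv_X, Pi.single_apply]; simp
    refine ⟨?_, ?_, h3⟩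
    · rcases j with _ | q
      · rw [hc0, hl0, pderiv_mul, (ha 0).1, pderiv_X, Pi.single_apply]
        by_cases h : k = i <;> simp [h]
      · rw [hcs, hls, map_add, pderiv_mul, pderiv_mul, (ha (q + 1)).1, (ha q).1, pderiv_X,
          pderiv_X, Pi.single_apply, Pi.single_apply]
        by_cases h : k = i <;> simp [h] <;> ring
    · rcases j with _ | q
      · rw [hcs, hl0, map_add, pderiv_mul, pderiv_mul, (ha 0).2.1, (ha 0).2.2, pderiv_X,
          pderiv_X, Pi.single_apply, Pi.single_apply]
        by_cases h : k = i <;> simp [h] <;> ring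
      · rw [hcs, hls, map_add, pderiv_mul, pderiv_mul, (ha (q + 1)).2.1, (ha q).2.1, pderiv_X,
          pderiv_X, Pi.single_apply, Pi.single_apply]
        by_cases h : k = i <;> simp [h] <;> ring

/-- The coefficient of `t ^ j` of `f (x + t v)` as a polynomial in the direction. -/
noncomputable def dirPoly (j : ℕ) (x : σ → ℝ) : MvPolynomial σ ℝ :=
  aeval (Sum.elim (fun i => C (x i)) X) ((lineK f).coeff j)

lemma eval_subst (P : Ker σ) (x v : σ → ℝ) :
    eval v (aeval (Sum.elim (fun i => C (x i)) X) P) = ev P x v := by
  induction P using MvPolynomial.induction_on with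
  | C c => simp
  | add a b ha hb => simp only [map_add, ha, hb, ev_add]
  | mul_X a k ha => rcases k with k | k <;> simp [-MvPolynomial.aeval_eq_bind₁, ha]

lemma eval_dirPoly (j : ℕ) (x v : σ → ℝ) : eval v (dirPoly f j x) = cf f j x v := by
  rw [dirPoly, eval_subst, cf_eq_ev]

lemma pderiv_subst [DecidableEq σ] (P : Ker σ) (x : σ → ℝ) (i : σ) :
    pderiv i (aeval (Sum.elim (fun i => C (x i)) X) P) =
      aeval (Sum.elim (fun i => C (x i)) X) (pderiv (Sum.inr i) P) := by
  induction P using MvPolynomial.induction_on with
  | C c => simp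
  | add a b ha hb => simp only [map_add, ha, hb, ev_add]
  | mul_X a k ha =>
    rw [map_mul, aeval_X, pderiv_mul, pderiv_mul, ha, map_add, map_mul, map_mul, aeval_X,
      pderiv_X, Pi.single_apply]
    rcases k with k | k
    · simp
    · by_cases h : k = i <;> simp [pderiv_X, Pi.single_apply, h]

/-- The gradient of a coefficient in the direction. -/
lemma der_dirPoly (j : ℕ) (x v w : σ → ℝ) :
    der (dirPoly f (j + 1) x) v w = ∑ i, cf (pderiv i f) j x v * w i := by
  classical
  refine Finset.sum_congr rfl fun i _ => ?_
  rw [dirPoly, pderiv_subst, eval_subst, (pderiv_coeff f i j).2.1, cf_eq_ev]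

/-- The derivative along `w` of a coefficient in the base point. -/
noncomputable def basePoly (j : ℕ) (v : σ → ℝ) : MvPolynomial σ ℝ :=
  aeval (Sum.elim X (fun i => C (v i))) ((lineK f).coeff j)

lemma eval_basePoly (j : ℕ) (x v : σ → ℝ) : eval x (basePoly f j v) = cf f j x v := by
  rw [basePoly, cf_eq_ev]
  induction (lineK f).coeff j using MvPolynomial.induction_on with
  | C c => simp
  | add a b ha hb => simp only [map_add, ha, hb, ev_add]
  | mul_X a k ha => rcases k with k | k <;> simp [-MvPolynomial.aeval_eq_bind₁, ha]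

lemma der_basePoly (j : ℕ) (x v w : σ → ℝ) :
    der (basePoly f j v) x w = ∑ i, cf (pderiv i f) j x v * w i := by
  classical
  refine Finset.sum_congr rfl fun i _ => ?_
  congr 1
  rw [cf_eq_ev, ← (pderiv_coeff f i j).1, basePoly]
  induction (lineK f).coeff j using MvPolynomial.induction_on with
  | C c => simp
  | add a b ha hb => simp only [map_add, ha, hb, ev_add]
  | mul_X a k ha =>
    rw [map_mul, aeval_X, pderiv_mul, pderiv_mul, map_add, map_mul, ev_add, ev_mul, map_mul, ha,
      ev_mul, pderiv_X, Pi.single_apply]
    have e : eval x (aeval (Sum.elim X fun i => C (v i)) a) = ev a x v := by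
      clear ha
      induction a using MvPolynomial.induction_on with
      | C c => simp
      | add a b ha hb => simp only [map_add, ha, hb, ev_add]
      | mul_X a q ha => rcases q with q | q <;> simp [-MvPolynomial.aeval_eq_bind₁, ha]
    rw [e]
    rcases k with k | k
    · by_cases h : k = i <;> simp [pderiv_X, Pi.single_apply, h]
    · simp [ev]

lemma cf_smul (j : ℕ) (x v : σ → ℝ) (c : ℝ) : cf f j x (c • v) = c ^ j * cf f j x v := by
  have h : line f x (c • v) = (line f x v).comp (Polynomial.C c * Polynomial.X) := by
    refine Polynomial.funext fun t => ?_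
    rw [Polynomial.eval_comp, eval_line, eval_line]
    simp [smul_smul, mul_comm t c]
  rw [cf, h, Polynomial.comp_C_mul_X_coeff, cf, mul_comm]

/-- A polynomial in one variable given by a polynomial along a line in the base point. -/
lemma base_line (j : ℕ) (x v w : σ → ℝ) (t : ℝ) :
    (line (basePoly f j v) x w).eval t = cf f j (x + t • w) v := by
  rw [eval_line, eval_basePoly]

end Vale.Agent.P256.Gen
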