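import Vale.Agent.P256.Gen.Cells

/-!
Flat segments between singular points and the polynomial in segment coordinates.
-/

namespace Vale.Agent.P256.Gen

open MvPolynomial Filter Topology
open scoped BigOperators Polynomial

set_option linter.unusedSectionVars false

variable {σ : Type*} [Fintype σ]

/-- Substituting polynomial paths. -/
lemma eval_path (f : MvPolynomial σ ℝ) (g : σ → ℝ[X]) (t : ℝ) :
    (aeval g f).eval t = eval (fun i => (g i).eval t) f := by
  induction f using MvPolynomial.induction_on with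
  | C c => simp
  | add a b ha hb => simp only [map_add, Polynomial.eval_add, ha, hb]
  | mul_X a k ha => simp only [map_mul, aeval_X, Polynomial.eval_mul, ha, eval_X]

/-- The chain rule along polynomial paths. -/
lemma derivative_path (f : MvPolynomial σ ℝ) (g : σ → ℝ[X]) (t : ℝ) :
    (aeval g f).derivative.eval t =
      der f (fun i => (g i).eval t) (fun i => (g i).derivative.eval t) := by
  classical
  induction f using MvPolynomial.induction_on with
  | C c => simp [der]
  | add a b ha hb =>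
    simp only [map_add, Polynomial.eval_add, ha, hb, der, add_mul, Finset.sum_add_distrib]
  | mul_X a k ha =>
    simp only [map_mul, aeval_X, Polynomial.derivative_mul, Polynomial.eval_add,
      Polynomial.eval_mul, ha, eval_path]
    simp only [der, Derivation.leibniz, pderiv_X, smul_eq_mul, map_add, map_mul, eval_X,
      Pi.single_apply, apply_ite (eval _), map_one, map_zero, add_mul, Finset.sum_add_distrib,
      mul_ite, ite_mul, mul_one, mul_zero, zero_mul, Finset.sum_ite_eq, Finset.mem_univ, if_true,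
      Finset.sum_mul]
    rw [add_comm]
    congr 1
    exact Finset.sum_congr rfl fun i _ => by ring

variable {n : ℕ}

/-- A flat segment between two singular points, with a functional measuring the position. -/
structure Edge (H : Hyp n) where
  s : Fin n → ℝ
  b : Fin n → ℝ
  hs : H.SingB s
  hb : H.SingB b
  ne : s ≠ b
  flat : line H.p s (b - s) = 0
  μ : (Fin n → ℝ) →ₗ[ℝ] ℝ
  μs : μ s = 0
  μb : μ b = 1
  hP : H.Pointed
  hO : H.Ordinary

namespace Edge

variable {H : Hyp n} (E : Edge H)

/-- The same segment in the other direction. -/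
noncomputable def symm : Edge H where
  s := E.b
  b := E.s
  hs := E.hb
  hb := E.hs
  ne := E.ne.symm
  flat := by
    refine Polynomial.funext fun t => ?_
    rw [eval_line, Polynomial.eval_zero,
      show E.b + t • (E.s - E.b) = E.s + (1 - t) • (E.b - E.s) by module,
      Hyp.line_zero_eval H E.flat]
  μ := H.τ - E.μ
  μs := by simp [E.hb.τ_eq, E.μb]
  μb := by simp [E.hs.τ_eq, E.μs]
  hP := E.hP
  hO := E.hO

/-- The points of the segment. -/
def pnt (u : ℝ) : Fin n → ℝ := E.s + u • (E.b - E.s)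

lemma pnt_zero : E.pnt 0 = E.s := by simp [pnt]

lemma pnt_one : E.pnt 1 = E.b := by simp [pnt]

lemma pnt_mem {u : ℝ} (h0 : 0 ≤ u) (h1 : u ≤ 1) : E.pnt u ∈ H.B := by
  refine ⟨?_, ?_, H.line_zero_eval E.flat u⟩
  · rw [show E.pnt u = (1 - u) • E.s + u • E.b by simp only [pnt]; module]
    exact H.convex_K E.hs.mem E.hb.mem (by linarith) h0 (by ring)
  · simp [pnt, E.hs.τ_eq, E.hb.τ_eq]

lemma dir_ne : E.b - E.s ≠ 0 := sub_ne_zero.2 E.ne.symm

/-- The interior of the segment consists of smooth points. -/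
lemma smooth {u : ℝ} (hu : u ∈ Set.Ioo (0 : ℝ) 1) : H.Smooth (E.pnt u) := by
  have hB := E.pnt_mem hu.1.le hu.2.le
  refine (H.smooth_or hB.1 hB.2.2).resolve_right fun hsg => ?_
  have hy : H.SingB (E.pnt u) := ⟨hB, hsg⟩
  have key : ∀ v : ℝ, 0 ≤ v → v ≤ 1 → (v - u) • (E.b - E.s) ∈ hy.T.K := by
    intro v h0 h1
    have := H.tg_translate_mem hy.mem (H.subset_tg hy.mem (E.pnt_mem h0 h1).1) (-1)
    rwa [show E.pnt v + (-1 : ℝ) • E.pnt u = (v - u) • (E.b - E.s) by
      simp only [pnt]; module] at this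
  have k1 := hy.T.τ_nonneg (key 1 zero_le_one le_rfl)
  have k0 := hy.T.τ_nonneg (key 0 le_rfl zero_le_one)
  rw [map_smul, smul_eq_mul] at k1 k0
  have hz : hy.T.τ (E.b - E.s) = 0 := by nlinarith [hu.1, hu.2]
  have hm := key 1 zero_le_one le_rfl
  have := hy.ℓ_pos E.hO hm (by simp [E.hb.τ_eq, E.hs.τ_eq])
    (smul_ne_zero (by linarith [hu.2]) E.dir_ne)
  rw [map_smul, hz, smul_zero] at this
  exact lt_irrefl _ this

lemma der_dir (u : ℝ) : der H.p (E.pnt u) (E.b - E.s) = 0 := by
  rw [pnt, ← derivative_line, E.flat]; simp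

lemma der_pnt {u : ℝ} (v : ℝ) : der H.p (E.pnt u) (E.pnt v) = 0 := by
  rw [show E.pnt v = E.pnt u + (v - u) • (E.b - E.s) by simp only [pnt]; module, der_add, der_smul,
    E.der_dir, H.der_self, pnt, H.line_zero_eval E.flat]
  ring

/-- The common tangent functional. -/
noncomputable def ν : (Fin n → ℝ) →ₗ[ℝ] ℝ :=
  (der H.p (E.pnt (1 / 2)) H.e)⁻¹ • H.tang (E.pnt (1 / 2))

lemma mid_pos : 0 < der H.p (E.pnt (1 / 2)) H.e :=
  (E.smooth ⟨by norm_num, by norm_num⟩).2.2

lemma ν_apply (w : Fin n → ℝ) :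
    E.ν w = (der H.p (E.pnt (1 / 2)) H.e)⁻¹ * der H.p (E.pnt (1 / 2)) w := rfl

lemma ν_e : E.ν H.e = 1 := by rw [ν_apply, inv_mul_cancel₀ E.mid_pos.ne']

lemma ν_dir : E.ν (E.b - E.s) = 0 := by rw [ν_apply, E.der_dir, mul_zero]

lemma ν_s : E.ν E.s = 0 := by rw [ν_apply, ← E.pnt_zero, E.der_pnt, mul_zero]

lemma ν_b : E.ν E.b = 0 := by rw [ν_apply, ← E.pnt_one, E.der_pnt, mul_zero]

/-- The tangent hyperplane is constant along the segment. -/
lemma tangent_eq {u : ℝ} (hu : u ∈ Set.Ioo (0 : ℝ) 1) (w : Fin n → ℝ) :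
    der H.p (E.pnt u) w = der H.p (E.pnt u) H.e * E.ν w := by
  set x := E.pnt (1 / 2)
  have hx : H.Smooth x := E.smooth ⟨by norm_num, by norm_num⟩
  have hmove : ∀ v, 0 < der H.p x v → 0 ≤ der H.p (E.pnt u) v := by
    intro v hv
    have hnear : Tendsto (fun t : ℝ => x + t • v) (𝓝[>] 0) (𝓝 x) :=
      tendsto_nhdsWithin_of_tendsto_nhds (by
        simpa using (((continuous_id (X := ℝ)).smul continuous_const).const_add x).tendsto (0 : ℝ))
    have hlow := tendsto_low (f := line H.p x v) (m := 1) fun j hj => by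
      obtain rfl : j = 0 := by omega
      exact (cf_zero _ _ _).trans hx.2.1
    rw [← cf, cf_one] at hlow
    obtain ⟨t, ⟨ht, ht0⟩, hK⟩ := (((hlow.eventually (lt_mem_nhds hv)).and
      self_mem_nhdsWithin).and (hnear.eventually hx.local_mem)).exists
    rw [eval_line, pow_one] at ht
    have hm := hK.1 ((div_pos_iff_of_pos_right (Set.mem_Ioi.1 ht0)).1 ht).le
    have := H.der_nonneg (E.pnt_mem hu.1.le hu.2.le).1 hm
    rw [der_add, der_smul, E.der_pnt, zero_add] at this
    exact nonneg_of_mul_nonneg_right this (Set.mem_Ioi.1 ht0)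
  set C := der H.p (E.pnt u) H.e
  have hC : 0 ≤ C := (E.smooth hu).2.2.le
  have main : ∀ v, der H.p x v = 0 → 0 ≤ der H.p (E.pnt u) v := by
    intro v hv
    by_contra hneg
    push Not at hneg
    set ε := -der H.p (E.pnt u) v / (2 * (C + 1)) with hε
    have hεp : 0 < ε := div_pos (neg_pos.2 hneg) (by linarith)
    have := hmove (v + ε • H.e) (by
      rw [der_add, der_smul, hv, zero_add]; exact mul_pos hεp E.mid_pos)
    rw [der_add, der_smul] at this
    have h2 : ε * (2 * (C + 1)) = -der H.p (E.pnt u) v := div_mul_cancel₀ _ (by positivity)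
    nlinarith
  have h0 : der H.p x (w - E.ν w • H.e) = 0 := by
    rw [der_sub, der_smul, ν_apply, mul_comm, ← mul_assoc,
      mul_inv_cancel₀ E.mid_pos.ne', one_mul, sub_self]
  have k1 := main _ h0
  have k2 := main (-(w - E.ν w • H.e)) (by rw [der_neg, h0, neg_zero])
  rw [der_neg] at k2
  rw [der_sub, der_smul] at k1 k2
  linarith [mul_comm C (E.ν w)]

/-- The inward vector. -/
noncomputable def ê : Fin n → ℝ := H.e - H.τ H.e • E.s - E.μ H.e • (E.b - E.s)

lemma τ_ê : H.τ E.ê = 0 := by simp [ê, E.hs.τ_eq, E.hb.τ_eq]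

lemma μ_ê : E.μ E.ê = 0 := by simp [ê, E.μs, E.μb]

lemma ν_ê : E.ν E.ê = 1 := by
  rw [ê, map_sub, map_sub, map_smul, map_smul, E.ν_e, E.ν_s, E.ν_dir]; simp

/-- The transversal part. -/
def InW (w : Fin n → ℝ) : Prop := H.τ w = 0 ∧ E.μ w = 0 ∧ E.ν w = 0

/-- The point with segment coordinates `(u, w)`. -/
def chart (u : ℝ) (w : Fin n → ℝ) : Fin n → ℝ := E.s + u • (E.b - E.s) + (u * (1 - u)) • w

/-- Multiplicities at the two ends. -/
noncomputable def m₀ : ℕ := H.mult E.s

/-- Multiplicity at the far end. -/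
noncomputable def m₁ : ℕ := H.mult E.b

lemma two_le_m₀ : 2 ≤ E.m₀ := E.hs.two_le

lemma two_le_m₁ : 2 ≤ E.m₁ := E.hb.two_le

lemma exists_bezout : ∃ A B : ℝ[X],
    A * Polynomial.X ^ E.m₀ + B * (1 - Polynomial.X) ^ E.m₁ = 1 := by
  have h : IsCoprime (Polynomial.X : ℝ[X]) (1 - Polynomial.X) := ⟨1, 1, by ring⟩
  exact h.pow

/-- First cofactor. -/
noncomputable def cA : ℝ[X] := E.exists_bezout.choose

/-- Second cofactor. -/
noncomputable def cB : ℝ[X] := E.exists_bezout.choose_spec.choose

lemma bezout (u : ℝ) : E.cA.eval u * u ^ E.m₀ + E.cB.eval u * (1 - u) ^ E.m₁ = 1 := by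
  have := congrArg (Polynomial.eval u) E.exists_bezout.choose_spec.choose_spec
  simpa [cA, cB] using this

/-- `p` in segment coordinates divided by its vanishing orders at both ends. -/
noncomputable def P : MvPolynomial (Option (Fin n)) ℝ :=
  Polynomial.aeval (X none) E.cB *
      aeval (fun o : Option (Fin n) => o.elim (X none)
        (fun i => C (E.b i - E.s i) + (1 - X none) * X (some i))) E.hs.P +
    Polynomial.aeval (X none) E.cA *
      aeval (fun o : Option (Fin n) => o.elim (1 - X none)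
        (fun i => C (E.s i - E.b i) + X none * X (some i))) E.hb.P

lemma eval_P (u : ℝ) (w : Fin n → ℝ) : eval (pt u w) E.P =
    E.cB.eval u * eval (pt u ((E.b - E.s) + (1 - u) • w)) E.hs.P +
      E.cA.eval u * eval (pt (1 - u) ((E.s - E.b) + u • w)) E.hb.P := by
  have ha : ∀ q : ℝ[X], eval (pt u w) (Polynomial.aeval (X none) q) = q.eval u := by
    intro q
    induction q using Polynomial.induction_on' with
    | add a b ha hb => simp only [map_add, ha, hb, Polynomial.eval_add]
    | monomial k a => simp [Polynomial.aeval_monomial]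
  have hb : ∀ (g : Option (Fin n) → MvPolynomial (Option (Fin n)) ℝ) (f : MvPolynomial (Option (Fin n)) ℝ),
      eval (pt u w) (aeval g f) = eval (fun o => eval (pt u w) (g o)) f := by
    intro g f
    induction f using MvPolynomial.induction_on with
    | C c => simp
    | add a b ha hb => simp only [map_add, ha, hb]
    | mul_X a k ha => simp only [map_mul, aeval_X, ha, eval_X]
  simp only [P, map_add, map_mul, ha, hb]
  congr 4 <;> (funext o; cases o <;> simp)

/-- The defining identity of the segment coordinates. -/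
lemma P_mul (u : ℝ) (w : Fin n → ℝ) :
    u ^ E.m₀ * (1 - u) ^ E.m₁ * eval (pt u w) E.P = eval (E.chart u w) H.p := by
  have h1 : u ^ E.m₀ * eval (pt u ((E.b - E.s) + (1 - u) • w)) E.hs.P = eval (E.chart u w) H.p := by
    rw [m₀, E.hs.P_mul]
    congr 2
    simp only [chart]; module
  have h2 : (1 - u) ^ E.m₁ * eval (pt (1 - u) ((E.s - E.b) + u • w)) E.hb.P =
      eval (E.chart u w) H.p := by
    rw [m₁, E.hb.P_mul]
    congr 2
    simp only [chart]; module
  rw [E.eval_P]
  linear_combination (E.cB.eval u * (1 - u) ^ E.m₁) * h1 + (E.cA.eval u * u ^ E.m₀) * h2 +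
    eval (E.chart u w) H.p * E.bezout u

lemma P_at_zero (w : Fin n → ℝ) :
    eval (pt 0 w) E.P = eval ((E.b - E.s) + w) E.hs.T.p := by
  rw [E.eval_P, E.hs.eval_P_zero]
  have hB : E.cB.eval 0 = 1 := by
    have := E.bezout 0
    rwa [zero_pow (by have := E.two_le_m₀; omega), mul_zero, zero_add, sub_zero, one_pow,
      mul_one] at this
  have h2 : eval (pt (1 - 0) ((E.s - E.b) + (0 : ℝ) • w)) E.hb.P = 0 := by
    have := E.hb.P_mul 1 (E.s - E.b)
    rw [one_pow, one_mul, one_smul, add_sub_cancel, E.hs.1.2.2] at this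
    simpa using this
  rw [hB, h2]
  simp

/-- Weight of the first derivatives. -/
noncomputable def J (u : ℝ) : ℝ := u ^ (E.m₀ - 1) * (1 - u) ^ (E.m₁ - 1)

lemma J_mul (u : ℝ) : E.J u * (u * (1 - u)) = u ^ E.m₀ * (1 - u) ^ E.m₁ := by
  have h0 := E.two_le_m₀
  have h1 := E.two_le_m₁
  rw [J, show u ^ E.m₀ = u ^ (E.m₀ - 1) * u by rw [← pow_succ]; congr 1; omega,
    show (1 - u) ^ E.m₁ = (1 - u) ^ (E.m₁ - 1) * (1 - u) by rw [← pow_succ]; congr 1; omega]
  ring

/-- Derivatives transversal to the parameter. -/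
lemma der_w {u : ℝ} (hu : u * (1 - u) ≠ 0) (w h : Fin n → ℝ) :
    der H.p (E.chart u w) h = E.J u * der E.P (pt u w) (pt 0 h) := by
  have key : Polynomial.C (u ^ E.m₀ * (1 - u) ^ E.m₁) * line E.P (pt u w) (pt 0 h) =
      line H.p (E.chart u w) ((u * (1 - u)) • h) := by
    refine Polynomial.funext fun t => ?_
    rw [Polynomial.eval_mul, Polynomial.eval_C, eval_line, pt_smul, pt_add, mul_zero, add_zero,
      E.P_mul, eval_line]
    congr 2
    simp only [chart]; module
  have := congrArg (fun f : ℝ[X] => f.coeff 1) key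
  simp only [Polynomial.coeff_C_mul] at this
  rw [← cf, ← cf, cf_one, cf_one, der_smul, ← E.J_mul] at this
  exact mul_left_cancel₀ hu (by linear_combination -this)

/-- Derivative in the parameter at a zero. -/
lemma der_u {u : ℝ} {w : Fin n → ℝ} (h0 : eval (pt u w) E.P = 0) :
    der H.p (E.chart u w) ((E.b - E.s) + (1 - 2 * u) • w) =
      E.J u * (u * (1 - u) * der E.P (pt u w) (pt 1 0)) := by
  set g : Fin n → ℝ[X] := fun i => Polynomial.C (E.s i) +
    (Polynomial.C u + Polynomial.X) * Polynomial.C (E.b i - E.s i) +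
    (Polynomial.C u + Polynomial.X) * (1 - (Polynomial.C u + Polynomial.X)) * Polynomial.C (w i)
  have key : (Polynomial.C u + Polynomial.X) ^ E.m₀ *
      (1 - (Polynomial.C u + Polynomial.X)) ^ E.m₁ * line E.P (pt u w) (pt 1 0) =
      aeval g H.p := by
    refine Polynomial.funext fun t => ?_
    rw [eval_path, Polynomial.eval_mul, Polynomial.eval_mul, Polynomial.eval_pow,
      Polynomial.eval_pow, eval_line, pt_smul, pt_add, mul_one, smul_zero, add_zero]
    simp only [Polynomial.eval_add, Polynomial.eval_sub, Polynomial.eval_C, Polynomial.eval_X,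
      Polynomial.eval_one]
    rw [E.P_mul]
    congr 2
    funext i
    simp [g, chart]
  have := congrArg (fun f : ℝ[X] => f.derivative.eval 0) key
  simp only [derivative_path, Polynomial.derivative_mul, Polynomial.eval_add, Polynomial.eval_mul,
    derivative_line, zero_smul, add_zero, eval_line, h0, mul_zero, zero_add, Polynomial.eval_pow,
    Polynomial.eval_sub, Polynomial.eval_C, Polynomial.eval_X, Polynomial.eval_one] at this
  rw [← mul_assoc, E.J_mul, this]
  congr 1
  · funext i; simp [g, chart]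
  · funext i
    simp only [g, Polynomial.derivative_add, Polynomial.derivative_mul, Polynomial.derivative_C,
      Polynomial.derivative_X, Polynomial.derivative_sub, Polynomial.derivative_one,
      Polynomial.eval_add, Polynomial.eval_mul, Polynomial.eval_sub, Polynomial.eval_C,
      Polynomial.eval_X, Polynomial.eval_one, Polynomial.eval_zero, Pi.add_apply, Pi.sub_apply,
      Pi.smul_apply, smul_eq_mul]
    ring

lemma P_axis (u : ℝ) : eval (pt u 0) E.P = 0 := by
  have key : line E.P (pt 0 0) (pt 1 0) = 0 := by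
    refine Polynomial.eq_zero_of_infinite_isRoot _ ((Set.Ioo_infinite (zero_lt_one' ℝ)).mono
      fun t ht => ?_)
    rw [Set.mem_ofPred_eq, Polynomial.IsRoot.def, eval_line, pt_smul, pt_add, mul_one, zero_add,
      smul_zero, add_zero]
    have h := E.P_mul t 0
    rw [show E.chart t 0 = E.pnt t by simp [chart, pnt], (E.pnt_mem ht.1.le ht.2.le).2.2,
      mul_eq_zero] at h
    exact h.resolve_left (mul_ne_zero (pow_ne_zero _ ht.1.ne') (pow_ne_zero _ (by linarith [ht.2])))
  have := congrArg (Polynomial.eval u) key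
  rwa [eval_line, pt_smul, pt_add, mul_one, zero_add, smul_zero, add_zero,
    Polynomial.eval_zero] at this

attribute [local irreducible] P der

/-- The transversal slope along the segment. -/
noncomputable def c (u : ℝ) : ℝ := der E.P (pt u 0) (pt 0 E.ê)

lemma continuous_P_der (h : Fin n → ℝ) : Continuous fun u : ℝ => der E.P (pt u 0) (pt 0 h) := by
  have h1 : Continuous fun u : ℝ => pt u (0 : Fin n → ℝ) :=
    continuous_pt continuous_id continuous_const
  exact Continuous.comp
    (g := fun z : (Option (Fin n) → ℝ) × (Option (Fin n) → ℝ) => der E.P z.1 z.2)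
    (continuous_der E.P) (h1.prodMk (continuous_const (y := pt 0 h)))

lemma continuous_c : Continuous E.c := E.continuous_P_der E.ê

lemma chart_pnt (u : ℝ) : E.chart u 0 = E.pnt u := by simp [chart, pnt]

lemma c_eq {u : ℝ} (hu : u ∈ Set.Ioo (0 : ℝ) 1) :
    der H.p (E.pnt u) E.ê = E.J u * E.c u := by
  rw [← E.chart_pnt, E.der_w (mul_ne_zero hu.1.ne' (by linarith [hu.2]))]; rfl

/-- The transversal derivative on the segment is a multiple of the common functional. -/
lemma P_der_axis {u : ℝ} (hu : u ∈ Set.Icc (0 : ℝ) 1) (h : Fin n → ℝ) :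
    der E.P (pt u 0) (pt 0 h) = E.c u * E.ν h := by
  have hI : Set.EqOn (fun u : ℝ => der E.P (pt u 0) (pt 0 h)) (fun u => E.c u * E.ν h)
      (Set.Ioo (0 : ℝ) 1) := by
    intro t ht
    have hU : t * (1 - t) ≠ 0 := mul_ne_zero ht.1.ne' (by linarith [ht.2])
    have hJ : E.J t ≠ 0 := mul_ne_zero (pow_ne_zero _ ht.1.ne') (pow_ne_zero _ (by linarith [ht.2]))
    refine mul_left_cancel₀ hJ ?_
    have := E.c_eq ht
    rw [E.tangent_eq ht, E.ν_ê, mul_one] at this
    simp only
    rw [← E.der_w hU, E.chart_pnt, E.tangent_eq ht, this, mul_assoc]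
  have hc := hI.closure (E.continuous_P_der h) (E.continuous_c.mul continuous_const)
  rw [closure_Ioo zero_ne_one] at hc
  exact hc hu

lemma c_zero : E.c 0 = der E.hs.T.p (E.b - E.s) H.e := by
  have key : line E.P (pt 0 0) (pt 0 E.ê) = line E.hs.T.p (E.b - E.s) E.ê := by
    refine Polynomial.funext fun t => ?_
    rw [eval_line, pt_smul, pt_add, mul_zero, add_zero, zero_add, E.P_at_zero, eval_line]
  have h0 : der E.hs.T.p (E.b - E.s) E.ê = der E.hs.T.p (E.b - E.s) H.e := by
    have hm : E.b - E.s ∈ E.hs.T.K := by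
      rw [sub_eq_add_neg, ← neg_one_smul ℝ E.s]
      exact H.tg_translate_mem E.hs.mem (H.subset_tg E.hs.mem E.hb.mem) (-1)
    have e1 : der E.hs.T.p (E.b - E.s) E.s = 0 := H.tg_der_self E.hs.mem hm
    have e2 : der E.hs.T.p (E.b - E.s) (E.b - E.s) = 0 := by
      rw [E.hs.T.der_self]
      have := E.P_at_zero 0
      rw [E.P_axis, add_zero] at this
      rw [← this, mul_zero]
    rw [ê, der_sub, der_sub, der_smul, der_smul, e1, e2]
    ring
  rw [c, ← cf_one, cf, key, ← cf, cf_one, h0]

lemma dir_smooth : E.hs.T.Smooth (E.b - E.s) := by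
  have hm : E.b - E.s ∈ E.hs.T.K := by
    rw [sub_eq_add_neg, ← neg_one_smul ℝ E.s]
    exact H.tg_translate_mem E.hs.mem (H.subset_tg E.hs.mem E.hb.mem) (-1)
  have h0 : eval (E.b - E.s) E.hs.T.p = 0 := by
    have := E.P_at_zero 0
    rw [E.P_axis, add_zero] at this
    exact this.symm
  refine (E.hs.T.smooth_or hm h0).resolve_right fun hsg => ?_
  obtain ⟨k, hk⟩ := E.hO _ E.hs.mem E.hs.2 (H.ne_zero_of_τ E.hs.τ_eq) _ hsg
  have := congrArg H.τ hk
  rw [map_sub, E.hb.τ_eq, E.hs.τ_eq, map_smul, E.hs.τ_eq, sub_self, smul_eq_mul, mul_one] at this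
  exact E.dir_ne (by rw [hk, ← this, zero_smul])

lemma c_zero_pos : 0 < E.c 0 := by rw [E.c_zero]; exact E.dir_smooth.2.2

lemma c_pos {u : ℝ} (hu : u ∈ Set.Icc (0 : ℝ) 1) : 0 < E.c u := by
  rcases hu.1.eq_or_lt with h0 | h0
  · rw [← h0]; exact E.c_zero_pos
  rcases hu.2.eq_or_lt with h1 | h1
  · rw [h1]
    refine lt_of_le_of_ne ?_ ?_
    · refine ge_of_tendsto ((E.continuous_c.tendsto 1).mono_left (nhdsWithin_le_nhds (s := Set.Iio 1))) ?_
      filter_upwards [Ioo_mem_nhdsLT (zero_lt_one' ℝ)] with t ht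
      have hJ : 0 < E.J t := mul_pos (pow_pos ht.1 _) (pow_pos (by linarith [ht.2]) _)
      have := E.c_eq ht
      rw [E.tangent_eq ht, E.ν_ê, mul_one] at this
      exact nonneg_of_mul_nonneg_right (this ▸ (E.smooth ht).2.2.le) hJ
    · intro hc
      -- compare with the functional seen from the other end
      have hc1 := E.P_der_axis (u := 1) ⟨zero_le_one, le_rfl⟩ H.e
      rw [← hc, zero_mul] at hc1
      have key : line E.P (pt 1 0) (pt 0 H.e) = line E.hb.T.p (E.s - E.b) H.e := by
        refine Polynomial.funext fun t => ?_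
        rw [eval_line, pt_smul, pt_add, mul_zero, add_zero, zero_add, E.eval_P, eval_line]
        have hA : E.cA.eval 1 = 1 := by
          have := E.bezout 1
          rwa [sub_self, zero_pow (by have := E.two_le_m₁; omega), mul_zero, add_zero, one_pow,
            mul_one] at this
        have h2 : eval (pt 1 ((E.b - E.s) + (1 - (1 : ℝ)) • (t • H.e))) E.hs.P = 0 := by
          have := E.hs.P_mul 1 (E.b - E.s)
          rw [one_pow, one_mul, one_smul, add_sub_cancel, E.hb.1.2.2] at this
          simpa using this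
        rw [hA, h2, sub_self, E.hb.eval_P_zero, mul_zero, zero_add, one_mul, one_smul]
      rw [← cf_one, cf, key, ← cf, cf_one] at hc1
      exact E.symm.dir_smooth.2.2.ne' hc1
  · have ht : u ∈ Set.Ioo (0 : ℝ) 1 := ⟨h0, h1⟩
    have hJ : 0 < E.J u := mul_pos (pow_pos h0 _) (pow_pos (by linarith) _)
    have := E.c_eq ht
    rw [E.tangent_eq ht, E.ν_ê, mul_one] at this
    exact pos_of_mul_pos_right (this ▸ (E.smooth ht).2.2) hJ.le

end Edge

end Vale.Agent.P256.Gen
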