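import Vale.Agent.P256.Gen.Edge

/-!
Coordinates near a flat segment and the exact form of the kernel in them.
-/

namespace Vale.Agent.P256.Gen

open MvPolynomial Filter Topology
open scoped BigOperators Polynomial

set_option linter.unusedSectionVars false

variable {n : ℕ}

/-- Index of the extended coordinates `(u, ω, Γ)`. -/
abbrev ZI (n : ℕ) := Option (Fin n ⊕ Fin n × Fin n)

/-- An extended point. -/
def zp (u : ℝ) (ω : Fin n → ℝ) (Γ : Fin n → Fin n → ℝ) : ZI n → ℝ :=
  fun o => o.elim u (Sum.elim ω fun q => Γ q.1 q.2)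

/-- The position. -/
def zu (z : ZI n → ℝ) : ℝ := z none

/-- The transversal part. -/
def zω (z : ZI n → ℝ) : Fin n → ℝ := fun i => z (some (Sum.inl i))

/-- The curvature part. -/
def zΓ (z : ZI n → ℝ) : Fin n → Fin n → ℝ := fun k l => z (some (Sum.inr (k, l)))

@[simp] lemma zu_zp (u : ℝ) (ω : Fin n → ℝ) (Γ : Fin n → Fin n → ℝ) : zu (zp u ω Γ) = u := rfl
@[simp] lemma zω_zp (u : ℝ) (ω : Fin n → ℝ) (Γ : Fin n → Fin n → ℝ) : zω (zp u ω Γ) = ω := rfl
@[simp] lemma zΓ_zp (u : ℝ) (ω : Fin n → ℝ) (Γ : Fin n → Fin n → ℝ) : zΓ (zp u ω Γ) = Γ := rfl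

/-- The curved height. -/
def zν (z : ZI n → ℝ) : ℝ := ∑ k, ∑ l, zω z k * zΓ z k l * zω z l

/-- A linear functional as a polynomial in the vector variables. -/
noncomputable def linPoly (L : (Fin n → ℝ) →ₗ[ℝ] ℝ) : MvPolynomial (Option (Fin n)) ℝ :=
  ∑ i, C (L (Pi.single i 1)) * X (some i)

lemma eval_linPoly (L : (Fin n → ℝ) →ₗ[ℝ] ℝ) (u : ℝ) (w : Fin n → ℝ) :
    eval (pt u w) (linPoly L) = L w := by
  conv_rhs => rw [pi_eq_sum_univ' w, map_sum]
  simp [linPoly, mul_comm]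

/-- Evaluation of a substituted polynomial. -/
lemma eval_aeval {ι κ : Type*} (g : ι → MvPolynomial κ ℝ) (x : κ → ℝ) (f : MvPolynomial ι ℝ) :
    eval x (aeval g f) = eval (fun i => eval x (g i)) f := by
  induction f using MvPolynomial.induction_on with
  | C c => simp
  | add a b ha hb => simp only [map_add, ha, hb]
  | mul_X a k ha => simp only [map_mul, aeval_X, ha, eval_X]

namespace Edge

variable {H : Hyp n} (E : Edge H)

/-- The second order coefficients. -/
noncomputable def M : Option (Fin n) → Option (Fin n) → Ker (Option (Fin n)) :=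
  (exists_quad E.P).choose

lemma M_symm (i j : Option (Fin n)) : E.M i j = E.M j i := (exists_quad E.P).choose_spec.1 i j

lemma M_spec (x a : Option (Fin n) → ℝ) : eval a E.P = eval x E.P + der E.P x (a - x) +
    ∑ i, ∑ j, ev (E.M i j) x a * (a i - x i) * (a j - x j) :=
  (exists_quad E.P).choose_spec.2 x a

/-- The quadratic coefficient. -/
noncomputable def Q (k l : Fin n) : MvPolynomial (Option (Fin n)) ℝ :=
  aeval (Sum.elim (fun o => o.elim (X none) (fun _ => 0)) X) (E.M (some k) (some l))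

lemma eval_Q (k l : Fin n) (u : ℝ) (w : Fin n → ℝ) :
    eval (pt u w) (E.Q k l) = ev (E.M (some k) (some l)) (pt u 0) (pt u w) := by
  rw [Q, eval_aeval, ev]
  congr 2
  funext o
  rcases o with (_ | i) | o <;> simp

/-- The slope as a polynomial. -/
noncomputable def cPol : MvPolynomial (Option (Fin n)) ℝ :=
  ∑ i, C (E.ê i) * aeval (fun o => o.elim (X none) (fun _ => 0)) (pderiv (some i) E.P)

lemma eval_cPol (u : ℝ) (w : Fin n → ℝ) : eval (pt u w) E.cPol = E.c u := by
  rw [c, der, Fintype.sum_option]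
  simp only [cPol, map_sum, map_mul, eval_C, eval_aeval, pt_none, pt_some, mul_zero, zero_add]
  refine Finset.sum_congr rfl fun i _ => ?_
  rw [mul_comm]
  congr 2
  congr 1
  funext o
  cases o <;> simp

/-- The transversal component as a polynomial. -/
noncomputable def ωPol (k : Fin n) : MvPolynomial (Option (Fin n)) ℝ :=
  X (some k) - linPoly E.ν * C (E.ê k)

/-- The projection to the transversal part. -/
noncomputable def π (w : Fin n → ℝ) : Fin n → ℝ := w - E.ν w • E.ê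

lemma eval_ωPol (k : Fin n) (u : ℝ) (w : Fin n → ℝ) : eval (pt u w) (E.ωPol k) = E.π w k := by
  simp [ωPol, π, eval_linPoly]

/-- The coefficient of the height. -/
noncomputable def Cp : MvPolynomial (Option (Fin n)) ℝ :=
  E.cPol + ∑ k, ∑ l, E.Q k l *
    (C (E.ê k * E.ê l) * linPoly E.ν + C (E.ê k) * E.ωPol l + E.ωPol k * C (E.ê l))

lemma continuous_π : Continuous E.π :=
  continuous_id.sub ((LinearMap.continuous_of_finiteDimensional E.ν).smul continuous_const)

lemma P_der_axis' (u : ℝ) (h : Fin n → ℝ) : der E.P (pt u 0) (pt 0 h) = E.c u * E.ν h := by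
  set q : (Fin n → ℝ) → MvPolynomial (Option (Fin n)) ℝ := fun v =>
    ∑ i, C (v i) * aeval (fun o : Option (Fin n) => o.elim (X none) (fun _ => 0)) (pderiv (some i) E.P)
    with hq
  have hv : ∀ t v, eval (pt t 0) (q v) = der E.P (pt t 0) (pt 0 v) := by
    intro t v
    rw [der, Fintype.sum_option]
    simp only [hq, map_sum, map_mul, eval_C, eval_aeval, pt_none, pt_some, mul_zero, zero_add]
    refine Finset.sum_congr rfl fun i _ => ?_
    rw [mul_comm]
    congr 2
    congr 1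
    funext o
    cases o <;> simp
  have key : line (q h - C (E.ν h) * q E.ê) (pt 0 0) (pt 1 0) = 0 := by
    refine Polynomial.eq_zero_of_infinite_isRoot _ ((Set.Ioo_infinite (zero_lt_one' ℝ)).mono
      fun t ht => ?_)
    rw [Set.mem_ofPred_eq, Polynomial.IsRoot.def, eval_line, pt_smul, pt_add, mul_one, zero_add,
      smul_zero, add_zero, map_sub, map_mul, eval_C, hv, hv,
      E.P_der_axis ⟨ht.1.le, ht.2.le⟩]
    show E.c t * E.ν h - E.ν h * E.c t = 0
    ring
  have := congrArg (Polynomial.eval u) key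
  rw [eval_line, pt_smul, pt_add, mul_one, zero_add, smul_zero, add_zero, map_sub, map_mul, eval_C,
    hv, hv, Polynomial.eval_zero, sub_eq_zero] at this
  rw [this, c, mul_comm]

/-- Height and curvature decomposition of the segment polynomial. -/
theorem P_eq (u : ℝ) (w : Fin n → ℝ) : eval (pt u w) E.P =
    eval (pt u w) E.Cp * E.ν w +
      ∑ k, ∑ l, eval (pt u w) (E.Q k l) * E.π w k * E.π w l := by
  have h := E.M_spec (pt u 0) (pt u w)
  rw [E.P_axis, pt_sub, sub_self, sub_zero, E.P_der_axis'] at h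
  simp only [Fintype.sum_option, pt_none, pt_some, sub_self, mul_zero, zero_mul,
    Finset.sum_const_zero, add_zero, zero_add, Pi.zero_apply, sub_zero] at h
  rw [h]
  simp only [Cp, map_add, map_sum, map_mul, eval_C, eval_linPoly, eval_ωPol, eval_cPol, eval_Q,
    add_mul, Finset.sum_mul, add_assoc, ← Finset.sum_add_distrib]
  congr 1
  refine Finset.sum_congr rfl fun k _ => Finset.sum_congr rfl fun l _ => ?_
  have hk : w k = E.ν w * E.ê k + E.π w k := by simp [π]
  have hl : w l = E.ν w * E.ê l + E.π w l := by simp [π]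
  rw [hk, hl]
  ring

/-- The vector of an extended point. -/
noncomputable def zw (z : ZI n → ℝ) : Fin n → ℝ := zν z • E.ê + zω z

/-- The substitution for the vector of an extended point. -/
noncomputable def wz : Option (Fin n) → MvPolynomial (ZI n) ℝ := fun o =>
  o.elim (X none) fun i => (∑ k, ∑ l, X (some (Sum.inl k)) * X (some (Sum.inr (k, l))) *
    X (some (Sum.inl l))) * C (E.ê i) + X (some (Sum.inl i))

lemma eval_wz (z : ZI n → ℝ) : (fun o => eval z (E.wz o)) = pt (zu z) (E.zw z) := by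
  funext o
  cases o <;> simp [wz, zu, zw, zν, zω, zΓ]

/-- The curvature equations. -/
noncomputable def Ez (k l : Fin n) : MvPolynomial (ZI n) ℝ :=
  aeval E.wz E.Cp * X (some (Sum.inr (k, l))) + aeval E.wz (E.Q k l)

lemma eval_Ez (k l : Fin n) (z : ZI n → ℝ) : eval z (E.Ez k l) =
    eval (pt (zu z) (E.zw z)) E.Cp * zΓ z k l + eval (pt (zu z) (E.zw z)) (E.Q k l) := by
  simp only [Ez, map_add, map_mul, eval_aeval, eval_wz, eval_X]
  rfl

lemma π_zw {z : ZI n → ℝ} (hν : E.ν (zω z) = 0) : E.π (E.zw z) = zω z ∧ E.ν (E.zw z) = zν z := by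
  have : E.ν (E.zw z) = zν z := by simp [zw, hν, E.ν_ê]
  refine ⟨?_, this⟩
  rw [π, this, zw]; simp

/-- The segment polynomial in extended coordinates. -/
lemma P_zw {z : ZI n → ℝ} (hν : E.ν (zω z) = 0) : eval (pt (zu z) (E.zw z)) E.P =
    ∑ k, ∑ l, zω z k * zω z l * eval z (E.Ez k l) := by
  obtain ⟨h1, h2⟩ := E.π_zw hν
  rw [E.P_eq, h1, h2, zν, Finset.mul_sum, ← Finset.sum_add_distrib]
  refine Finset.sum_congr rfl fun k _ => ?_
  rw [Finset.mul_sum, ← Finset.sum_add_distrib]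
  refine Finset.sum_congr rfl fun l _ => ?_
  rw [E.eval_Ez]
  ring

/-- The admissible extended points. -/
def Zset : Set (ZI n → ℝ) :=
  {z | zu z ∈ Set.Ioo (0 : ℝ) 1 ∧ E.InW (zω z) ∧ ∀ k l, eval z (E.Ez k l) = 0}

/-- The linearised height. -/
def dν (z D : ZI n → ℝ) : ℝ :=
  ∑ k, ∑ l, (zω D k * zΓ z k l * zω z l + zω z k * zΓ D k l * zω z l +
    zω z k * zΓ z k l * zω D l)

/-- The first derivative of the segment polynomial along an extended direction. -/
lemma P_der_zw {z D : ZI n → ℝ} (hz : E.ν (zω z) = 0) (hD : E.ν (zω D) = 0)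
    (hE : ∀ k l, eval z (E.Ez k l) = 0) :
    der E.P (pt (zu z) (E.zw z)) (pt (zu D) (dν z D • E.ê + zω D)) =
      ∑ k, ∑ l, zω z k * zω z l * der (E.Ez k l) z D := by
  set g : Option (Fin n) → ℝ[X] := fun o => o.elim
    (Polynomial.C (zu z) + Polynomial.X * Polynomial.C (zu D)) fun i =>
    (∑ k, ∑ l, (Polynomial.C (zω z k) + Polynomial.X * Polynomial.C (zω D k)) *
      (Polynomial.C (zΓ z k l) + Polynomial.X * Polynomial.C (zΓ D k l)) *
      (Polynomial.C (zω z l) + Polynomial.X * Polynomial.C (zω D l))) * Polynomial.C (E.ê i) +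
    (Polynomial.C (zω z i) + Polynomial.X * Polynomial.C (zω D i))
  have key : aeval g E.P = ∑ k, ∑ l,
      (Polynomial.C (zω z k) + Polynomial.X * Polynomial.C (zω D k)) *
      (Polynomial.C (zω z l) + Polynomial.X * Polynomial.C (zω D l)) * line (E.Ez k l) z D := by
    refine Polynomial.funext fun t => ?_
    have hν : E.ν (zω (z + t • D)) = 0 := by
      rw [show zω (z + t • D) = zω z + t • zω D from rfl, map_add, map_smul, hz, hD, smul_zero,
        add_zero]
    have e := E.P_zw hν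
    rw [eval_path, Polynomial.eval_finsetSum]
    simp only [Polynomial.eval_finsetSum, Polynomial.eval_mul, Polynomial.eval_add,
      Polynomial.eval_C, Polynomial.eval_X, eval_line]
    have e1 : (fun o => (g o).eval t) = pt (zu (z + t • D)) (E.zw (z + t • D)) := by
      funext o
      cases o with
      | none => simp [g, zu, mul_comm t]
      | some i =>
        simp [g, zw, zν, zω, zΓ, Polynomial.eval_finsetSum, mul_comm t]
    rw [e1, e]
    refine Finset.sum_congr rfl fun k _ => Finset.sum_congr rfl fun l _ => ?_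
    rfl
  have h1 := congrArg (fun f : ℝ[X] => f.derivative.eval 0) key
  simp only [derivative_path, Polynomial.derivative_sum, Polynomial.eval_finsetSum,
    Polynomial.derivative_mul, Polynomial.eval_add, Polynomial.eval_mul, Polynomial.eval_C,
    Polynomial.eval_X, derivative_line, zero_smul, add_zero, eval_line, zero_mul, hE,
    mul_zero, zero_add] at h1
  rw [← h1]
  congr 1
  · funext o
    cases o with
    | none => simp [g]
    | some i => simp [g, zw, zν, Polynomial.eval_finsetSum]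
  · funext o
    cases o with
    | none => simp [g]
    | some i =>
      simp [g, dν, Polynomial.eval_finsetSum]
      left
      refine Finset.sum_congr rfl fun k _ => Finset.sum_congr rfl fun l _ => ?_
      ring

/-- The transversal derivative. -/
noncomputable def Pν (z : ZI n → ℝ) : ℝ := der E.P (pt (zu z) (E.zw z)) (pt 0 E.ê)

/-- The coefficient of the squared parameter difference. -/
noncomputable def G (k l : Fin n) (z₂ z₁ : ZI n → ℝ) : ℝ :=
  -der (E.Ez k l) z₁ (zp 0 (zω z₁) 0) + E.Pν z₁ * zΓ z₁ k l -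
    (1 - 2 * zu z₁ - (zu z₂ - zu z₁)) * der (E.Ez k l) z₁ (zp 1 0 0)

/-- The second order coefficients of the curvature equations. -/
noncomputable def ME (k l : Fin n) : ZI n → ZI n → Ker (ZI n) := (exists_quad (E.Ez k l)).choose

lemma ME_spec (k l : Fin n) (x a : ZI n → ℝ) : eval a (E.Ez k l) = eval x (E.Ez k l) +
    der (E.Ez k l) x (a - x) + ∑ i, ∑ j, ev (E.ME k l i j) x a * (a i - x i) * (a j - x j) :=
  (exists_quad (E.Ez k l)).choose_spec.2 x a

lemma der_zw_split (z : ZI n → ℝ) (a r : ℝ) (v : Fin n → ℝ) :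
    der E.P (pt (zu z) (E.zw z)) (pt a (r • E.ê + v)) =
      a * der E.P (pt (zu z) (E.zw z)) (pt 1 0) + r * E.Pν z +
        der E.P (pt (zu z) (E.zw z)) (pt 0 v) := by
  rw [Pν, ← der_smul, ← der_smul, ← der_add, ← der_add]
  congr 1
  funext o
  cases o <;> simp

/-- The kernel in extended coordinates. -/
theorem slack_eq {z₁ z₂ : ZI n → ℝ} (h₁ : z₁ ∈ E.Zset) (h₂ : z₂ ∈ E.Zset) :
    der H.p (E.chart (zu z₁) (E.zw z₁)) (E.chart (zu z₂) (E.zw z₂)) = E.J (zu z₁) *
      ((zu z₂ - zu z₁) ^ 2 * (∑ k, ∑ l, E.G k l z₂ z₁ * zω z₁ k * zω z₁ l) +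
        zu z₂ * (1 - zu z₂) *
          (E.Pν z₁ * (∑ k, ∑ l, ((zω z₂ - zω z₁) k * zΓ z₂ k l * (zω z₂ - zω z₁) l +
              zω z₁ k * (zΓ z₂ - zΓ z₁) k l * (zω z₂ - zω z₁) l +
              (zω z₂ - zω z₁) k * (zΓ z₂ - zΓ z₁) k l * zω z₁ l)) -
            ∑ k, ∑ l, zω z₁ k * zω z₁ l *
              ∑ i, ∑ j, ev (E.ME k l i j) z₁ z₂ * (z₂ i - z₁ i) * (z₂ j - z₁ j))) := by
  obtain ⟨⟨hu0, hu1⟩, ⟨hτ₁, hμ₁, hν₁⟩, hE₁⟩ := h₁
  obtain ⟨-, ⟨hτ₂, hμ₂, hν₂⟩, hE₂⟩ := h₂
  set u := zu z₁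
  set v := zu z₂
  set w₁ := E.zw z₁
  set w₂ := E.zw z₂
  set X₁ := pt u w₁
  have hU : u * (1 - u) ≠ 0 := mul_ne_zero hu0.ne' (by linarith)
  have hP : eval X₁ E.P = 0 := by
    rw [E.P_zw hν₁]; simp [hE₁]
  have hx0 : eval (E.chart u w₁) H.p = 0 := by rw [← E.P_mul, hP, mul_zero]
  -- in segment coordinates
  have step1 : der H.p (E.chart u w₁) (E.chart v w₂) = E.J u *
      ((v - u) * (u * (1 - u) * der E.P X₁ (pt 1 0)) +
        v * (1 - v) * der E.P X₁ (pt 0 (w₂ - w₁)) - (v - u) ^ 2 * der E.P X₁ (pt 0 w₁)) := by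
    have e : E.chart v w₂ = E.chart u w₁ + ((v - u) • ((E.b - E.s) + (1 - 2 * u) • w₁) +
        (v * (1 - v)) • (w₂ - w₁) + (-(v - u) ^ 2) • w₁) := by
      simp only [chart]; module
    rw [e, der_add, H.der_self, hx0, mul_zero, zero_add, der_add, der_add, der_smul, der_smul,
      der_smul, E.der_u hP, E.der_w hU, E.der_w hU]
    ring
  -- derivative in the parameter
  have eu : der E.P X₁ (pt 1 0) = ∑ k, ∑ l, zω z₁ k * zω z₁ l * der (E.Ez k l) z₁ (zp 1 0 0) := by
    rw [← E.P_der_zw hν₁ (D := zp 1 0 0) (by simp) hE₁]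
    simp [dν, X₁, u, w₁]
  have eν : dν z₁ (zp 0 (zω z₁) (0 : Fin n → Fin n → ℝ)) = 2 * zν z₁ := by
    simp only [dν, zν, zω_zp, zΓ_zp, Pi.zero_apply, mul_zero, zero_mul, add_zero,
      Finset.sum_add_distrib]
    ring
  have ew : der E.P X₁ (pt 0 w₁) =
      (∑ k, ∑ l, zω z₁ k * zω z₁ l * der (E.Ez k l) z₁ (zp 0 (zω z₁) 0)) - zν z₁ * E.Pν z₁ := by
    rw [← E.P_der_zw hν₁ (D := zp 0 (zω z₁) 0) (by simpa using hν₁) hE₁, eν]
    simp only [zu_zp, zω_zp]
    show der E.P (pt (zu z₁) (E.zw z₁)) (pt 0 (zν z₁ • E.ê + zω z₁)) = _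
    rw [E.der_zw_split, E.der_zw_split]
    ring
  -- the first order part
  set R := ∑ k, ∑ l, ((zω z₂ - zω z₁) k * zΓ z₂ k l * (zω z₂ - zω z₁) l +
      zω z₁ k * (zΓ z₂ - zΓ z₁) k l * (zω z₂ - zω z₁) l +
      (zω z₂ - zω z₁) k * (zΓ z₂ - zΓ z₁) k l * zω z₁ l)
  have eR : zν z₂ - zν z₁ = dν z₁ (z₂ - z₁) + R := by
    simp only [zν, dν, R, ← Finset.sum_sub_distrib, ← Finset.sum_add_distrib]
    refine Finset.sum_congr rfl fun k _ => Finset.sum_congr rfl fun l _ => ?_
    rw [show zω (z₂ - z₁) = zω z₂ - zω z₁ from rfl, show zΓ (z₂ - z₁) = zΓ z₂ - zΓ z₁ from rfl]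
    simp only [Pi.sub_apply]
    ring
  have eK : (v - u) * der E.P X₁ (pt 1 0) + der E.P X₁ (pt 0 (w₂ - w₁)) =
      (∑ k, ∑ l, zω z₁ k * zω z₁ l * der (E.Ez k l) z₁ (z₂ - z₁)) + R * E.Pν z₁ := by
    rw [← E.P_der_zw hν₁ (D := z₂ - z₁) (by
      rw [show zω (z₂ - z₁) = zω z₂ - zω z₁ from rfl, map_sub, hν₁, hν₂, sub_zero]) hE₁]
    rw [show w₂ - w₁ = (zν z₂ - zν z₁) • E.ê + (zω z₂ - zω z₁) by
      simp only [w₁, w₂, zw]; module, eR]
    rw [E.der_zw_split z₁ 0, E.der_zw_split z₁ (zu (z₂ - z₁))]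
    show _ = (v - u) * der E.P X₁ (pt 1 0) + dν z₁ (z₂ - z₁) * E.Pν z₁ +
      der E.P X₁ (pt 0 (zω z₂ - zω z₁)) + R * E.Pν z₁
    ring
  have eD : ∀ k l, der (E.Ez k l) z₁ (z₂ - z₁) =
      -∑ i, ∑ j, ev (E.ME k l i j) z₁ z₂ * (z₂ i - z₁ i) * (z₂ j - z₁ j) := fun k l => by
    have := E.ME_spec k l z₁ z₂
    rw [hE₁, hE₂] at this
    linarith
  have eK' : (∑ k, ∑ l, zω z₁ k * zω z₁ l * der (E.Ez k l) z₁ (z₂ - z₁)) =
      -∑ k, ∑ l, zω z₁ k * zω z₁ l *
        ∑ i, ∑ j, ev (E.ME k l i j) z₁ z₂ * (z₂ i - z₁ i) * (z₂ j - z₁ j) := by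
    simp only [eD, mul_neg, Finset.sum_neg_distrib]
  have eG : ∑ k, ∑ l, E.G k l z₂ z₁ * zω z₁ k * zω z₁ l =
      -(∑ k, ∑ l, zω z₁ k * zω z₁ l * der (E.Ez k l) z₁ (zp 0 (zω z₁) 0)) +
        E.Pν z₁ * zν z₁ -
        (1 - 2 * u - (v - u)) * der E.P X₁ (pt 1 0) := by
    rw [eu]
    simp only [G, zν, Finset.mul_sum, ← Finset.sum_neg_distrib, ← Finset.sum_add_distrib,
      ← Finset.sum_sub_distrib]
    refine Finset.sum_congr rfl fun k _ => Finset.sum_congr rfl fun l _ => ?_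
    ring
  rw [step1, eG, ew]
  congr 1
  rw [eK'] at eK
  linear_combination (v * (1 - v)) * eK

/-- The position coordinate. -/
noncomputable def wc (x : Fin n → ℝ) : Fin n → ℝ :=
  (E.μ x * (1 - E.μ x))⁻¹ • (x - E.s - E.μ x • (E.b - E.s))

/-- The curvature coordinate. -/
noncomputable def Γf (u : ℝ) (w : Fin n → ℝ) (k l : Fin n) : ℝ :=
  -eval (pt u w) (E.Q k l) / eval (pt u w) E.Cp

/-- Boundary points near a point of the segment. -/
noncomputable def near (u₀ : ℝ) : Filter (Fin n → ℝ) :=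
  𝓟 {x | x ∈ H.B ∧ E.μ x ∈ Set.Ioo (0 : ℝ) 1} ⊓
    Filter.comap (fun x => pt (E.μ x) (E.wc x)) (𝓝 (pt u₀ 0))

/-- The extended coordinates of a boundary point. -/
noncomputable def zc (x : Fin n → ℝ) : ZI n → ℝ :=
  zp (E.μ x) (E.π (E.wc x)) (E.Γf (E.μ x) (E.wc x))

lemma wc_eq {x : Fin n → ℝ} (h : E.μ x ∈ Set.Ioo (0 : ℝ) 1) : E.chart (E.μ x) (E.wc x) = x := by
  rw [chart, wc, smul_smul, mul_inv_cancel₀ (mul_ne_zero h.1.ne' (by linarith [h.2])), one_smul]
  module

lemma eval_Cp_axis (u : ℝ) : eval (pt u 0) E.Cp = E.c u := by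
  simp [Cp, eval_linPoly, eval_ωPol, eval_cPol, π]

lemma near_tendsto (u₀ : ℝ) :
    Tendsto (fun x => pt (E.μ x) (E.wc x)) (E.near u₀) (𝓝 (pt u₀ 0)) :=
  tendsto_comap.mono_left inf_le_right

/-- The base point in extended coordinates. -/
noncomputable def z₀ (u : ℝ) : ZI n → ℝ := zp u 0 (E.Γf u 0)

lemma near_zc {u₀ : ℝ} (hu : u₀ ∈ Set.Icc (0 : ℝ) 1) :
    Tendsto E.zc (E.near u₀) (𝓝 (E.z₀ u₀)) ∧
    ∀ᶠ x in E.near u₀, E.zc x ∈ E.Zset ∧ x ∈ H.B ∧ E.μ x = zu (E.zc x) ∧
      x = E.chart (zu (E.zc x)) (E.zw (E.zc x)) := by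
  have hC : eval (pt u₀ (0 : Fin n → ℝ)) E.Cp ≠ 0 := by
    rw [E.eval_Cp_axis]; exact (E.c_pos hu).ne'
  constructor
  · let φ : (Option (Fin n) → ℝ) → ZI n → ℝ := fun q o => o.elim (q none)
      (Sum.elim (E.π fun i => q (some i))
        fun kl => -eval q (E.Q kl.1 kl.2) / eval q E.Cp)
    have hφ : ContinuousAt φ (pt u₀ 0) := by
      refine continuousAt_pi.2 fun o => ?_
      rcases o with _ | i | kl
      · exact (continuous_apply none).continuousAt
      · exact ((continuous_apply i).comp (E.continuous_π.comp (by fun_prop))).continuousAt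
      · exact (MvPolynomial.continuous_eval _).continuousAt.neg.div
          (MvPolynomial.continuous_eval _).continuousAt hC
    have h0 : φ (pt u₀ 0) = E.z₀ u₀ := by
      funext o
      rcases o with _ | i | kl
      · rfl
      · show E.π (0 : Fin n → ℝ) i = 0
        simp [π]
      · rfl
    have he : E.zc = fun x => φ (pt (E.μ x) (E.wc x)) := by
      funext x o
      rcases o with _ | i | kl <;> rfl
    rw [he]
    exact (hφ.tendsto.comp (E.near_tendsto u₀)).trans (by rw [h0])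
  · have hev := ((MvPolynomial.continuous_eval E.Cp).tendsto _ |>.comp
      (E.near_tendsto u₀)).eventually_ne hC
    filter_upwards [hev, (eventually_principal.2 fun x hx => hx).filter_mono
      (inf_le_left : E.near u₀ ≤ _)] with x hCx hx
    obtain ⟨⟨hxK, hx1, hx0⟩, hμ⟩ := hx
    set u := E.μ x with hu'
    set w := E.wc x with hw
    have hch := E.wc_eq hμ
    have hP : eval (pt u w) E.P = 0 := by
      have := E.P_mul u w
      rw [hu', hw, hch, hx0, mul_eq_zero] at this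
      exact this.resolve_left (mul_ne_zero (pow_ne_zero _ hμ.1.ne')
        (pow_ne_zero _ (by linarith [hμ.2])))
    have hτw : H.τ w = 0 := by simp [hw, wc, hx1, E.hs.τ_eq, E.hb.τ_eq]
    have hμw : E.μ w = 0 := by simp [hw, wc, E.μs, E.μb]
    have hω : E.InW (E.π w) :=
      ⟨by simp [π, hτw, E.τ_ê], by simp [π, hμw, E.μ_ê], by simp [π, E.ν_ê]⟩
    -- the height equation
    have hνw : zν (zp u (E.π w) (E.Γf u w)) = E.ν w := by
      have h := E.P_eq u w
      rw [hP] at h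
      have e : zν (zp u (E.π w) (E.Γf u w)) =
          -(∑ k, ∑ l, eval (pt u w) (E.Q k l) * E.π w k * E.π w l) / eval (pt u w) E.Cp := by
        simp only [zν, zω_zp, zΓ_zp, Γf, neg_div, Finset.sum_div, ← Finset.sum_neg_distrib]
        exact Finset.sum_congr rfl fun k _ => Finset.sum_congr rfl fun l _ => by ring
      have hCx' : eval (pt u w) E.Cp ≠ 0 := hCx
      rw [e, div_eq_iff hCx']
      linarith
    have hzw : E.zw (E.zc x) = w := by
      rw [zw, zc, hνw, zω_zp, π]; abel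
    refine ⟨⟨by simpa [zc] using hμ, by simpa [zc] using hω, fun k l => ?_⟩, ⟨hxK, hx1, hx0⟩,
      by simp [zc, u], ?_⟩
    · rw [E.eval_Ez, hzw]
      simp only [zc, zu_zp, zΓ_zp, Γf]
      show eval (pt u w) E.Cp * (-eval (pt u w) (E.Q k l) / eval (pt u w) E.Cp) + _ = 0
      have : eval (pt u w) E.Cp ≠ 0 := hCx
      field_simp
      ring
    · rw [hzw]
      simp only [zc, zu_zp]
      exact hch.symm

end Edge

end Vale.Agent.P256.Gen
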