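import Vale.Agent.P256.Gen.EdgePD

/-!
The kernel near a flat segment and near its end points.
-/

namespace Vale.Agent.P256.Gen

open MvPolynomial Filter Topology
open scoped BigOperators Polynomial

set_option linter.unusedSectionVars false

lemma _root_.Vale.Agent.P256.SOSNear.sup_right {α β : Type*} {F : Filter α} {G G' : Filter β} {S : α → β → ℝ}
    (h : SOSNear F G S) (h' : SOSNear F G' S) : SOSNear F (G ⊔ G') S := by
  obtain ⟨U, hU, V, hV, hS⟩ := h
  obtain ⟨U', hU', V', hV', hS'⟩ := h'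
  refine ⟨U ∩ U', inter_mem hU hU', V ∪ V',
    Filter.mem_sup.2 ⟨mem_of_superset hV Set.subset_union_left,
      mem_of_superset hV' Set.subset_union_right⟩, ?_⟩
  refine sosOn_glue (fun b : Bool => if b then U else U') (fun b : Bool => if b then V else V') ?_ ?_
  · rintro a ha x (hx | hx)
    · exact ⟨true, ha.1, hx⟩
    · exact ⟨false, ha.2, hx⟩
  · rintro (_ | _)
    · exact hS'
    · exact hS

lemma _root_.Vale.Agent.P256.SOSNear.sup_left {α β : Type*} {F F' : Filter α} {G : Filter β} {S : α → β → ℝ}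
    (h : SOSNear F G S) (h' : SOSNear F' G S) : SOSNear (F ⊔ F') G S :=
  (h.swap.sup_right h'.swap).swap

variable {n : ℕ}

namespace Hyp

variable {H : Hyp n} {s : Fin n → ℝ}

lemma SingB.nhds_le (s : Fin n → ℝ) : 𝓝[H.B] s ≤ pure s ⊔ 𝓝[H.B \ {s}] s := by
  rw [← nhdsWithin_singleton, ← nhdsWithin_union]
  exact nhdsWithin_mono _ fun x hx => by
    rcases eq_or_ne x s with h | h
    · exact Or.inl h
    · exact Or.inr ⟨hx, h⟩

lemma SingB.pure_left (h : H.SingB s) {G : Filter (Fin n → ℝ)} (hG : ∀ᶠ x in G, x ∈ H.K) :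
    SOSNear (pure s) G H.slack := by
  refine (sosNear_prod (F := pure s) (G := G) (fun _ => (1 : ℝ)) (fun x => H.slack s x)
    (Eventually.of_forall fun _ => zero_le_one) (hG.mono fun x hx => H.der_nonneg hx h.mem)).congr
    (p := fun a => a = s) (q := fun _ => True) (eventually_pure.2 rfl)
    (Eventually.of_forall fun _ => trivial) fun a ha x _ => ?_
  rw [ha, one_mul]

lemma SingB.pure_right (h : H.SingB s) (F : Filter (Fin n → ℝ)) :
    SOSNear F (pure s) H.slack := by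
  refine ⟨Set.univ, univ_mem, {s}, mem_pure.2 rfl, sosOn_congr sosOn_zero fun a _ x hx => ?_⟩
  rw [Set.mem_singleton_iff.1 hx]
  exact h.2.der_eq a

/-- Splitting off a singular first point. -/
lemma SingB.split_left (h : H.SingB s) (hO : H.Ordinary) {G : Filter (Fin n → ℝ)}
    (hG : ∀ᶠ x in G, x ∈ H.K) (hθ : ∀ θ ∈ h.link, SOSNear (h.blow θ) G H.slack) :
    SOSNear (𝓝[H.B] s) G H.slack :=
  ((h.pure_left hG).sup_left (sosNear_of_local_left (h.isCompact_link hO) h.θ
    (eventually_nhdsWithin_of_forall fun x hx => h.θ_mem hO hx.1.1 hx.1.2.1 hx.2) hθ)).mono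
      (SingB.nhds_le s) le_rfl

/-- Splitting off a singular second point. -/
lemma SingB.split_right (h : H.SingB s) (hO : H.Ordinary) {F : Filter (Fin n → ℝ)}
    (hθ : ∀ θ ∈ h.link, SOSNear F (h.blow θ) H.slack) :
    SOSNear F (𝓝[H.B] s) H.slack :=
  ((h.pure_right F).sup_right (sosNear_of_local_right (h.isCompact_link hO) h.θ
    (eventually_nhdsWithin_of_forall fun x hx => h.θ_mem hO hx.1.1 hx.1.2.1 hx.2) hθ)).mono
      le_rfl (SingB.nhds_le s)

/-- Scaling of the derivative. -/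
lemma der_scale (H : Hyp n) (c : ℝ) (x w : Fin n → ℝ) :
    c * der H.p (c • x) w = c ^ H.d * der H.p x w := by
  have key : line H.p (c • x) (c • w) = Polynomial.C (c ^ H.d) * line H.p x w := by
    refine Polynomial.funext fun t => ?_
    rw [Polynomial.eval_mul, Polynomial.eval_C, eval_line, eval_line, ← H.smul_eval]
    congr 2
    module
  have := congrArg (fun f : ℝ[X] => f.coeff 1) key
  simp only [Polynomial.coeff_C_mul] at this
  rwa [← cf, ← cf, cf_one, cf_one, der_smul] at this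

end Hyp

namespace Edge

variable {H : Hyp n} (E : Edge H)

lemma near_symm (u : ℝ) : E.near u ≤ E.symm.near (1 - u) := by
  have hev : ∀ᶠ x in E.near u, x ∈ H.B ∧ E.μ x ∈ Set.Ioo (0 : ℝ) 1 :=
    (eventually_principal.2 fun x hx => hx).filter_mono inf_le_left
  have hμ : ∀ x, x ∈ H.B → E.symm.μ x = 1 - E.μ x := fun x hx => by
    simp [Edge.symm, hx.2.1]
  refine le_inf ?_ ?_
  · refine le_principal_iff.2 ?_
    filter_upwards [hev] with x hx
    exact ⟨hx.1, by rw [hμ x hx.1]; constructor <;> linarith [hx.2.1, hx.2.2]⟩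
  · refine map_le_iff_le_comap.1 ?_
    have hc : Continuous fun q : Option (Fin n) → ℝ => pt (1 - q none) (fun i => q (some i)) :=
      continuous_pt (by fun_prop) (continuous_pi fun i => continuous_apply _)
    have h0 := (hc.tendsto _).comp (E.near_tendsto u)
    refine h0.congr' ?_
    filter_upwards [hev] with x hx
    rw [Function.comp_apply, hμ x hx.1]
    congr 1
    funext i
    simp only [pt_some, wc, Edge.symm, LinearMap.sub_apply, hx.1.2.1, Pi.smul_apply, Pi.sub_apply,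
      smul_eq_mul, sub_sub_cancel]
    ring

lemma cell_edge_left {u v : ℝ} (hu : u ∈ Set.Ico (0 : ℝ) 1) (hv : v ∈ Set.Icc (0 : ℝ) 1)
    (huv : u = 0 ∨ v < 1) : SOSNear (E.near v) (E.near u) H.slack :=
  E.cell_edge ⟨hu.1, hu.2.le⟩ hv fun _ _ hα hβ hne => E.Nb_pos hu hv huv hα hβ hne

/-- The kernel on pairs near any two points of the segment. -/
theorem cell_edge_any {u v : ℝ} (hu : u ∈ Set.Icc (0 : ℝ) 1) (hv : v ∈ Set.Icc (0 : ℝ) 1) :
    SOSNear (E.near v) (E.near u) H.slack := by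
  by_cases h : u < 1 ∧ (u = 0 ∨ v < 1)
  · exact E.cell_edge_left ⟨hu.1, h.1⟩ hv h.2
  · refine (E.symm.cell_edge_left (u := 1 - u) (v := 1 - v) ⟨by linarith [hu.2], ?_⟩
      ⟨by linarith [hv.2], by linarith [hv.1]⟩ ?_).mono (E.near_symm v) (E.near_symm u)
    · by_contra h1
      exact h ⟨by linarith [hu.1], Or.inl (by linarith [hu.1])⟩
    · rcases hu.2.eq_or_lt with h1 | h1
      · left; linarith
      · right
        have : v = 1 := by
          by_contra hv1
          exact h ⟨h1, Or.inr (lt_of_le_of_ne hv.2 hv1)⟩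
        linarith

lemma nhds_le_near {u : ℝ} (hu : u ∈ Set.Ioo (0 : ℝ) 1) : 𝓝[H.B] (E.pnt u) ≤ E.near u := by
  have hμ : E.μ (E.pnt u) = u := by simp [pnt, E.μs, E.μb]
  have hμc : Continuous E.μ := LinearMap.continuous_of_finiteDimensional _
  refine le_inf ?_ ?_
  · refine le_principal_iff.2 ?_
    filter_upwards [self_mem_nhdsWithin, (hμc.continuousAt.eventually
      (isOpen_Ioo.mem_nhds (show E.μ (E.pnt u) ∈ Set.Ioo (0 : ℝ) 1 by rw [hμ]; exact hu))).filter_mono
      nhdsWithin_le_nhds] with x h1 h2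
    exact ⟨h1, h2⟩
  · refine map_le_iff_le_comap.1 ?_
    have hne : E.μ (E.pnt u) * (1 - E.μ (E.pnt u)) ≠ 0 := by
      rw [hμ]; exact mul_ne_zero hu.1.ne' (by linarith [hu.2])
    have hw : ContinuousAt E.wc (E.pnt u) :=
      ((hμc.mul (continuous_const.sub hμc)).continuousAt.inv₀ hne).smul
        ((continuous_id.sub continuous_const).sub (hμc.smul continuous_const)).continuousAt
    have h0 : E.wc (E.pnt u) = 0 := by rw [wc, hμ]; simp [pnt]
    have := (continuousAt_pt hμc.continuousAt hw).tendsto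
    rw [hμ, h0] at this
    exact this.mono_left nhdsWithin_le_nhds

lemma dir_mem : E.b - E.s ∈ E.hs.T.K := by
  rw [sub_eq_add_neg, ← neg_one_smul ℝ E.s]
  exact H.tg_translate_mem E.hs.mem (H.subset_tg E.hs.mem E.hb.mem) (-1)

lemma ρ_b_pos : 0 < E.hs.ρ E.b := E.hs.ρ_pos E.hO E.hb.mem E.hb.τ_eq E.ne.symm

lemma dir_zero : eval (E.b - E.s) E.hs.T.p = 0 := by
  have := E.P_at_zero 0
  rw [E.P_axis, add_zero] at this
  exact this.symm

lemma θb_link : E.hs.θ E.b ∈ E.hs.link := E.hs.θ_mem E.hO E.hb.mem E.hb.τ_eq E.ne.symm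

lemma θb_zero : eval (E.hs.θ E.b) E.hs.T.p = 0 := by
  rw [Hyp.SingB.θ, E.hs.T.smul_eval, E.dir_zero, mul_zero]

lemma der_dir_tangent (w : Fin n → ℝ) : der E.hs.T.p (E.b - E.s) w = E.c 0 * E.ν w := by
  have key : line E.P (pt 0 0) (pt 0 w) = line E.hs.T.p (E.b - E.s) w := by
    refine Polynomial.funext fun t => ?_
    rw [eval_line, pt_smul, pt_add, mul_zero, add_zero, zero_add, E.P_at_zero, eval_line]
  rw [← E.P_der_axis', ← cf_one, ← cf_one, cf, cf, key]

lemma der_θb (w : Fin n → ℝ) : (E.hs.ρ E.b)⁻¹ * der E.hs.T.p (E.hs.θ E.b) w =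
    (E.hs.ρ E.b)⁻¹ ^ E.hs.T.d * (E.c 0 * E.ν w) := by
  rw [Hyp.SingB.θ, Hyp.der_scale, E.der_dir_tangent]

/-- Directions other than the segment leave the common tangent hyperplane. -/
lemma ν_pos {θ : Fin n → ℝ} (hθ : θ ∈ E.hs.link) (hne : θ ≠ E.hs.θ E.b) : 0 < E.ν θ := by
  have hr := inv_pos.2 E.ρ_b_pos
  have hc := E.c_pos (u := 0) ⟨le_rfl, zero_le_one⟩
  have hnn : 0 ≤ der E.hs.T.p (E.hs.θ E.b) θ := E.hs.T.der_nonneg E.θb_link.1 hθ.1
  have hpos : 0 < der E.hs.T.p (E.hs.θ E.b) θ :=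
    lt_of_le_of_ne hnn fun h => hne (E.hs.strict E.hO E.θb_link E.θb_zero hθ h.symm)
  have := mul_pos hr hpos
  rw [E.der_θb] at this
  exact pos_of_mul_pos_right (pos_of_mul_pos_right this (pow_pos hr _).le) hc.le

/-- Approaching an end point along the segment. -/
lemma blow_le_near : E.hs.blow (E.hs.θ E.b) ≤ E.near 0 := by
  set h := E.hs
  set r := h.ρ E.b
  have hr : 0 < r := E.ρ_b_pos
  set θ₀ := h.θ E.b
  have hμc : Continuous E.μ := LinearMap.continuous_of_finiteDimensional _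
  have hμ0 : E.μ θ₀ = r⁻¹ := by simp [θ₀, r, Hyp.SingB.θ, E.μs, E.μb]
  have hρ : Tendsto h.ρ (h.blow θ₀) (𝓝 0) :=
    ((continuous_apply none).tendsto _).comp (h.blow_tendsto θ₀)
  have hθ := h.blow_tendsto_θ θ₀
  have hm : Tendsto (fun x => E.μ (h.θ x)) (h.blow θ₀) (𝓝 r⁻¹) := by
    rw [← hμ0]; exact (hμc.tendsto θ₀).comp hθ
  have hprod : Tendsto (fun x => h.ρ x * E.μ (h.θ x)) (h.blow θ₀) (𝓝 0) := by
    simpa using hρ.mul hm
  have hev : ∀ᶠ x in h.blow θ₀, x ∈ H.B ∧ E.μ x = h.ρ x * E.μ (h.θ x) ∧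
      E.μ x ∈ Set.Ioo (0 : ℝ) 1 ∧
      E.wc x = (E.μ (h.θ x) * (1 - h.ρ x * E.μ (h.θ x)))⁻¹ •
        (h.θ x - E.μ (h.θ x) • (E.b - E.s)) := by
    filter_upwards [h.blow_ev E.hO θ₀, hm.eventually (lt_mem_nhds (inv_pos.2 hr)),
      hprod.eventually (gt_mem_nhds zero_lt_one)] with x hx h1 h2
    obtain ⟨hxB, hρx, hex, -, -⟩ := hx
    have e : E.μ x = h.ρ x * E.μ (h.θ x) := by
      conv_lhs => rw [hex]
      rw [map_add, map_smul, E.μs, zero_add, smul_eq_mul]
    refine ⟨hxB, e, by rw [e]; exact ⟨mul_pos hρx h1, h2⟩, ?_⟩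
    have hsub : x - E.s = h.ρ x • h.θ x := sub_eq_iff_eq_add'.2 hex
    rw [wc, e, hsub]
    rw [show h.ρ x • h.θ x - (h.ρ x * E.μ (h.θ x)) • (E.b - E.s) =
      h.ρ x • (h.θ x - E.μ (h.θ x) • (E.b - E.s)) by module, smul_smul]
    congr 1
    have : 1 - h.ρ x * E.μ (h.θ x) ≠ 0 := by linarith
    have := hρx.ne'
    have := h1.ne'
    field_simp
  refine le_inf (le_principal_iff.2 (hev.mono fun x hx => ⟨hx.1, hx.2.2.1⟩)) ?_
  refine map_le_iff_le_comap.1 ?_
  have hw : Tendsto E.wc (h.blow θ₀) (𝓝 0) := by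
    have h' := ((hm.mul (hprod.const_sub 1)).inv₀ (by
      rw [sub_zero, mul_one]; exact inv_ne_zero hr.ne')).smul (hθ.sub (hm.smul_const (E.b - E.s)))
    rw [show θ₀ - r⁻¹ • (E.b - E.s) = 0 by simp [θ₀, r, Hyp.SingB.θ], smul_zero] at h'
    exact h'.congr' (hev.mono fun x hx => hx.2.2.2.symm)
  have hμ' : Tendsto E.μ (h.blow θ₀) (𝓝 0) := hprod.congr' (hev.mono fun x hx => hx.2.1.symm)
  refine tendsto_pi_nhds.2 fun o => ?_
  cases o with
  | none => exact hμ'
  | some i => exact ((continuous_apply i).tendsto _).comp hw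

/-- A neighbourhood of an end point against a neighbourhood of any point of the segment. -/
lemma end_near {u : ℝ} (hu : u ∈ Set.Icc (0 : ℝ) 1) :
    SOSNear (𝓝[H.B] E.s) (E.near u) H.slack := by
  have hev : ∀ᶠ x in E.near u, x ∈ H.B ∧ E.μ x ∈ Set.Ioo (0 : ℝ) 1 :=
    (eventually_principal.2 fun x hx => hx).filter_mono inf_le_left
  refine E.hs.split_left E.hO (hev.mono fun x hx => hx.1.1) fun θ hθ => ?_
  by_cases he : θ = E.hs.θ E.b
  · subst he
    exact (E.cell_edge_any hu ⟨le_rfl, zero_le_one⟩).mono E.blow_le_near le_rfl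
  · refine Hyp.cell_first E.hs E.hO (fun x => E.J (E.μ x))
      (fun i x => eval (pt (E.μ x) (E.wc x)) (pderiv (some i) E.P))
      (fun i => eval (pt u 0) (pderiv (some i) E.P)) ?_ ?_ ?_
    · filter_upwards [hev] with x hx
      obtain ⟨hxB, hμ⟩ := hx
      refine ⟨hxB.1, mul_nonneg (pow_nonneg hμ.1.le _) (pow_nonneg (by linarith [hμ.2]) _),
        fun w _ => ?_⟩
      conv_lhs => rw [← E.wc_eq hμ]
      rw [E.der_w (mul_ne_zero hμ.1.ne' (by linarith [hμ.2])), der, Fintype.sum_option]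
      simp [mul_comm]
    · exact fun i => ((MvPolynomial.continuous_eval _).tendsto _).comp (E.near_tendsto u)
    · have e : ∑ i, θ i * eval (pt u 0) (pderiv (some i) E.P) =
          der E.P (pt u 0) (pt 0 θ) := by
        rw [der, Fintype.sum_option]; simp [mul_comm]
      rw [e, E.P_der_axis']
      exact mul_pos (E.c_pos hu) (E.ν_pos hθ he)

/-- A neighbourhood of one point of the segment against a neighbourhood of another. -/
theorem point_near {u v : ℝ} (hu : u ∈ Set.Icc (0 : ℝ) 1) (hv : v ∈ Set.Icc (0 : ℝ) 1) :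
    SOSNear (𝓝[H.B] (E.pnt v)) (E.near u) H.slack := by
  rcases hv.1.eq_or_lt with h0 | h0
  · rw [← h0, E.pnt_zero]; exact E.end_near hu
  rcases hv.2.eq_or_lt with h1 | h1
  · rw [h1, E.pnt_one]
    exact (E.symm.end_near (u := 1 - u) ⟨by linarith [hu.2], by linarith [hu.1]⟩).mono le_rfl
      (E.near_symm u)
  · exact (E.cell_edge_any hu hv).mono (E.nhds_le_near ⟨h0, h1⟩) le_rfl

end Edge

end Vale.Agent.P256.Gen
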