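import Vale.Agent.P256.Gen.EdgeSOS

/-!
The limiting profile over a flat segment: convexity and rigidity.
-/

namespace Vale.Agent.P256.Gen

open MvPolynomial Filter Topology
open scoped BigOperators Polynomial

set_option linter.unusedSectionVars false

/-- An affine family of real rooted polynomials which degenerates to second order is zero. -/
theorem affine_limit {A B : ℝ[X]} (h : ∀ δ : ℝ, 0 < δ → Polynomial.Splits (Polynomial.C δ * A + B))
    (hA : A.coeff 0 ≠ 0) (b0 : B.coeff 0 = 0) (b1 : B.coeff 1 = 0) (b2 : B.coeff 2 = 0) :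
    B = 0 := by
  set seq : ℕ → ℝ := fun k => 1 / ((k : ℝ) + 1)
  have hs : ∀ k, 0 < seq k := fun k => by positivity
  have hs0 : Tendsto seq atTop (𝓝 0) := tendsto_one_div_add_atTop_nhds_zero_nat
  set C₀ : ℝ := (|A.coeff 1| + |A.coeff 2|) / |A.coeff 0|
  have hAp : 0 < |A.coeff 0| := abs_pos.2 hA
  have cj : ∀ k j, (Polynomial.C (seq k) * A + B).coeff j = seq k * A.coeff j + B.coeff j := by
    simp
  have key := limit_zero (d := max A.natDegree B.natDegree) (C₀ := C₀) (fun k => h _ (hs k))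
    (fun k => (Polynomial.natDegree_add_le _ _).trans
      (max_le_max (Polynomial.natDegree_C_mul_le _ _) le_rfl))
    (fun k => by rw [cj, b0, add_zero]; exact mul_ne_zero (hs k).ne' hA)
    (fun k => by
      rw [cj, cj, b0, b1, add_zero, add_zero, abs_mul, abs_mul, div_mul_eq_mul_div, le_div_iff₀ hAp]
      have : 0 ≤ |seq k| * |A.coeff 2| * |A.coeff 0| := by positivity
      linarith)
    (fun k => by
      rw [cj, cj, b0, b2, add_zero, add_zero, abs_mul, abs_mul, div_mul_eq_mul_div, le_div_iff₀ hAp]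
      have : 0 ≤ |seq k| * |A.coeff 1| * |A.coeff 0| := by positivity
      linarith)
    (by simp only [cj, b0, add_zero]; simpa using hs0.mul_const (A.coeff 0))
  ext j
  rw [Polynomial.coeff_zero]
  refine tendsto_nhds_unique ?_ (key j)
  simp only [cj]
  simpa using (hs0.mul_const (A.coeff j)).add_const (B.coeff j)

variable {n : ℕ}

namespace Edge

variable {H : Hyp n} (E : Edge H)

/-- A bilinear sum over the coefficients of the profile. -/
noncomputable def bil (M : Fin n → Fin n → ℝ) (a b : Fin n → ℝ) : ℝ :=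
  ∑ k, ∑ l, M k l * a k * b l

lemma continuous_bil {X : Type*} [TopologicalSpace X] {M : X → Fin n → Fin n → ℝ}
    {a b : X → Fin n → ℝ} (hM : Continuous M) (ha : Continuous a) (hb : Continuous b) :
    Continuous fun x => bil (M x) (a x) (b x) := by
  unfold bil; fun_prop

lemma bil_smul (M : Fin n → Fin n → ℝ) (a b : Fin n → ℝ) (s t : ℝ) :
    bil M (s • a) (t • b) = s * t * bil M a b := by
  simp only [bil, Finset.mul_sum, Pi.smul_apply, smul_eq_mul]
  exact Finset.sum_congr rfl fun k _ => Finset.sum_congr rfl fun l _ => by ring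

/-- The profile of the cone over the segment. -/
noncomputable def f (u : ℝ) (z : Fin n → ℝ) : ℝ :=
  bil (fun k l => E.Gs k l u) z z / (u * (1 - u))

/-- Its first derivative along `(1, k)`. -/
noncomputable def f₁ (u : ℝ) (z k : Fin n → ℝ) : ℝ :=
  (bil (fun a b => E.G1 a b u) z z + bil (fun a b => E.Gs a b u) z k +
    bil (fun a b => E.Gs a b u) k z) / (u * (1 - u)) -
      bil (fun a b => E.Gs a b u) z z * (1 - 2 * u) / (u * (1 - u)) ^ 2

/-- Numerator of the profile along a line. -/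
noncomputable def num (u : ℝ) (z k : Fin n → ℝ) : ℝ[X] :=
  ∑ a, ∑ b, (Polynomial.C (z a) + Polynomial.X * Polynomial.C (k a)) *
    (Polynomial.C (z b) + Polynomial.X * Polynomial.C (k b)) * Polynomial.taylor u (E.ql a b)

/-- Denominator of the profile along a line. -/
noncomputable def den (u : ℝ) : ℝ[X] :=
  Polynomial.taylor u (E.cl * (Polynomial.X * (1 - Polynomial.X)))

/-- The tangency defect along a line. -/
noncomputable def Φ (u : ℝ) (z k : Fin n → ℝ) : ℝ[X] :=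
  (Polynomial.C (E.f u z) + Polynomial.C (E.f₁ u z k) * Polynomial.X) * E.den u + E.num u z k

lemma eval_num (u : ℝ) (z k : Fin n → ℝ) (t : ℝ) : (E.num u z k).eval t =
    bil (fun a b => (E.ql a b).eval (t + u)) (z + t • k) (z + t • k) := by
  simp only [num, bil, Polynomial.eval_finsetSum, Polynomial.eval_mul, Polynomial.eval_add,
    Polynomial.eval_C, Polynomial.eval_X, Polynomial.taylor_eval, Pi.add_apply, Pi.smul_apply,
    smul_eq_mul]
  exact Finset.sum_congr rfl fun a _ => Finset.sum_congr rfl fun b _ => by ring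

lemma eval_den (u t : ℝ) : (E.den u).eval t = E.c (t + u) * ((t + u) * (1 - (t + u))) := by
  simp [den, Polynomial.taylor_eval, eval_cl]

lemma bil_Gs (u : ℝ) (a b : Fin n → ℝ) :
    bil (fun k l => E.Gs k l u) a b = -bil (fun k l => (E.ql k l).eval u) a b / E.c u := by
  simp only [bil, Gs, eval_cl, neg_div, Finset.sum_div, ← Finset.sum_neg_distrib]
  exact Finset.sum_congr rfl fun k _ => Finset.sum_congr rfl fun l _ => by ring

lemma bil_ql {u : ℝ} (hu : E.c u ≠ 0) (a b : Fin n → ℝ) :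
    bil (fun k l => (E.ql k l).eval u) a b = -(E.c u * bil (fun k l => E.Gs k l u) a b) := by
  rw [E.bil_Gs]; field_simp

lemma eval_Φ {u t : ℝ} (z k : Fin n → ℝ) (h : t + u ∈ Set.Ioo (0 : ℝ) 1) :
    (E.Φ u z k).eval t = (E.den u).eval t *
      (E.f u z + E.f₁ u z k * t - E.f (t + u) (z + t • k)) := by
  have hc := (E.c_pos ⟨h.1.le, h.2.le⟩).ne'
  have hU : (t + u) * (1 - (t + u)) ≠ 0 := mul_ne_zero h.1.ne' (by linarith [h.2])
  rw [Φ, Polynomial.eval_add, Polynomial.eval_mul, Polynomial.eval_add, Polynomial.eval_C,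
    Polynomial.eval_mul, Polynomial.eval_C, Polynomial.eval_X, E.eval_num, E.bil_ql hc, E.eval_den]
  have h1 : t + u ≠ 0 := h.1.ne'
  have h2 : 1 - (t + u) ≠ 0 := by linarith [h.2]
  rw [show E.f (t + u) (z + t • k) =
    bil (fun a b => E.Gs a b (t + u)) (z + t • k) (z + t • k) / ((t + u) * (1 - (t + u))) from rfl]
  field_simp
  ring

lemma coeff_num (u : ℝ) (z k : Fin n → ℝ) :
    (E.num u z k).coeff 0 = bil (fun a b => (E.ql a b).eval u) z z ∧
    (E.num u z k).coeff 1 = bil (fun a b => (E.ql a b).derivative.eval u) z z +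
      bil (fun a b => (E.ql a b).eval u) z k + bil (fun a b => (E.ql a b).eval u) k z ∧
    (E.num u z k).coeff 2 = bil (fun a b => (Polynomial.taylor u (E.ql a b)).coeff 2) z z +
      bil (fun a b => (E.ql a b).derivative.eval u) z k +
      bil (fun a b => (E.ql a b).derivative.eval u) k z +
      bil (fun a b => (E.ql a b).eval u) k k := by
  refine ⟨?_, ?_, ?_⟩ <;>
    simp only [num, bil, Polynomial.finsetSum_coeff, ← Finset.sum_add_distrib] <;>
    refine Finset.sum_congr rfl fun a _ => Finset.sum_congr rfl fun b _ => ?_ <;>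
    simp [Polynomial.coeff_mul, Finset.Nat.antidiagonal_succ, Polynomial.taylor_coeff_one,
      Polynomial.taylor_coeff_zero, Polynomial.coeff_X] <;>
    ring

lemma coeff_den (u : ℝ) :
    (E.den u).coeff 0 = E.cl.eval u * (u * (1 - u)) ∧
    (E.den u).coeff 1 = E.cl.derivative.eval u * (u * (1 - u)) + E.cl.eval u * (1 - 2 * u) ∧
    (E.den u).coeff 2 = (Polynomial.taylor u E.cl).coeff 2 * (u * (1 - u)) +
      E.cl.derivative.eval u * (1 - 2 * u) - E.cl.eval u := by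
  rw [den, Polynomial.taylor_mul, Polynomial.taylor_mul, map_sub, Polynomial.taylor_X,
    Polynomial.taylor_one]
  refine ⟨?_, ?_, ?_⟩ <;>
    simp [Polynomial.coeff_mul, Finset.Nat.antidiagonal_succ, Polynomial.taylor_coeff_one,
      Polynomial.taylor_coeff_zero, Polynomial.coeff_X, Polynomial.coeff_one, Polynomial.coeff_C] <;>
    ring

lemma bil_G1 {u : ℝ} (hu : E.c u ≠ 0) (a b : Fin n → ℝ) :
    bil (fun k l => (E.ql k l).derivative.eval u) a b =
      -(E.c u * bil (fun k l => E.G1 k l u) a b) -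
        E.cl.derivative.eval u * bil (fun k l => E.Gs k l u) a b := by
  simp only [bil, Finset.mul_sum, ← Finset.sum_neg_distrib, ← Finset.sum_sub_distrib]
  refine Finset.sum_congr rfl fun k _ => Finset.sum_congr rfl fun l _ => ?_
  rw [G1, E.eval_cl]
  field_simp
  ring

lemma bil_G2 {u : ℝ} (hu : E.c u ≠ 0) (a b : Fin n → ℝ) :
    bil (fun k l => (Polynomial.taylor u (E.ql k l)).coeff 2) a b =
      -(E.c u * bil (fun k l => E.G2 k l u) a b) -
        (Polynomial.taylor u E.cl).coeff 2 * bil (fun k l => E.Gs k l u) a b -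
        E.cl.derivative.eval u * bil (fun k l => E.G1 k l u) a b := by
  simp only [bil, Finset.mul_sum, ← Finset.sum_neg_distrib, ← Finset.sum_sub_distrib]
  refine Finset.sum_congr rfl fun k _ => Finset.sum_congr rfl fun l _ => ?_
  rw [G2, E.eval_cl]
  field_simp
  ring

lemma Φ_coeff {u : ℝ} (hu : u ∈ Set.Ioo (0 : ℝ) 1) (z k : Fin n → ℝ) :
    (E.Φ u z k).coeff 0 = 0 ∧ (E.Φ u z k).coeff 1 = 0 := by
  have hc := (E.c_pos ⟨hu.1.le, hu.2.le⟩).ne'
  have hU : u * (1 - u) ≠ 0 := mul_ne_zero hu.1.ne' (by linarith [hu.2])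
  obtain ⟨n0, n1, -⟩ := E.coeff_num u z k
  obtain ⟨d0, d1, -⟩ := E.coeff_den u
  have h1 : u ≠ 0 := hu.1.ne'
  have h2 : 1 - u ≠ 0 := by linarith [hu.2]
  constructor
  · simp only [Φ, Polynomial.coeff_add, add_mul, Polynomial.coeff_C_mul, mul_assoc,
      Polynomial.coeff_X_mul_zero, d0, n0, E.bil_ql hc, E.eval_cl, mul_zero, add_zero, f]
    field_simp
    ring
  · simp only [Φ, Polynomial.coeff_add, add_mul, Polynomial.coeff_C_mul, mul_assoc,
      Polynomial.coeff_X_mul, d0, d1, n1, E.bil_ql hc, E.bil_G1 hc, E.eval_cl, f, f₁]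
    field_simp
    ring

lemma Φ_coeff_two {u : ℝ} (hu : u ∈ Set.Ioo (0 : ℝ) 1) (z k : Fin n → ℝ) :
    (E.Φ u z k).coeff 2 = E.f u z * (E.den u).coeff 2 + E.f₁ u z k * (E.den u).coeff 1 +
      (E.num u z k).coeff 2 := by
  simp only [Φ, Polynomial.coeff_add, add_mul, Polynomial.coeff_C_mul, mul_assoc,
    Polynomial.coeff_X_mul]

/-- A curve leaving the segment. -/
noncomputable def curve (u : ℝ) (z : Fin n → ℝ) (τ ε : ℝ) : Fin n → ℝ :=
  E.pnt u + ε • z + (ε ^ 2 * τ) • E.ê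

lemma p_curve {u : ℝ} (hu : u ∈ Set.Ioo (0 : ℝ) 1) {z : Fin n → ℝ} (hz : E.InW z) (τ ε : ℝ) :
    eval (E.curve u z τ ε) H.p = ε ^ 2 * (E.J u *
      (eval (pt u ((u * (1 - u))⁻¹ • (ε • z + (ε ^ 2 * τ) • E.ê))) E.Cp * τ +
        bil (fun k l => eval (pt u ((u * (1 - u))⁻¹ • (ε • z + (ε ^ 2 * τ) • E.ê))) (E.Q k l)) z z /
          (u * (1 - u)))) := by
  set U := u * (1 - u) with hU
  have hU0 : U ≠ 0 := mul_ne_zero hu.1.ne' (by linarith [hu.2])
  set w := U⁻¹ • (ε • z + (ε ^ 2 * τ) • E.ê) with hw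
  have hch : E.chart u w = E.curve u z τ ε := by
    rw [chart, hw, smul_smul, mul_inv_cancel₀ hU0, one_smul, curve, pnt]; abel
  have hν : E.ν w = U⁻¹ * (ε ^ 2 * τ) := by simp [hw, hz.2.2, E.ν_ê]
  have hπ : E.π w = (U⁻¹ * ε) • z := by
    rw [π, hν, hw]; module
  rw [← hch, ← E.P_mul, ← E.J_mul, E.P_eq, hν, hπ]
  change E.J u * U * (_ + bil (fun k l => eval (pt u w) (E.Q k l)) ((U⁻¹ * ε) • z) ((U⁻¹ * ε) • z)) = _
  rw [bil_smul]
  field_simp

lemma p_curve_tendsto {u : ℝ} (hu : u ∈ Set.Ioo (0 : ℝ) 1) {z : Fin n → ℝ} (hz : E.InW z)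
    (τ : ℝ) : Tendsto (fun ε => eval (E.curve u z τ ε) H.p / ε ^ 2) (𝓝[>] 0)
      (𝓝 (E.J u * (E.c u * (τ - E.f u z)))) := by
  have hU0 : u * (1 - u) ≠ 0 := mul_ne_zero hu.1.ne' (by linarith [hu.2])
  have hc := (E.c_pos ⟨hu.1.le, hu.2.le⟩).ne'
  set W : ℝ → Option (Fin n) → ℝ := fun ε =>
    pt u ((u * (1 - u))⁻¹ • (ε • z + (ε ^ 2 * τ) • E.ê))
  have hW : Continuous W := continuous_pt continuous_const (by fun_prop)
  have hφ : Continuous fun ε : ℝ => E.J u * (eval (W ε) E.Cp * τ +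
      bil (fun k l => eval (W ε) (E.Q k l)) z z / (u * (1 - u))) := by
    refine continuous_const.mul ((((MvPolynomial.continuous_eval _).comp hW).mul continuous_const).add
      ((continuous_bil (continuous_pi fun k => continuous_pi fun l =>
        (MvPolynomial.continuous_eval _).comp hW) continuous_const continuous_const).div_const _))
  have h0 : E.J u * (E.c u * (τ - E.f u z)) = E.J u * (eval (W 0) E.Cp * τ +
      bil (fun k l => eval (W 0) (E.Q k l)) z z / (u * (1 - u))) := by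
    have e : W 0 = pt u 0 := by simp [W]
    rw [e, E.eval_Cp_axis]
    simp only [← E.eval_ql]
    rw [E.bil_ql hc, f]
    ring
  rw [h0]
  refine ((hφ.tendsto 0).mono_left nhdsWithin_le_nhds).congr' ?_
  filter_upwards [self_mem_nhdsWithin] with ε hε
  rw [E.p_curve hu hz, mul_div_cancel_left₀ _ (pow_ne_zero 2 (Set.mem_Ioi.1 hε).ne')]

lemma curve_tendsto (u : ℝ) (z : Fin n → ℝ) (τ : ℝ) :
    Tendsto (E.curve u z τ) (𝓝[>] 0) (𝓝 (E.pnt u)) := by
  have : Continuous (E.curve u z τ) := by unfold curve; fun_prop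
  simpa [curve] using (this.tendsto 0).mono_left nhdsWithin_le_nhds

lemma J_pos {u : ℝ} (hu : u ∈ Set.Ioo (0 : ℝ) 1) : 0 < E.J u :=
  mul_pos (pow_pos hu.1 _) (pow_pos (by linarith [hu.2]) _)

lemma above_mem {u : ℝ} (hu : u ∈ Set.Ioo (0 : ℝ) 1) {z : Fin n → ℝ} (hz : E.InW z) {τ : ℝ}
    (h : E.f u z < τ) : ∀ᶠ ε in 𝓝[>] (0 : ℝ), E.curve u z τ ε ∈ H.core := by
  have hpos : 0 < E.J u * (E.c u * (τ - E.f u z)) :=
    mul_pos (E.J_pos hu) (mul_pos (E.c_pos ⟨hu.1.le, hu.2.le⟩) (sub_pos.2 h))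
  filter_upwards [(E.p_curve_tendsto hu hz τ).eventually (lt_mem_nhds hpos),
    (E.curve_tendsto u z τ).eventually (E.smooth hu).local_mem, self_mem_nhdsWithin] with ε h1 h2 h3
  exact h2.2 ((div_pos_iff_of_pos_right (pow_pos (Set.mem_Ioi.1 h3) 2)).1 h1)

lemma below_not_mem {u : ℝ} (hu : u ∈ Set.Ioo (0 : ℝ) 1) {z : Fin n → ℝ} (hz : E.InW z) {τ : ℝ}
    (h : τ < E.f u z) : ∀ᶠ ε in 𝓝[>] (0 : ℝ), E.curve u z τ ε ∉ H.K := by
  have hneg : E.J u * (E.c u * (τ - E.f u z)) < 0 :=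
    mul_neg_of_pos_of_neg (E.J_pos hu)
      (mul_neg_of_pos_of_neg (E.c_pos ⟨hu.1.le, hu.2.le⟩) (sub_neg.2 h))
  filter_upwards [(E.p_curve_tendsto hu hz τ).eventually (gt_mem_nhds hneg),
    self_mem_nhdsWithin] with ε h1 h3 hK
  have := H.K_nonneg hK
  have h4 : 0 ≤ eval (E.curve u z τ ε) H.p / ε ^ 2 := by positivity
  linarith

lemma InW.lin {a b : Fin n → ℝ} (ha : E.InW a) (hb : E.InW b) (x y : ℝ) :
    E.InW (x • a + y • b) :=
  ⟨by simp [ha.1, hb.1], by simp [ha.2.1, hb.2.1], by simp [ha.2.2, hb.2.2]⟩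

/-- The profile is convex. -/
theorem f_convex {u u' : ℝ} (hu : u ∈ Set.Ioo (0 : ℝ) 1) (hu' : u' ∈ Set.Ioo (0 : ℝ) 1)
    {z z' : Fin n → ℝ} (hz : E.InW z) (hz' : E.InW z') {t : ℝ} (ht : t ∈ Set.Icc (0 : ℝ) 1) :
    E.f ((1 - t) * u + t * u') ((1 - t) • z + t • z') ≤ (1 - t) * E.f u z + t * E.f u' z' := by
  have hm : (1 - t) * u + t * u' ∈ Set.Ioo (0 : ℝ) 1 := by
    have := (convex_Ioo (0 : ℝ) 1) hu hu' (sub_nonneg.2 ht.2) ht.1 (by ring)
    simpa using this
  refine le_of_forall_pos_le_add fun η hη => ?_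
  by_contra hcon
  push Not at hcon
  obtain ⟨ε, ⟨h1, h2⟩, h3⟩ := (((E.above_mem hu hz (τ := E.f u z + η) (by linarith)).and
    (E.above_mem hu' hz' (τ := E.f u' z' + η) (by linarith))).and
    (E.below_not_mem hm (InW.lin E hz hz' _ _)
      (τ := (1 - t) * (E.f u z + η) + t * (E.f u' z' + η)) (by linarith))).exists
  refine h3 ?_
  have := H.convex_K (H.core_subset h1) (H.core_subset h2) (sub_nonneg.2 ht.2) ht.1 (by ring)
  convert this using 1
  simp only [curve, pnt]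
  module

lemma g_hasDerivAt {u : ℝ} (hu : u ∈ Set.Ioo (0 : ℝ) 1) (z k : Fin n → ℝ) :
    HasDerivAt (fun t : ℝ => -(E.num u z k).eval t / (E.den u).eval t) (E.f₁ u z k) 0 := by
  have hc := (E.c_pos ⟨hu.1.le, hu.2.le⟩).ne'
  have hU : u * (1 - u) ≠ 0 := mul_ne_zero hu.1.ne' (by linarith [hu.2])
  have hd : (E.den u).eval 0 ≠ 0 := by rw [E.eval_den, zero_add]; exact mul_ne_zero hc hU
  have := ((E.num u z k).hasDerivAt 0).fun_neg.fun_div ((E.den u).hasDerivAt 0) hd
  refine this.congr_deriv ?_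
  have h1 : u ≠ 0 := hu.1.ne'
  have h2 : 1 - u ≠ 0 := by linarith [hu.2]
  obtain ⟨n0, n1, -⟩ := E.coeff_num u z k
  obtain ⟨d0, d1, -⟩ := E.coeff_den u
  have e1 : ∀ q : ℝ[X], q.derivative.eval 0 = q.coeff 1 := fun q => by
    rw [← Polynomial.coeff_zero_eq_eval_zero, Polynomial.coeff_derivative]; simp
  simp only [e1, ← Polynomial.coeff_zero_eq_eval_zero]
  rw [n0, n1, d0, d1, E.bil_ql hc, E.bil_ql hc, E.bil_ql hc, E.bil_G1 hc, E.eval_cl, f₁]
  field_simp
  ring

lemma g_eq {u t : ℝ} (z k : Fin n → ℝ) (h : t + u ∈ Set.Ioo (0 : ℝ) 1) :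
    -(E.num u z k).eval t / (E.den u).eval t = E.f (t + u) (z + t • k) := by
  have hc := (E.c_pos ⟨h.1.le, h.2.le⟩).ne'
  have hU : (t + u) * (1 - (t + u)) ≠ 0 := mul_ne_zero h.1.ne' (by linarith [h.2])
  rw [E.eval_num, E.eval_den, E.bil_ql hc, f]
  field_simp

lemma den_pos {u t : ℝ} (h : t + u ∈ Set.Ioo (0 : ℝ) 1) : 0 < (E.den u).eval t := by
  rw [E.eval_den]
  exact mul_pos (E.c_pos ⟨h.1.le, h.2.le⟩) (mul_pos h.1 (by linarith [h.2]))

lemma InW.line {z k : Fin n → ℝ} (hz : E.InW z) (hk : E.InW k) (t : ℝ) : E.InW (z + t • k) := by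
  have := InW.lin E hz hk 1 t
  rwa [one_smul] at this

lemma Ioo_mix {u t r : ℝ} (hu : u ∈ Set.Ioo (0 : ℝ) 1) (h : t + u ∈ Set.Ioo (0 : ℝ) 1)
    (hr : r ∈ Set.Icc (0 : ℝ) 1) : r * t + u ∈ Set.Ioo (0 : ℝ) 1 := by
  have := (convex_Ioo (0 : ℝ) 1) hu h (sub_nonneg.2 hr.2) hr.1 (by ring)
  simp only [smul_eq_mul] at this
  rwa [show (1 - r) * u + r * (t + u) = r * t + u by ring] at this

lemma f_chord {u t r : ℝ} (hu : u ∈ Set.Ioo (0 : ℝ) 1) {z k : Fin n → ℝ} (hz : E.InW z)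
    (hk : E.InW k) (h : t + u ∈ Set.Ioo (0 : ℝ) 1) (hr : r ∈ Set.Icc (0 : ℝ) 1) :
    E.f (r * t + u) (z + (r * t) • k) ≤ (1 - r) * E.f u z + r * E.f (t + u) (z + t • k) := by
  have := E.f_convex hu h hz (InW.line E hz hk t) hr
  rwa [show (1 - r) * u + r * (t + u) = r * t + u by ring,
    show (1 - r) • z + r • (z + t • k) = z + (r * t) • k by module] at this

/-- The profile lies above its tangent. -/
lemma f_tangent {u t : ℝ} (hu : u ∈ Set.Ioo (0 : ℝ) 1) {z k : Fin n → ℝ} (hz : E.InW z)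
    (hk : E.InW k) (h : t + u ∈ Set.Ioo (0 : ℝ) 1) :
    E.f u z + E.f₁ u z k * t ≤ E.f (t + u) (z + t • k) := by
  have hd : HasDerivAt (fun r : ℝ => -(E.num u z k).eval (r * t) / (E.den u).eval (r * t))
      (E.f₁ u z k * t) 0 := by
    have h1 : HasDerivAt (fun r : ℝ => r * t) t 0 := by simpa using (hasDerivAt_id (0 : ℝ)).mul_const t
    have h2 : HasDerivAt (fun t : ℝ => -(E.num u z k).eval t / (E.den u).eval t) (E.f₁ u z k)
        ((fun r : ℝ => r * t) 0) := by simpa using E.g_hasDerivAt hu z k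
    exact h2.comp (0 : ℝ) h1
  suffices E.f₁ u z k * t ≤ E.f (t + u) (z + t • k) - E.f u z by linarith
  refine le_of_tendsto hd.tendsto_slope_zero_right ?_
  filter_upwards [Ioo_mem_nhdsGT (zero_lt_one' ℝ)] with r hr
  rw [zero_add, E.g_eq z k (Ioo_mix hu h ⟨hr.1.le, hr.2.le⟩), zero_mul,
    E.g_eq z k (by rwa [zero_add]), zero_add, zero_smul, add_zero, smul_eq_mul,
    inv_mul_le_iff₀ hr.1]
  have := E.f_chord hu hz hk h ⟨hr.1.le, hr.2.le⟩
  linarith

lemma Φ_nonpos {u t : ℝ} (hu : u ∈ Set.Ioo (0 : ℝ) 1) {z k : Fin n → ℝ} (hz : E.InW z)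
    (hk : E.InW k) (h : t + u ∈ Set.Ioo (0 : ℝ) 1) : (E.Φ u z k).eval t ≤ 0 := by
  rw [E.eval_Φ z k h]
  exact mul_nonpos_of_nonneg_of_nonpos (E.den_pos h).le
    (by linarith [E.f_tangent hu hz hk h])

/-- A second contact makes the profile affine. -/
lemma Φ_eq_zero {u t : ℝ} (hu : u ∈ Set.Ioo (0 : ℝ) 1) {z k : Fin n → ℝ} (hz : E.InW z)
    (hk : E.InW k) (h : t + u ∈ Set.Ioo (0 : ℝ) 1) (ht : t ≠ 0)
    (h0 : (E.Φ u z k).eval t = 0) : E.Φ u z k = 0 := by
  rw [E.eval_Φ z k h, mul_eq_zero] at h0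
  have he := h0.resolve_left (E.den_pos h).ne'
  have hinf : ((fun r : ℝ => r * t) '' Set.Ioo 0 1).Infinite :=
    (Set.Ioo_infinite (zero_lt_one' ℝ)).image fun a _ b _ hab => mul_right_cancel₀ ht hab
  refine Polynomial.eq_zero_of_infinite_isRoot _ (hinf.mono ?_)
  rintro _ ⟨r, hr, rfl⟩
  have hm := Ioo_mix hu h ⟨hr.1.le, hr.2.le⟩
  rw [Set.mem_ofPred_eq, Polynomial.IsRoot.def, E.eval_Φ z k hm]
  refine mul_eq_zero_of_right _ ?_
  have h1 := E.f_chord hu hz hk h ⟨hr.1.le, hr.2.le⟩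
  have h2 := E.f_tangent hu hz hk hm
  have h3 : r * E.f (t + u) (z + t • k) = r * (E.f u z + E.f₁ u z k * t) := by
    congr 1; linarith
  linarith

lemma tangent_cone_neg {s : Fin n → ℝ} (h : H.SingB s) (hO : H.Ordinary) {θ w : Fin n → ℝ}
    (hθ : h.T.Smooth θ) (hτθ : H.τ θ = 0) (hθ0 : θ ≠ 0) (hτw : H.τ w = 0)
    (hd : der h.T.p θ w = 0) (hw : ∀ c : ℝ, w ≠ c • θ) : cf h.T.p 2 θ w < 0 := by
  refine lt_of_le_of_ne (hθ.cf_two_nonpos hd) fun h2 => ?_
  have hl := hθ.line_eq_zero hd h2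
  have hpos := h.ℓ_pos hO hθ.1 hτθ hθ0
  set L := h.T.τ θ with hL
  have hθ' : L⁻¹ • θ ∈ h.link :=
    ⟨h.T.smul_mem hθ.1 (inv_pos.2 hpos), by simp [hτθ], by simp [← hL, inv_mul_cancel₀ hpos.ne']⟩
  set v := w - (h.T.τ w / L) • θ with hv
  have hzero : line h.T.p (L⁻¹ • θ) v = 0 := by
    have hev : ∀ᶠ t in 𝓝 (0 : ℝ), L⁻¹ - t * (h.T.τ w / L) ≠ 0 :=
      (by fun_prop : Continuous fun t : ℝ => L⁻¹ - t * (h.T.τ w / L)).continuousAt.eventually_ne
        (by simpa using hpos.ne')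
    refine Polynomial.eq_zero_of_infinite_isRoot _ ((infinite_of_mem_nhds 0 hev).mono fun t ht => ?_)
    have ht' : L⁻¹ - t * (h.T.τ w / L) ≠ 0 := ht
    rw [Set.mem_ofPred_eq, Polynomial.IsRoot.def, eval_line,
      show L⁻¹ • θ + t • v = (L⁻¹ - t * (h.T.τ w / L)) •
        (θ + (t / (L⁻¹ - t * (h.T.τ w / L))) • w) by
          rw [hv, smul_add (L⁻¹ - t * (h.T.τ w / L)), smul_smul, mul_div_cancel₀ _ ht']; module,
      h.T.smul_eval, h.T.line_zero_eval hl, mul_zero]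
  refine hw _ (sub_eq_zero.1 (h.no_line hO hθ' (by simp [hτw, hτθ]) ?_ hzero))
  rw [map_sub, map_smul, ← hL, smul_eq_mul, div_mul_cancel₀ _ hpos.ne', sub_self]

lemma not_along {w : Fin n → ℝ} (hw : E.InW w) (hw0 : w ≠ 0) (c : ℝ) :
    w ≠ c • (E.b - E.s) := fun h => hw0 (by
  have := hw.2.1
  rw [h, map_smul, map_sub, E.μb, E.μs, sub_zero, smul_eq_mul, mul_one] at this
  rw [h, this, zero_smul])

lemma ql_end {u : ℝ} (w : Fin n → ℝ) :
    bil (fun k l => (E.ql k l).eval u) w w = cf E.P 2 (pt u 0) (pt 0 w) := by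
  rw [cf_two E.P (fun x a => E.M_spec x a)]
  simp [Fintype.sum_option, bil, E.eval_ql, E.eval_Q]

lemma ql_zero_neg {w : Fin n → ℝ} (hw : E.InW w) (hw0 : w ≠ 0) :
    bil (fun k l => (E.ql k l).eval 0) w w < 0 := by
  have key : line E.P (pt 0 0) (pt 0 w) = line E.hs.T.p (E.b - E.s) w := by
    refine Polynomial.funext fun t => ?_
    rw [eval_line, pt_smul, pt_add, mul_zero, add_zero, zero_add, E.P_at_zero, eval_line]
  rw [E.ql_end, cf, key, ← cf]
  refine tangent_cone_neg E.hs E.hO E.dir_smooth (by simp [E.hs.τ_eq, E.hb.τ_eq]) E.dir_ne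
    hw.1 ?_ (E.not_along hw hw0)
  have := E.P_der_axis' 0 w
  rwa [hw.2.2, mul_zero, ← cf_one, cf, key, ← cf, cf_one] at this

lemma ql_one_neg {w : Fin n → ℝ} (hw : E.InW w) (hw0 : w ≠ 0) :
    bil (fun k l => (E.ql k l).eval 1) w w < 0 := by
  have key : line E.P (pt 1 0) (pt 0 w) = line E.hb.T.p (E.s - E.b) w := by
    refine Polynomial.funext fun t => ?_
    rw [eval_line, pt_smul, pt_add, mul_zero, add_zero, zero_add, E.eval_P, eval_line]
    have hA : E.cA.eval 1 = 1 := by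
      have := E.bezout 1
      rwa [sub_self, zero_pow (by have := E.two_le_m₁; omega), mul_zero, add_zero, one_pow,
        mul_one] at this
    have h2 : eval (pt 1 ((E.b - E.s) + (1 - (1 : ℝ)) • (t • w))) E.hs.P = 0 := by
      have := E.hs.P_mul 1 (E.b - E.s)
      rw [one_pow, one_mul, one_smul, add_sub_cancel, E.hb.1.2.2] at this
      simpa using this
    rw [hA, h2, sub_self, E.hb.eval_P_zero, mul_zero, zero_add, one_mul, one_smul]
  rw [E.ql_end, cf, key, ← cf]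
  refine tangent_cone_neg E.hb E.hO E.symm.dir_smooth (by simp [E.hs.τ_eq, E.hb.τ_eq])
    E.symm.dir_ne hw.1 ?_ fun c hc => E.not_along hw hw0 (-c) (by rw [hc]; module)
  have := E.P_der_axis' 1 w
  rwa [hw.2.2, mul_zero, ← cf_one, cf, key, ← cf, cf_one] at this

/-- Rigidity: the profile is nowhere affine. -/
lemma rigid {u : ℝ} {z k : Fin n → ℝ} (hz : E.InW z) (hk : E.InW k)
    (h : E.Φ u z k = 0) : z = 0 ∧ k = 0 := by
  have key : ∀ t, (E.den u).eval t = 0 →
      bil (fun a b => (E.ql a b).eval (t + u)) (z + t • k) (z + t • k) = 0 := by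
    intro t ht
    have := congrArg (Polynomial.eval t) h
    rw [Φ, Polynomial.eval_add, Polynomial.eval_mul, ht, mul_zero, zero_add, E.eval_num,
      Polynomial.eval_zero] at this
    exact this
  have h0 : z + (-u) • k = 0 := by
    by_contra hne
    have := key (-u) (by rw [E.eval_den, neg_add_cancel]; simp)
    rw [neg_add_cancel] at this
    exact (E.ql_zero_neg (InW.line E hz hk _) hne).ne this
  have h1 : z + (1 - u) • k = 0 := by
    by_contra hne
    have := key (1 - u) (by rw [E.eval_den, sub_add_cancel]; simp)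
    rw [sub_add_cancel] at this
    exact (E.ql_one_neg (InW.line E hz hk _) hne).ne this
  have hk0 : k = 0 := by
    have : (z + (1 - u) • k) - (z + (-u) • k) = k := by module
    rw [h0, h1, sub_zero] at this
    exact this.symm
  exact ⟨by simpa [hk0] using h0, hk0⟩

/-- The weight. -/
noncomputable def Wt : ℝ[X] := Polynomial.X ^ (E.m₀ - 2) * (1 - Polynomial.X) ^ (E.m₁ - 2)

/-- Splitting of the perturbed tangency defect. -/
theorem splits_defect {u : ℝ} (hu : u ∈ Set.Ioo (0 : ℝ) 1) {z k : Fin n → ℝ} (hz : E.InW z)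
    (hk : E.InW k) {δ : ℝ} (hδ : 0 < δ) :
    Polynomial.Splits (Polynomial.taylor u E.Wt * (Polynomial.C δ * E.den u + E.Φ u z k)) := by
  set L := Polynomial.taylor u E.Wt * (Polynomial.C δ * E.den u + E.Φ u z k)
  obtain ⟨ε₀, hε₀, hcore⟩ := mem_nhdsGT_iff_exists_Ioo_subset.1
    (E.above_mem hu hz (τ := E.f u z + δ) (by linarith))
  set seq : ℕ → ℝ := fun i => ε₀ / ((i : ℝ) + 2)
  have hs : ∀ i : ℕ, seq i ∈ Set.Ioo 0 ε₀ := fun i => by
    have hi : (0 : ℝ) ≤ (i : ℝ) := Nat.cast_nonneg i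
    have h0 : (0 : ℝ) < ε₀ := Set.mem_Ioi.1 hε₀
    refine ⟨by simp only [seq]; positivity, ?_⟩
    simp only [seq]
    rw [div_lt_iff₀ (by positivity)]
    nlinarith
  have hs0 : Tendsto seq atTop (𝓝[>] 0) := by
    refine tendsto_nhdsWithin_iff.2 ⟨?_, Eventually.of_forall fun i => (hs i).1⟩
    exact tendsto_const_nhds.div_atTop (tendsto_atTop_add_const_right _ 2 tendsto_natCast_atTop_atTop)
  let F : ℕ → ℝ[X] := fun i => Polynomial.C ((seq i ^ 2)⁻¹) * line H.p
    (E.curve u z (E.f u z + δ) (seq i))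
    ((E.b - E.s) + seq i • k + (seq i ^ 2 * E.f₁ u z k) • E.ê)
  have hF : ∀ i, Polynomial.Splits (F i) := fun i =>
    (H.splits_core (hcore (hs i)) _).C_mul _
  have hd : ∀ i, (F i).natDegree ≤ max H.d L.natDegree := fun i =>
    ((Polynomial.natDegree_C_mul_le _ _).trans (H.natDegree_line _ _)).trans (le_max_left _ _)
  refine splits_limit hF hd (le_max_right _ _) (tendsto_coeff hd (le_max_right _ _)
    (Set.Ioo_infinite (show -u < 1 - u by linarith)) fun t ht => ?_)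
  have hm : t + u ∈ Set.Ioo (0 : ℝ) 1 := ⟨by linarith [ht.1], by linarith [ht.2]⟩
  have hlim := (E.p_curve_tendsto hm (InW.line E hz hk t)
    (E.f u z + δ + t * E.f₁ u z k)).comp hs0
  have hL : L.eval t = E.J (t + u) * (E.c (t + u) *
      (E.f u z + δ + t * E.f₁ u z k - E.f (t + u) (z + t • k))) := by
    simp only [L, Polynomial.eval_mul, Polynomial.eval_add, Polynomial.eval_C,
      Polynomial.taylor_eval, E.eval_Φ z k hm, E.eval_den, Wt, Polynomial.eval_pow,
      Polynomial.eval_X, Polynomial.eval_sub, Polynomial.eval_one, J]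
    have h0 := E.two_le_m₀
    have h1 := E.two_le_m₁
    rw [show E.m₀ - 1 = E.m₀ - 2 + 1 by omega, show E.m₁ - 1 = E.m₁ - 2 + 1 by omega, pow_succ,
      pow_succ]
    ring
  rw [hL]
  refine hlim.congr fun i => ?_
  simp only [F, Function.comp_apply, Polynomial.eval_mul, Polynomial.eval_C, eval_line,
    div_eq_inv_mul]
  rw [show E.curve (t + u) (z + t • k) (E.f u z + δ + t * E.f₁ u z k) (seq i) =
      E.curve u z (E.f u z + δ) (seq i) +
        t • ((E.b - E.s) + seq i • k + (seq i ^ 2 * E.f₁ u z k) • E.ê) by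
    simp only [curve, pnt]; module]

lemma Wt_ne {u : ℝ} (hu : u ∈ Set.Ioo (0 : ℝ) 1) : E.Wt.eval u ≠ 0 := by
  simp only [Wt, Polynomial.eval_mul, Polynomial.eval_pow, Polynomial.eval_X, Polynomial.eval_sub,
    Polynomial.eval_one]
  exact mul_ne_zero (pow_ne_zero _ hu.1.ne') (pow_ne_zero _ (by linarith [hu.2]))

/-- Second order rigidity. -/
theorem Φ_two_neg {u : ℝ} (hu : u ∈ Set.Ioo (0 : ℝ) 1) {z k : Fin n → ℝ} (hz : E.InW z)
    (hk : E.InW k) (hne : z ≠ 0 ∨ k ≠ 0) : (E.Φ u z k).coeff 2 < 0 := by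
  obtain ⟨c0, c1⟩ := E.Φ_coeff hu z k
  have hle : 0 ≤ (-E.Φ u z k).coeff 2 := by
    refine low_nonneg (fun j hj => by interval_cases j <;> simp [c0, c1]) ?_
    have hev : ∀ᶠ t in 𝓝 (0 : ℝ), t + u ∈ Set.Ioo (0 : ℝ) 1 :=
      (by fun_prop : Continuous fun t : ℝ => t + u).continuousAt.eventually
        (isOpen_Ioo.mem_nhds (by simpa using hu))
    filter_upwards [hev.filter_mono nhdsWithin_le_nhds] with t ht
    simp only [Polynomial.eval_neg]
    linarith [E.Φ_nonpos hu hz hk ht]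
  simp only [Polynomial.coeff_neg, neg_nonneg] at hle
  refine lt_of_le_of_ne hle fun h2 => ?_
  obtain ⟨-, -, -⟩ := E.coeff_den u
  set W := Polynomial.taylor u E.Wt
  have cm : ∀ j, j ≤ 2 → (W * E.Φ u z k).coeff j = 0 := by
    intro j hj
    interval_cases j <;>
      simp [Polynomial.coeff_mul, Finset.Nat.antidiagonal_succ, c0, c1, h2]
  have hB := affine_limit (A := W * E.den u) (B := W * E.Φ u z k)
    (fun δ hδ => by
      have := E.splits_defect hu hz hk hδ
      rwa [mul_add, mul_left_comm] at this)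
    (by
      rw [Polynomial.mul_coeff_zero, Polynomial.taylor_coeff_zero, (E.coeff_den u).1, E.eval_cl]
      exact mul_ne_zero (E.Wt_ne hu)
        (mul_ne_zero (E.c_pos ⟨hu.1.le, hu.2.le⟩).ne' (mul_ne_zero hu.1.ne' (by linarith [hu.2]))))
    (cm 0 (by norm_num)) (cm 1 (by norm_num)) (cm 2 le_rfl)
  have hW : W ≠ 0 := fun h => E.Wt_ne hu (by
    have := congrArg (Polynomial.eval 0) h
    simpa [W, Polynomial.taylor_eval] using this)
  obtain ⟨rz, rk⟩ := E.rigid hz hk ((mul_eq_zero.1 hB).resolve_left hW)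
  exact hne.elim (fun h => h rz) (fun h => h rk)

end Edge

end Vale.Agent.P256.Gen
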