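import Vale.Agent.P256.Gen.EdgeForm

/-!
Positivity of the limiting form on a flat segment.
-/

namespace Vale.Agent.P256.Gen

open MvPolynomial Filter Topology
open scoped BigOperators Polynomial

set_option linter.unusedSectionVars false

variable {n : ℕ}

namespace Edge

lemma bil_add_left (M : Fin n → Fin n → ℝ) (a a' b : Fin n → ℝ) :
    bil M (a + a') b = bil M a b + bil M a' b := by
  simp only [bil, Pi.add_apply, mul_add, add_mul, Finset.sum_add_distrib]

lemma bil_add_right (M : Fin n → Fin n → ℝ) (a b b' : Fin n → ℝ) :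
    bil M a (b + b') = bil M a b + bil M a b' := by
  simp only [bil, Pi.add_apply, mul_add, Finset.sum_add_distrib]

lemma bil_sub_left (M : Fin n → Fin n → ℝ) (a a' b : Fin n → ℝ) :
    bil M (a - a') b = bil M a b - bil M a' b := by
  simp only [bil, Pi.sub_apply, mul_sub, sub_mul, Finset.sum_sub_distrib]

lemma bil_sub_right (M : Fin n → Fin n → ℝ) (a b b' : Fin n → ℝ) :
    bil M a (b - b') = bil M a b - bil M a b' := by
  simp only [bil, Pi.sub_apply, mul_sub, Finset.sum_sub_distrib]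

lemma bil_smul_left (M : Fin n → Fin n → ℝ) (a b : Fin n → ℝ) (s : ℝ) :
    bil M (s • a) b = s * bil M a b := by
  have := bil_smul M a b s 1
  rwa [one_smul, mul_one] at this

lemma bil_smul_right (M : Fin n → Fin n → ℝ) (a b : Fin n → ℝ) (s : ℝ) :
    bil M a (s • b) = s * bil M a b := by
  have := bil_smul M a b 1 s
  rwa [one_smul, one_mul] at this

lemma bil_zero (M : Fin n → Fin n → ℝ) : bil M 0 0 = 0 := by simp [bil]

lemma bil_zero_left (M : Fin n → Fin n → ℝ) (b : Fin n → ℝ) : bil M 0 b = 0 := by simp [bil]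

lemma bil_zero_right (M : Fin n → Fin n → ℝ) (a : Fin n → ℝ) : bil M a 0 = 0 := by simp [bil]

variable {H : Hyp n} (E : Edge H)

lemma InW_zero : E.InW 0 := ⟨map_zero _, map_zero _, map_zero _⟩

lemma InW.smul {a : Fin n → ℝ} (ha : E.InW a) (x : ℝ) : E.InW (x • a) := by
  simpa using InW.lin E ha (InW_zero E) x 0

lemma Nb_eq (u v : ℝ) (α β : Fin n → ℝ) : E.Nb u v α β =
    bil (fun k l => E.As k l u v) α α + bil (fun k l => E.Gs k l v) β β +
      Real.sqrt (v * (1 - v)) * (bil (fun k l => E.Rs k l u v) α β +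
        bil (fun k l => E.Rs k l u v) β α) := by
  simp only [Nb, bil, Finset.mul_sum, ← Finset.sum_add_distrib]

lemma As_ne {u v : ℝ} (h : u ≠ v) (a b : Fin n → ℝ) :
    bil (fun k l => E.As k l u v) a b = bil (fun k l => E.Gs k l u) a b +
      (1 - 2 * u - (v - u)) * bil (fun k l => E.G1 k l u) a b -
        v * (1 - v) / (v - u) * (bil (fun k l => E.G1 k l u) a b -
          bil (fun k l => E.Rs k l u v) a b) := by
  simp only [bil, Finset.mul_sum, ← Finset.sum_add_distrib, ← Finset.sum_sub_distrib, As, if_neg h]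
  exact Finset.sum_congr rfl fun k _ => Finset.sum_congr rfl fun l _ => by ring

lemma Rs_ne {u v : ℝ} (h : u ≠ v) (a b : Fin n → ℝ) :
    bil (fun k l => E.Rs k l u v) a b =
      (bil (fun k l => E.Gs k l v) a b - bil (fun k l => E.Gs k l u) a b) / (v - u) := by
  simp only [bil, Finset.sum_div, ← Finset.sum_sub_distrib, Rs, if_neg h]
  exact Finset.sum_congr rfl fun k _ => Finset.sum_congr rfl fun l _ => by ring

lemma As_eq (u : ℝ) (a b : Fin n → ℝ) :
    bil (fun k l => E.As k l u u) a b = bil (fun k l => E.Gs k l u) a b +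
      (1 - 2 * u) * bil (fun k l => E.G1 k l u) a b +
        u * (1 - u) * bil (fun k l => E.G2 k l u) a b := by
  simp only [bil, Finset.mul_sum, ← Finset.sum_add_distrib, As, if_true]
  exact Finset.sum_congr rfl fun k _ => Finset.sum_congr rfl fun l _ => by ring

lemma Rs_eq (u : ℝ) (a b : Fin n → ℝ) :
    bil (fun k l => E.Rs k l u u) a b = bil (fun k l => E.G1 k l u) a b := by
  simp only [bil, Rs, if_true]

lemma cl_ne {u : ℝ} (hu : u ∈ Set.Icc (0 : ℝ) 1) : E.cl.eval u ≠ 0 := by
  rw [E.eval_cl]; exact (E.c_pos hu).ne'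

/-- Positive curvature inside the segment. -/
lemma Gs_pos {u : ℝ} (hu : u ∈ Set.Icc (0 : ℝ) 1) {z : Fin n → ℝ} (hz : E.InW z) (hz0 : z ≠ 0) :
    0 < bil (fun k l => E.Gs k l u) z z := by
  have hc := E.c_pos hu
  rw [E.bil_Gs]
  refine div_pos (neg_pos.2 ?_) hc
  rcases hu.1.eq_or_lt with h0 | h0
  · rw [← h0]; exact E.ql_zero_neg hz hz0
  rcases hu.2.eq_or_lt with h1 | h1
  · rw [h1]; exact E.ql_one_neg hz hz0
  have hu1 : u / 2 ∈ Set.Ioo (0 : ℝ) 1 := ⟨by linarith, by linarith⟩
  have ht : u / 2 + u / 2 ∈ Set.Ioo (0 : ℝ) 1 := ⟨by linarith, by linarith⟩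
  have hk : E.InW ((u / 2)⁻¹ • z) := InW.smul E hz _
  have hf : E.Φ (u / 2) 0 ((u / 2)⁻¹ • z) = E.num (u / 2) 0 ((u / 2)⁻¹ • z) := by
    simp [Φ, f, f₁, bil_zero_left, bil_zero_right]
  have hle := E.Φ_nonpos hu1 E.InW_zero hk ht
  have he : (E.Φ (u / 2) 0 ((u / 2)⁻¹ • z)).eval (u / 2) =
      bil (fun k l => (E.ql k l).eval u) z z := by
    rw [hf, E.eval_num, zero_add, smul_smul, mul_inv_cancel₀ (by linarith : u / 2 ≠ 0), one_smul,
      add_halves]
  refine lt_of_le_of_ne (he ▸ hle) fun hz' => ?_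
  have := E.Φ_eq_zero hu1 E.InW_zero hk ht (by linarith) (he.trans hz')
  obtain ⟨-, h2⟩ := E.rigid E.InW_zero hk this
  exact hz0 ((smul_eq_zero.1 h2).resolve_left (inv_ne_zero (by linarith)))

lemma Nb_interior_ne {u v : ℝ} (hu : u ∈ Set.Ioo (0 : ℝ) 1) (hv : v ∈ Set.Ioo (0 : ℝ) 1)
    (huv : u ≠ v) {α β : Fin n → ℝ} (hα : E.InW α) (hβ : E.InW β) :
    0 ≤ E.Nb u v α β ∧ (E.Nb u v α β = 0 → α = 0 ∧ β = 0) := by
  have hd : v - u ≠ 0 := sub_ne_zero.2 (Ne.symm huv)
  have h1 : u ≠ 0 := hu.1.ne'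
  have h2 : 1 - u ≠ 0 := by linarith [hu.2]
  have h3 : v ≠ 0 := hv.1.ne'
  have h4 : 1 - v ≠ 0 := by linarith [hv.2]
  set r := Real.sqrt (v * (1 - v)) with hr
  have hr2 : r * r = v * (1 - v) := Real.mul_self_sqrt (mul_nonneg hv.1.le (by linarith [hv.2]))
  set z : Fin n → ℝ := (u * (1 - u) / (v - u)) • α
  set k : Fin n → ℝ := (v - u)⁻¹ • ((v * (1 - v) / (v - u)) • α + r • β - z)
  have hz : E.InW z := InW.smul E hα _
  have hk : E.InW k := by
    refine InW.smul E ?_ _
    have h := InW.lin E (InW.lin E hα hβ (v * (1 - v) / (v - u)) r) hz 1 (-1)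
    rwa [one_smul, neg_one_smul, ← sub_eq_add_neg] at h
  have hm : v - u + u ∈ Set.Ioo (0 : ℝ) 1 := by rwa [sub_add_cancel]
  have hzk : z + (v - u) • k = (v * (1 - v) / (v - u)) • α + r • β := by
    simp only [k, smul_smul, mul_inv_cancel₀ hd, one_smul, add_sub_cancel]
  have key : E.Nb u v α β = E.f (v - u + u) (z + (v - u) • k) - E.f u z - E.f₁ u z k * (v - u) := by
    rw [E.Nb_eq, E.As_ne huv, E.Rs_ne huv, E.Rs_ne huv, E.Rs_ne huv, hzk, sub_add_cancel, ← hr,
      f, f, f₁]
    simp only [z, k, bil_add_left, bil_add_right, bil_sub_left, bil_sub_right, bil_smul_left,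
      bil_smul_right]
    field_simp
    linear_combination (-(bil (fun k l => E.Gs k l v) β β * (v - u) ^ 2)) * hr2
  refine ⟨by rw [key]; linarith [E.f_tangent hu hz hk hm], fun h0 => ?_⟩
  have hΦ := E.Φ_eq_zero hu hz hk hm hd (by
    rw [E.eval_Φ z k hm]; refine mul_eq_zero_of_right _ ?_; linarith [key.symm.trans h0])
  obtain ⟨rz, rk⟩ := E.rigid hz hk hΦ
  have hα0 : α = 0 := (smul_eq_zero.1 rz).resolve_left (div_ne_zero (mul_ne_zero h1 h2) hd)
  refine ⟨hα0, ?_⟩
  have := hzk
  rw [rz, rk, smul_zero, add_zero, hα0, smul_zero, zero_add] at this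
  refine (smul_eq_zero.1 this.symm).resolve_left fun h => ?_
  rw [h, mul_zero] at hr2
  exact mul_ne_zero h3 h4 hr2.symm

lemma Nb_diag {u : ℝ} (hu : u ∈ Set.Ioo (0 : ℝ) 1) {α β : Fin n → ℝ} (hα : E.InW α)
    (hβ : E.InW β) : 0 ≤ E.Nb u u α β ∧ (E.Nb u u α β = 0 → α = 0 ∧ β = 0) := by
  have h1 : u ≠ 0 := hu.1.ne'
  have h2 : 1 - u ≠ 0 := by linarith [hu.2]
  set r := Real.sqrt (u * (1 - u)) with hr
  have hr2 : r * r = u * (1 - u) := Real.mul_self_sqrt (mul_nonneg hu.1.le (by linarith [hu.2]))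
  have hr0 : r ≠ 0 := fun h => mul_ne_zero h1 h2 (by rw [← hr2, h, mul_zero])
  have hc := (E.c_pos ⟨hu.1.le, hu.2.le⟩).ne'
  set z : Fin n → ℝ := (u * (1 - u)) • α
  set k : Fin n → ℝ := (1 - 2 * u) • α + r • β
  have hz : E.InW z := InW.smul E hα _
  have hk : E.InW k := InW.lin E hα hβ _ _
  obtain ⟨-, -, n2⟩ := E.coeff_num u z k
  obtain ⟨-, d1, d2⟩ := E.coeff_den u
  have key : E.Nb u u α β * (E.c u * (u * (1 - u))) = -(E.Φ u z k).coeff 2 := by
    rw [E.Nb_eq, E.As_eq, E.Rs_eq, E.Rs_eq, E.Φ_coeff_two hu, n2, d1, d2, E.bil_G2 hc,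
      E.bil_G1 hc, E.bil_G1 hc, E.bil_ql hc, E.eval_cl, f, f₁, ← hr]
    simp only [z, k, bil_add_left, bil_add_right, bil_smul_left, bil_smul_right]
    field_simp
    linear_combination (-(bil (fun k l => E.Gs k l u) β β * E.c u)) * hr2
  have hpos : 0 < E.c u * (u * (1 - u)) :=
    mul_pos (E.c_pos ⟨hu.1.le, hu.2.le⟩) (mul_pos hu.1 (by linarith [hu.2]))
  have hstrict : z ≠ 0 ∨ k ≠ 0 → 0 < E.Nb u u α β := fun h => by
    refine pos_of_mul_pos_left ?_ hpos.le
    rw [key]; linarith [E.Φ_two_neg hu hz hk h]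
  by_cases h : z = 0 ∧ k = 0
  · have hα0 : α = 0 := (smul_eq_zero.1 h.1).resolve_left (mul_ne_zero h1 h2)
    have hβ0 : β = 0 := by
      have := h.2
      simp only [k, hα0, smul_zero, zero_add] at this
      exact (smul_eq_zero.1 this).resolve_left hr0
    refine ⟨?_, fun _ => ⟨hα0, hβ0⟩⟩
    simp [E.Nb_eq, hα0, hβ0, bil_zero]
  · rw [not_and_or] at h
    exact ⟨(hstrict h).le, fun h0 => absurd h0 (hstrict h).ne'⟩

lemma continuousAt_Gs {u : ℝ} (hu : E.cl.eval u ≠ 0) (k l : Fin n) :
    ContinuousAt (E.Gs k l) u :=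
  (E.ql k l).continuous.continuousAt.neg.div E.cl.continuous.continuousAt hu

lemma continuousAt_G1 {u : ℝ} (hu : E.cl.eval u ≠ 0) (k l : Fin n) :
    ContinuousAt (E.G1 k l) u :=
  ((E.cl.derivative.continuous.continuousAt.mul (E.continuousAt_Gs hu k l)).add
    (E.ql k l).derivative.continuous.continuousAt).neg.div E.cl.continuous.continuousAt hu

lemma continuousAt_G2 {u : ℝ} (hu : E.cl.eval u ≠ 0) (k l : Fin n) :
    ContinuousAt (E.G2 k l) u := by
  have hT : ∀ q : ℝ[X], Continuous fun u : ℝ => (Polynomial.taylor u q).coeff 2 := fun q => by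
    simp only [Polynomial.taylor_coeff]
    exact (Polynomial.hasseDeriv 2 q).continuous
  exact (((((hT E.cl).continuousAt.mul (E.continuousAt_Gs hu k l)).add (hT _).continuousAt).add
    (E.cl.derivative.continuous.continuousAt.mul (E.continuousAt_G1 hu k l))).neg).div
    E.cl.continuous.continuousAt hu

lemma tendsto_bil {X : Type*} {F : Filter X} {M : X → Fin n → Fin n → ℝ}
    {L : Fin n → Fin n → ℝ} {a b : Fin n → ℝ}
    (h : ∀ k l, Tendsto (fun x => M x k l) F (𝓝 (L k l))) :
    Tendsto (fun x => bil (M x) a b) F (𝓝 (bil L a b)) :=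
  tendsto_finsetSum _ fun k _ => tendsto_finsetSum _ fun l _ =>
    ((h k l).mul_const _).mul_const _

lemma zero_mem_Icc : (0 : ℝ) ∈ Set.Icc (0 : ℝ) 1 := ⟨le_rfl, zero_le_one⟩

lemma Nb_left_nonneg {v : ℝ} (hv : v ∈ Set.Ioo (0 : ℝ) 1) {α β : Fin n → ℝ} (hα : E.InW α)
    (hβ : E.InW β) : 0 ≤ E.Nb 0 v α β := by
  have h0 := E.cl_ne zero_mem_Icc
  have hv0 : (0 : ℝ) ≠ v := hv.1.ne
  have hd : ∀ᶠ u in 𝓝[>] (0 : ℝ), u ∈ Set.Ioo 0 v := Ioo_mem_nhdsGT hv.1
  have hlim : Tendsto (fun u => E.Nb u v α β) (𝓝[>] 0) (𝓝 (E.Nb 0 v α β)) := by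
    have hc : ContinuousAt (fun u : ℝ => ∑ k, ∑ l,
        ((E.Gs k l u + (1 - 2 * u - (v - u)) * E.G1 k l u -
          v * (1 - v) * (E.G1 k l u - (E.Gs k l v - E.Gs k l u) / (v - u)) / (v - u)) * α k * α l +
          E.Gs k l v * β k * β l + Real.sqrt (v * (1 - v)) *
            ((E.Gs k l v - E.Gs k l u) / (v - u) * α k * β l +
              (E.Gs k l v - E.Gs k l u) / (v - u) * β k * α l))) 0 := by
      have hsub : ContinuousAt (fun u : ℝ => v - u) 0 := continuousAt_const.sub continuousAt_id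
      have hne : v - 0 ≠ 0 := by simpa using hv.1.ne'
      refine tendsto_finsetSum _ fun k _ => tendsto_finsetSum _ fun l _ => ?_
      have hG := E.continuousAt_Gs h0 k l
      have hG1 := E.continuousAt_G1 h0 k l
      have hR : ContinuousAt (fun u => (E.Gs k l v - E.Gs k l u) / (v - u)) 0 :=
        (continuousAt_const.sub hG).div hsub hne
      exact ((((hG.add (((continuousAt_const.sub (continuousAt_id.const_mul 2)).sub hsub).mul hG1)).sub
        (((continuousAt_const.mul (hG1.sub hR)).div hsub hne))).mul continuousAt_const).mul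
          continuousAt_const).add continuousAt_const |>.add
          (continuousAt_const.mul (((hR.mul continuousAt_const).mul continuousAt_const).add
            ((hR.mul continuousAt_const).mul continuousAt_const)))
    have e0 : E.Nb 0 v α β = ∑ k, ∑ l,
        ((E.Gs k l 0 + (1 - 2 * 0 - (v - 0)) * E.G1 k l 0 -
          v * (1 - v) * (E.G1 k l 0 - (E.Gs k l v - E.Gs k l 0) / (v - 0)) / (v - 0)) * α k * α l +
          E.Gs k l v * β k * β l + Real.sqrt (v * (1 - v)) *
            ((E.Gs k l v - E.Gs k l 0) / (v - 0) * α k * β l +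
              (E.Gs k l v - E.Gs k l 0) / (v - 0) * β k * α l)) := by
      simp only [Nb, As, Rs, if_neg hv0]
    rw [e0]
    refine (hc.tendsto.mono_left nhdsWithin_le_nhds).congr' ?_
    filter_upwards [hd] with u hu
    simp only [Nb, As, Rs, if_neg hu.2.ne]
  refine ge_of_tendsto hlim ?_
  filter_upwards [hd] with u hu
  exact (E.Nb_interior_ne ⟨hu.1, hu.2.trans hv.2⟩ hv hu.2.ne hα hβ).1

/-- Along rays from the start of the segment the profile is strictly convex. -/
lemma ray {u : ℝ} (hu : u ∈ Set.Ioo (0 : ℝ) 1) {z : Fin n → ℝ} (hz : E.InW z) :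
    E.f u z - u * E.f₁ u z (u⁻¹ • z) ≤ 0 ∧
      (E.f u z - u * E.f₁ u z (u⁻¹ • z) = 0 → z = 0) ∧
      ((∀ s ∈ Set.Ioo (0 : ℝ) 1, E.f (s * u) (s • z) = s * E.f u z) → z = 0) := by
  have h1 : u ≠ 0 := hu.1.ne'
  set k := u⁻¹ • z
  have hk : E.InW k := InW.smul E hz _
  have hzk : ∀ s : ℝ, z + (-(1 - s) * u) • k = s • z := fun s => by
    simp only [k, smul_smul, mul_assoc, mul_inv_cancel₀ h1]; module
  have hs : ∀ s ∈ Set.Ioo (0 : ℝ) 1, -(1 - s) * u + u ∈ Set.Ioo (0 : ℝ) 1 := fun s hs => by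
    rw [show -(1 - s) * u + u = s * u by ring]
    exact ⟨mul_pos hs.1 hu.1, by nlinarith [hs.2, hu.1, hu.2]⟩
  have hlow : ∀ s ∈ Set.Ioo (0 : ℝ) 1,
      E.f u z + E.f₁ u z k * (-(1 - s) * u) ≤ E.f (s * u) (s • z) := fun s h => by
    have := E.f_tangent hu hz hk (hs s h)
    rwa [hzk, show -(1 - s) * u + u = s * u by ring] at this
  have hlim : Tendsto (fun s : ℝ => E.f (s * u) (s • z)) (𝓝[>] 0) (𝓝 0) := by
    have hc0 := E.cl_ne zero_mem_Icc
    have hψ : ContinuousAt (fun s : ℝ =>
        s * (bil (fun k l => E.Gs k l (s * u)) z z / (u * (1 - s * u)))) 0 := by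
      refine continuousAt_id.mul (ContinuousAt.div ?_ (by fun_prop) (by simpa using h1))
      refine tendsto_bil fun k l => ?_
      have hg : ContinuousAt (E.Gs k l) ((fun s : ℝ => s * u) 0) := by
        simpa using E.continuousAt_Gs hc0 k l
      exact hg.comp (f := fun s : ℝ => s * u) (by fun_prop)
    have ht := hψ.tendsto.mono_left (nhdsWithin_le_nhds (s := Set.Ioi 0))
    rw [zero_mul] at ht
    refine ht.congr' ?_
    filter_upwards [Ioo_mem_nhdsGT (zero_lt_one' ℝ)] with s hs'
    rw [f, bil_smul]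
    have := hs'.1.ne'
    have : 1 - s * u ≠ 0 := by
      have := mul_le_mul_of_nonneg_right hs'.2.le hu.1.le
      linarith [hu.2]
    field_simp
  have hle : E.f u z - u * E.f₁ u z k ≤ 0 := by
    refine le_of_tendsto_of_tendsto (b := 𝓝[>] (0 : ℝ))
      (f := fun s : ℝ => E.f u z + E.f₁ u z k * (-(1 - s) * u)) ?_ hlim ?_
    · have : Continuous fun s : ℝ => E.f u z + E.f₁ u z k * (-(1 - s) * u) := by fun_prop
      have h' := (this.tendsto 0).mono_left (nhdsWithin_le_nhds (s := Set.Ioi 0))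
      simpa [sub_eq_add_neg, mul_comm u] using h'
    · filter_upwards [Ioo_mem_nhdsGT (zero_lt_one' ℝ)] with s hs' using hlow s hs'
  have hup : ∀ s ∈ Set.Ioo (0 : ℝ) 1, E.f (s * u) (s • z) ≤ s * E.f u z := by
    intro s h
    refine ge_of_tendsto (f := fun r : ℝ => (s - r) / (1 - r) * E.f u z +
      (1 - s) / (1 - r) * E.f (r * u) (r • z)) (x := 𝓝[>] (0 : ℝ)) ?_ ?_
    · have hc : ContinuousAt (fun r : ℝ => (s - r) / (1 - r) * E.f u z) 0 :=
        ((continuousAt_const.sub continuousAt_id).div (continuousAt_const.sub continuousAt_id)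
          (by simp)).mul continuousAt_const
      have hc2 : ContinuousAt (fun r : ℝ => (1 - s) / (1 - r)) 0 :=
        continuousAt_const.div (continuousAt_const.sub continuousAt_id) (by simp)
      simpa using (hc.tendsto.mono_left nhdsWithin_le_nhds).add
        ((hc2.tendsto.mono_left nhdsWithin_le_nhds).mul hlim)
    · filter_upwards [Ioo_mem_nhdsGT h.1] with r hr
      have hr1 : (1 : ℝ) - r ≠ 0 := by linarith [hr.2, h.2]
      set l := (1 - s) / (1 - r) with hl
      have hl' : l ∈ Set.Icc (0 : ℝ) 1 :=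
        ⟨div_nonneg (by linarith [h.2]) (by linarith [hr.2, h.2]),
          (div_le_one (by linarith [hr.2, h.2])).2 (by linarith [hr.2])⟩
      have hru : r * u ∈ Set.Ioo (0 : ℝ) 1 :=
        ⟨mul_pos hr.1 hu.1, by nlinarith [hr.2, h.2, hu.1, hu.2]⟩
      have := E.f_convex hu hru hz (InW.smul E hz r) hl'
      have e : (1 : ℝ) - l = (s - r) / (1 - r) := by rw [hl]; field_simp; ring
      have e' : (1 - l) + l * r = s := by rw [hl]; field_simp; ring
      rw [show (1 - l) * u + l * (r * u) = s * u by rw [← e']; ring,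
        show (1 - l) • z + l • r • z = s • z by rw [← e']; module, e] at this
      exact this
  have haff : (∀ s ∈ Set.Ioo (0 : ℝ) 1, E.f (s * u) (s • z) = s * E.f u z) → z = 0 := by
    intro he
    set q : ℝ[X] := (Polynomial.C (E.f u z) + Polynomial.C (E.f u z / u) * Polynomial.X) * E.den u +
      E.num u z k
    have hq : q = 0 := by
      have hinf : ((fun s : ℝ => -(1 - s) * u) '' Set.Ioo 0 1).Infinite :=
        (Set.Ioo_infinite (zero_lt_one' ℝ)).image fun a _ b _ hab => by
          have := mul_right_cancel₀ h1 hab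
          linarith
      refine Polynomial.eq_zero_of_infinite_isRoot _ (hinf.mono ?_)
      rintro _ ⟨s, h, rfl⟩
      have hm := hs s h
      rw [Set.mem_ofPred_eq, Polynomial.IsRoot.def]
      have hg := E.g_eq z k hm
      rw [hzk, show -(1 - s) * u + u = s * u by ring, he s h,
        div_eq_iff (E.den_pos hm).ne'] at hg
      simp only [q, Polynomial.eval_add, Polynomial.eval_mul, Polynomial.eval_C, Polynomial.eval_X]
      have : E.f u z + E.f u z / u * (-(1 - s) * u) = s * E.f u z := by field_simp; ring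
      rw [this]
      linarith
    have hc := congrArg (fun g : ℝ[X] => g.coeff 1) hq
    simp only [q, Polynomial.coeff_add, add_mul, Polynomial.coeff_C_mul, mul_assoc,
      Polynomial.coeff_X_mul, Polynomial.coeff_zero] at hc
    have hΦ := (E.Φ_coeff hu z k).2
    simp only [Φ, Polynomial.coeff_add, add_mul, Polynomial.coeff_C_mul, mul_assoc,
      Polynomial.coeff_X_mul] at hΦ
    have hden : (E.den u).coeff 0 ≠ 0 := by
      rw [(E.coeff_den u).1]
      exact mul_ne_zero (E.cl_ne ⟨hu.1.le, hu.2.le⟩) (mul_ne_zero h1 (by linarith [hu.2]))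
    have hf1 : E.f u z / u = E.f₁ u z k := mul_right_cancel₀ hden (by linarith)
    exact (E.rigid hz hk (by rw [Φ, ← hf1]; exact hq)).1
  refine ⟨hle, fun h0 => haff fun s h => le_antisymm (hup s h) (le_trans (le_of_eq ?_) (hlow s h)),
    haff⟩
  linear_combination (s - 1) * h0

lemma Nb_right_zero {u : ℝ} (hu : u ∈ Set.Ioo (0 : ℝ) 1) {α β : Fin n → ℝ} (hα : E.InW α)
    (hβ : E.InW β) (hne : α ≠ 0 ∨ β ≠ 0) : 0 < E.Nb u 0 α β := by
  have h1 : u ≠ 0 := hu.1.ne'
  have h2 : 1 - u ≠ 0 := by linarith [hu.2]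
  have key : bil (fun k l => E.As k l u 0) α α =
      -(E.f u ((1 - u) • α) - u * E.f₁ u ((1 - u) • α) (u⁻¹ • (1 - u) • α)) := by
    rw [E.As_ne hu.1.ne', f, f₁]
    simp only [bil_smul_left, bil_smul_right]
    field_simp
    ring
  obtain ⟨r1, r2, -⟩ := E.ray hu (InW.smul E hα (1 - u))
  have hb : 0 ≤ bil (fun k l => E.Gs k l 0) β β := by
    by_cases h : β = 0
    · simp [h, bil_zero]
    · exact (E.Gs_pos zero_mem_Icc hβ h).le
  rw [E.Nb_eq, zero_mul, Real.sqrt_zero, zero_mul, add_zero, key]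
  by_cases hα0 : α = 0
  · have := E.Gs_pos zero_mem_Icc hβ (hne.resolve_left (fun h => h hα0))
    linarith
  · have : E.f u ((1 - u) • α) - u * E.f₁ u ((1 - u) • α) (u⁻¹ • (1 - u) • α) ≠ 0 := fun h =>
      hα0 ((smul_eq_zero.1 (r2 h)).resolve_left h2)
    have := lt_of_le_of_ne r1 this
    linarith

lemma Nb_left_zero {v : ℝ} (hv : v ∈ Set.Ioo (0 : ℝ) 1) {α β : Fin n → ℝ} (hα : E.InW α)
    (hβ : E.InW β) (hne : α ≠ 0 ∨ β ≠ 0) : 0 < E.Nb 0 v α β := by
  -- the tangent cone of the profile at the start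
  let gap : ℝ → (Fin n → ℝ) → (Fin n → ℝ) → ℝ := fun w z a => E.f w z -
    (bil (fun k l => E.Gs k l 0) a z + bil (fun k l => E.Gs k l 0) z a) +
      w * bil (fun k l => E.Gs k l 0) a a
  have key : ∀ w ∈ Set.Ioo (0 : ℝ) 1, ∀ α β : Fin n → ℝ, E.Nb 0 w α β =
      gap w (((1 - w) : ℝ) • α + Real.sqrt (w * (1 - w)) • β) (w⁻¹ • α) := by
    intro w hw α β
    have h3 : w ≠ 0 := hw.1.ne'
    have h4 : 1 - w ≠ 0 := by linarith [hw.2]
    set r := Real.sqrt (w * (1 - w)) with hr
    have hr2 : r * r = w * (1 - w) := Real.mul_self_sqrt (mul_nonneg hw.1.le (by linarith [hw.2]))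
    rw [E.Nb_eq, E.As_ne hw.1.ne, E.Rs_ne hw.1.ne, E.Rs_ne hw.1.ne, E.Rs_ne hw.1.ne, ← hr]
    simp only [gap, f, bil_add_left, bil_add_right, bil_smul_left, bil_smul_right]
    field_simp
    linear_combination (-(bil (fun k l => E.Gs k l w) β β * w ^ 2)) * hr2
  have hgap : ∀ w ∈ Set.Ioo (0 : ℝ) 1, ∀ z a, E.InW z → E.InW a → 0 ≤ gap w z a := by
    intro w hw z a hz ha
    have hr0 : Real.sqrt (w * (1 - w)) ≠ 0 :=
      (Real.sqrt_pos.2 (mul_pos hw.1 (by linarith [hw.2]))).ne'
    have hb : E.InW ((Real.sqrt (w * (1 - w)))⁻¹ • (z - ((1 - w) * w) • a)) := by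
      refine InW.smul E ?_ _
      have := InW.lin E hz ha 1 (-((1 - w) * w))
      rwa [one_smul, neg_smul, ← sub_eq_add_neg] at this
    have := E.Nb_left_nonneg hw (InW.smul E ha w) hb
    rw [key w hw] at this
    simpa [smul_smul, mul_inv_cancel₀ hr0, inv_mul_cancel₀ hw.1.ne'] using this
  set z := ((1 - v) : ℝ) • α + Real.sqrt (v * (1 - v)) • β with hz
  set a := v⁻¹ • α with ha
  have hzW : E.InW z := InW.lin E hα hβ _ _
  have haW : E.InW a := InW.smul E hα _
  rw [key v hv]
  refine lt_of_le_of_ne (hgap v hv z a hzW haW) fun h0 => ?_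
  have h0' : E.f v z = bil (fun k l => E.Gs k l 0) a z + bil (fun k l => E.Gs k l 0) z a -
      v * bil (fun k l => E.Gs k l 0) a a := by
    simp only [gap, ← hz, ← ha] at h0; linarith
  obtain ⟨-, -, raff⟩ := E.ray hv hzW
  have hz0 : z = 0 := by
    refine raff fun s hs => le_antisymm ?_ ?_
    · refine ge_of_tendsto (f := fun r : ℝ => (s - r) / (1 - r) * E.f v z +
        (1 - s) / (1 - r) * E.f (r * v) (r • z)) (x := 𝓝[>] (0 : ℝ)) ?_ ?_
      · have hlim : Tendsto (fun r : ℝ => E.f (r * v) (r • z)) (𝓝[>] 0) (𝓝 0) := by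
          have hc0 := E.cl_ne zero_mem_Icc
          have hψ : ContinuousAt (fun r : ℝ =>
              r * (bil (fun k l => E.Gs k l (r * v)) z z / (v * (1 - r * v)))) 0 := by
            refine continuousAt_id.mul
              (ContinuousAt.div ?_ (by fun_prop) (by simpa using hv.1.ne'))
            refine tendsto_bil fun k l => ?_
            have hg : ContinuousAt (E.Gs k l) ((fun s : ℝ => s * v) 0) := by
              simpa using E.continuousAt_Gs hc0 k l
            exact hg.comp (f := fun s : ℝ => s * v) (by fun_prop)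
          have ht := hψ.tendsto.mono_left (nhdsWithin_le_nhds (s := Set.Ioi 0))
          rw [zero_mul] at ht
          refine ht.congr' ?_
          filter_upwards [Ioo_mem_nhdsGT (zero_lt_one' ℝ)] with r hr
          rw [f, bil_smul]
          have := hr.1.ne'
          have := hv.1.ne'
          have : 1 - r * v ≠ 0 := by
            have := mul_le_mul_of_nonneg_right hr.2.le hv.1.le
            linarith [hv.2]
          field_simp
        have hc : ContinuousAt (fun r : ℝ => (s - r) / (1 - r) * E.f v z) 0 :=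
          ((continuousAt_const.sub continuousAt_id).div (continuousAt_const.sub continuousAt_id)
            (by simp)).mul continuousAt_const
        have hc2 : ContinuousAt (fun r : ℝ => (1 - s) / (1 - r)) 0 :=
          continuousAt_const.div (continuousAt_const.sub continuousAt_id) (by simp)
        simpa using (hc.tendsto.mono_left nhdsWithin_le_nhds).add
          ((hc2.tendsto.mono_left nhdsWithin_le_nhds).mul hlim)
      · filter_upwards [Ioo_mem_nhdsGT hs.1] with r hr
        have hr1 : (1 : ℝ) - r ≠ 0 := by linarith [hr.2, hs.2]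
        set l := (1 - s) / (1 - r) with hl
        have hl' : l ∈ Set.Icc (0 : ℝ) 1 :=
          ⟨div_nonneg (by linarith [hs.2]) (by linarith [hr.2, hs.2]),
            (div_le_one (by linarith [hr.2, hs.2])).2 (by linarith [hr.2])⟩
        have hrv : r * v ∈ Set.Ioo (0 : ℝ) 1 :=
          ⟨mul_pos hr.1 hv.1, by nlinarith [hr.2, hs.2, hv.1, hv.2]⟩
        have := E.f_convex hv hrv hzW (InW.smul E hzW r) hl'
        have e : (1 : ℝ) - l = (s - r) / (1 - r) := by rw [hl]; field_simp; ring
        have e' : (1 - l) + l * r = s := by rw [hl]; field_simp; ring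
        rw [show (1 - l) * v + l * (r * v) = s * v by rw [← e']; ring,
          show (1 - l) • z + l • r • z = s • z by rw [← e']; module, e] at this
        exact this
    · have := hgap (s * v) ⟨mul_pos hs.1 hv.1, by nlinarith [hs.2, hv.1, hv.2]⟩ (s • z) a
        (InW.smul E hzW s) haW
      simp only [gap, bil_smul_left, bil_smul_right] at this
      rw [h0']
      linarith [this]
  have hfz : E.f v z = 0 := by simp [f, hz0, bil_zero]
  rw [hfz, hz0, bil_zero_left, bil_zero_right, add_zero, zero_sub] at h0'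
  have ha0 : a = 0 := by
    by_contra hne'
    have := mul_pos hv.1 (E.Gs_pos zero_mem_Icc haW hne')
    linarith
  have hα0 : α = 0 := (smul_eq_zero.1 ha0).resolve_left (inv_ne_zero hv.1.ne')
  refine hne.resolve_left (fun h => h hα0) ?_
  rw [hz, hα0, smul_zero, zero_add] at hz0
  exact (smul_eq_zero.1 hz0).resolve_left (Real.sqrt_pos.2 (mul_pos hv.1 (by linarith [hv.2]))).ne'

/-- The second order form at the start of the segment. -/
lemma As_zero_pos {a : Fin n → ℝ} (ha : E.InW a) (ha0 : a ≠ 0) :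
    0 < bil (fun k l => E.As k l 0 0) a a := by
  have h0 := E.cl_ne zero_mem_Icc
  have hlim : Tendsto (fun u => bil (fun k l => E.As k l u u) a a) (𝓝[>] 0)
      (𝓝 (bil (fun k l => E.As k l 0 0) a a)) := by
    refine tendsto_bil fun k l => ?_
    simp only [As, if_true]
    exact ((((E.continuousAt_Gs h0 k l).add
      ((continuousAt_const.sub (continuousAt_id.const_mul 2)).mul (E.continuousAt_G1 h0 k l))).add
      ((continuousAt_id.mul (continuousAt_const.sub continuousAt_id)).mul
        (E.continuousAt_G2 h0 k l))).tendsto).mono_left nhdsWithin_le_nhds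
  have hnn : 0 ≤ bil (fun k l => E.As k l 0 0) a a := by
    refine ge_of_tendsto hlim ?_
    filter_upwards [Ioo_mem_nhdsGT (zero_lt_one' ℝ)] with u hu
    have := (E.Nb_diag hu ha E.InW_zero).1
    simpa [E.Nb_eq, bil_zero, bil_zero_left, bil_zero_right] using this
  refine lt_of_le_of_ne hnn fun hzero => ha0 ?_
  set Gaa : ℝ := bil (fun k l => E.Gs k l 0) a a with hG
  set qa : ℝ[X] := ∑ k, ∑ l, Polynomial.C (a k * a l) * E.ql k l
  set P0 : ℝ[X] := (1 - Polynomial.X) ^ (E.m₁ - 2)
  set A : ℝ[X] := P0 * ((1 - Polynomial.X) * E.cl)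
  set B : ℝ[X] := Polynomial.X * (P0 * ((1 - Polynomial.X) * E.cl * Polynomial.C Gaa + qa))
  have hqa : ∀ x, qa.eval x = bil (fun k l => (E.ql k l).eval x) a a := fun x => by
    simp only [qa, bil, Polynomial.eval_finsetSum, Polynomial.eval_mul, Polynomial.eval_C]
    exact Finset.sum_congr rfl fun k _ => Finset.sum_congr rfl fun l _ => by ring
  have hqa1 : qa.coeff 1 = bil (fun k l => (E.ql k l).derivative.eval 0) a a := by
    simp only [qa, bil, Polynomial.finsetSum_coeff, Polynomial.coeff_C_mul]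
    refine Finset.sum_congr rfl fun k _ => Finset.sum_congr rfl fun l _ => ?_
    rw [← Polynomial.coeff_zero_eq_eval_zero, Polynomial.coeff_derivative]
    simp; ring
  have hc0 := (E.c_pos zero_mem_Icc).ne'
  have hAne : A.coeff 0 ≠ 0 := by
    rw [Polynomial.coeff_zero_eq_eval_zero]
    simp [A, P0, eval_cl, hc0]
  have hin0 : ((1 - Polynomial.X) * E.cl * Polynomial.C Gaa + qa).coeff 0 = 0 := by
    rw [Polynomial.coeff_zero_eq_eval_zero]
    simp only [Polynomial.eval_add, Polynomial.eval_mul, Polynomial.eval_sub, Polynomial.eval_one,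
      Polynomial.eval_X, Polynomial.eval_C, hqa, eval_cl, E.bil_ql hc0, hG]
    ring
  have hin1 : ((1 - Polynomial.X) * E.cl * Polynomial.C Gaa + qa).coeff 1 = 0 := by
    have hA0 : bil (fun k l => E.As k l 0 0) a a = Gaa + bil (fun k l => E.G1 k l 0) a a := by
      rw [E.As_eq]; ring
    simp only [Polynomial.coeff_add, Polynomial.coeff_mul_C, sub_mul, one_mul,
      Polynomial.coeff_sub, Polynomial.coeff_X_mul, hqa1, E.bil_G1 hc0, ← hG]
    rw [show E.cl.coeff 0 = E.c 0 by rw [Polynomial.coeff_zero_eq_eval_zero, eval_cl],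
      show E.cl.coeff 1 = E.cl.derivative.eval 0 by
        rw [← Polynomial.coeff_zero_eq_eval_zero, Polynomial.coeff_derivative]; simp]
    linear_combination E.c 0 * hA0 + E.c 0 * hzero
  have b0 : B.coeff 0 = 0 := Polynomial.coeff_X_mul_zero _
  have b1 : B.coeff 1 = 0 := by
    rw [Polynomial.coeff_X_mul, Polynomial.mul_coeff_zero, hin0, mul_zero]
  have b2 : B.coeff 2 = 0 := by
    rw [Polynomial.coeff_X_mul, Polynomial.coeff_mul]
    refine Finset.sum_eq_zero ?_
    rintro ⟨i, j⟩ hij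
    rw [Finset.HasAntidiagonal.mem_antidiagonal] at hij
    rcases j with _ | _ | j
    · rw [hin0, mul_zero]
    · rw [hin1, mul_zero]
    · omega
  have hsplit : ∀ δ : ℝ, 0 < δ → Polynomial.Splits (Polynomial.C δ * A + B) := by
    intro δ hδ
    set Ψ : ℝ[X] := Polynomial.X ^ (E.m₀ - 1) * (Polynomial.C δ * A + B)
    have hne : Ψ ≠ 0 := by
      refine mul_ne_zero (pow_ne_zero _ Polynomial.X_ne_zero) fun h => ?_
      have := congrArg (fun g : ℝ[X] => g.coeff 0) h
      simp only [Polynomial.coeff_add, Polynomial.coeff_C_mul, b0, add_zero,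
        Polynomial.coeff_zero] at this
      exact mul_ne_zero hδ.ne' hAne this
    refine Polynomial.Splits.of_dvd ?_ hne (dvd_mul_left _ _)
    set seq : ℕ → ℝ := fun i => 1 / ((i : ℝ) + 2)
    have hs : ∀ i : ℕ, seq i ∈ Set.Ioo (0 : ℝ) 1 := fun i => by
      have hi : (0 : ℝ) ≤ (i : ℝ) := Nat.cast_nonneg i
      refine ⟨by simp only [seq]; positivity, ?_⟩
      simp only [seq]; rw [div_lt_one (by positivity)]; linarith
    have hs0 : Tendsto seq atTop (𝓝 0) := tendsto_const_nhds.div_atTop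
      (tendsto_atTop_add_const_right _ 2 tendsto_natCast_atTop_atTop)
    let F : ℕ → ℝ[X] := fun i => Polynomial.taylor (-seq i)
      (Polynomial.taylor (seq i) E.Wt *
        (Polynomial.C δ * E.den (seq i) + E.Φ (seq i) (seq i • a) a))
    have hF : ∀ i, Polynomial.Splits (F i) := fun i => by
      have := (E.splits_defect (hs i) (InW.smul E ha (seq i)) ha hδ)
      exact this.taylor _
    let q0 : ℕ → ℝ := fun i => E.f (seq i) (seq i • a)
    let D0 : ℝ[X] := E.cl * (Polynomial.X * (1 - Polynomial.X))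
    have hform : ∀ i, F i = E.Wt * ((Polynomial.C δ + Polynomial.C (q0 i) +
        Polynomial.C (E.f₁ (seq i) (seq i • a) a) * (Polynomial.X - Polynomial.C (seq i))) * D0 +
        Polynomial.X ^ 2 * qa) := by
      intro i
      refine Polynomial.funext fun t => ?_
      simp only [F, Φ, Polynomial.taylor_eval, Polynomial.eval_mul, Polynomial.eval_add,
        Polynomial.eval_C, Polynomial.eval_X, Polynomial.eval_sub, Polynomial.eval_pow, E.eval_num,
        E.eval_den, hqa, q0, D0, Polynomial.eval_one, eval_cl]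
      rw [show t + -seq i + seq i = t by ring,
        show seq i • a + (t + -seq i) • a = t • a by module, bil_smul]
      ring
    have hdF : ∀ i, (F i).natDegree ≤
        max (E.Wt.natDegree + max (1 + D0.natDegree) (2 + qa.natDegree)) Ψ.natDegree := fun i => by
      rw [hform i]
      refine le_trans Polynomial.natDegree_mul_le (le_max_of_le_left (Nat.add_le_add_left ?_ _))
      refine (Polynomial.natDegree_add_le _ _).trans (max_le_max ?_ ?_)
      · refine Polynomial.natDegree_mul_le.trans (Nat.add_le_add_right ?_ _)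
        refine (Polynomial.natDegree_add_le _ _).trans (max_le ?_ ?_)
        · rw [← map_add, Polynomial.natDegree_C]; exact Nat.zero_le _
        · exact (Polynomial.natDegree_C_mul_le _ _).trans (Polynomial.natDegree_X_sub_C _).le
      · exact Polynomial.natDegree_mul_le.trans (Nat.add_le_add_right (Polynomial.natDegree_X_pow_le _) _)
    refine splits_limit hF hdF (le_max_right _ _) (tendsto_coeff hdF (le_max_right _ _)
      Set.infinite_univ fun t _ => ?_)
    have hGl : ∀ k l, Tendsto (fun i => E.Gs k l (seq i)) atTop (𝓝 (E.Gs k l 0)) := fun k l =>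
      (E.continuousAt_Gs h0 k l).tendsto.comp hs0
    have hG1l : ∀ k l, Tendsto (fun i => E.G1 k l (seq i)) atTop (𝓝 (E.G1 k l 0)) := fun k l =>
      (E.continuousAt_G1 h0 k l).tendsto.comp hs0
    have hBl := tendsto_bil (a := a) (b := a) hGl
    have hB1l := tendsto_bil (a := a) (b := a) hG1l
    have h1s : Tendsto (fun i => 1 - seq i) atTop (𝓝 1) := by simpa using hs0.const_sub 1
    have e0 : Tendsto q0 atTop (𝓝 0) := by
      have h' := (hs0.mul hBl).div h1s one_ne_zero
      rw [zero_mul, zero_div] at h'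
      refine h'.congr fun i => ?_
      have := (hs i).1.ne'
      have : 1 - seq i ≠ 0 := by linarith [(hs i).2]
      simp only [q0, f, bil_smul, Pi.div_apply]
      field_simp
    have e1 : Tendsto (fun i => E.f₁ (seq i) (seq i • a) a) atTop (𝓝 Gaa) := by
      have h' := (((hs0.mul hB1l).add (hBl.const_mul 2)).div h1s one_ne_zero).sub
        ((hBl.mul ((hs0.const_mul 2).const_sub 1)).div (h1s.mul h1s) (by norm_num))
      simp only [zero_mul, mul_zero, sub_zero, zero_add, mul_one, div_one] at h'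
      rw [show 2 * bil (fun k l => E.Gs k l 0) a a - bil (fun k l => E.Gs k l 0) a a = Gaa by
        rw [hG]; ring] at h'
      refine h'.congr fun i => ?_
      have := (hs i).1.ne'
      have : 1 - seq i ≠ 0 := by linarith [(hs i).2]
      simp only [f₁, bil_smul_left, bil_smul_right, Pi.div_apply]
      field_simp
      ring
    have hev : ∀ i, (F i).eval t = E.Wt.eval t * ((δ + q0 i +
        E.f₁ (seq i) (seq i • a) a * (t - seq i)) * D0.eval t + t ^ 2 * qa.eval t) := fun i => by
      rw [hform i]; simp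
    simp only [hev]
    have hΨ : Ψ.eval t = E.Wt.eval t * ((δ + 0 + Gaa * (t - 0)) * D0.eval t + t ^ 2 * qa.eval t) := by
      simp only [Ψ, A, B, P0, D0, Wt, Polynomial.eval_mul, Polynomial.eval_add, Polynomial.eval_pow,
        Polynomial.eval_X, Polynomial.eval_C, Polynomial.eval_sub, Polynomial.eval_one]
      rw [show E.m₀ - 1 = E.m₀ - 2 + 1 by have := E.two_le_m₀; omega, pow_succ]
      ring
    rw [hΨ]
    exact ((((e0.const_add δ).add (e1.mul (hs0.const_sub t))).mul_const _).add_const _).const_mul _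
  have hB := affine_limit hsplit hAne b0 b1 b2
  have hin : (1 - Polynomial.X) * E.cl * Polynomial.C Gaa + qa = 0 := by
    rcases mul_eq_zero.1 hB with h | h
    · exact absurd h Polynomial.X_ne_zero
    rcases mul_eq_zero.1 h with h' | h'
    · exfalso
      have := congrArg (Polynomial.eval 0) h'
      simp [P0] at this
    · exact h'
  have := congrArg (Polynomial.eval 1) hin
  simp only [Polynomial.eval_add, Polynomial.eval_mul, Polynomial.eval_sub, Polynomial.eval_one,
    Polynomial.eval_X, sub_self, zero_mul, zero_add, Polynomial.eval_zero, hqa] at this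
  by_contra hne
  exact (E.ql_one_neg ha hne).ne this

/-- The limiting form is positive for base points in the first half of the cases. -/
theorem Nb_pos {u v : ℝ} (hu : u ∈ Set.Ico (0 : ℝ) 1) (hv : v ∈ Set.Icc (0 : ℝ) 1)
    (huv : u = 0 ∨ v < 1) {α β : Fin n → ℝ} (hα : E.InW α) (hβ : E.InW β)
    (hne : α ≠ 0 ∨ β ≠ 0) : 0 < E.Nb u v α β := by
  rcases hu.1.eq_or_lt with h0 | h0
  · subst h0
    rcases hv.1.eq_or_lt with k0 | k0
    · subst k0
      rw [E.Nb_eq, zero_mul, Real.sqrt_zero, zero_mul, add_zero]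
      rcases eq_or_ne α 0 with ha | ha
      · subst ha
        rw [bil_zero, zero_add]
        exact E.Gs_pos zero_mem_Icc hβ (hne.resolve_left fun h => h rfl)
      · have h1 := E.As_zero_pos hα ha
        rcases eq_or_ne β 0 with hb | hb
        · subst hb; rw [bil_zero, add_zero]; exact h1
        · exact add_pos h1 (E.Gs_pos zero_mem_Icc hβ hb)
    rcases hv.2.eq_or_lt with k1 | k1
    · subst k1
      rw [E.Nb_eq, sub_self, mul_zero, Real.sqrt_zero, zero_mul, add_zero,
        E.As_ne (by norm_num : (0 : ℝ) ≠ 1)]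
      norm_num
      rcases eq_or_ne α 0 with ha | ha
      · subst ha
        rw [bil_zero, zero_add]
        exact E.Gs_pos ⟨zero_le_one, le_rfl⟩ hβ (hne.resolve_left fun h => h rfl)
      · have h1 := E.Gs_pos zero_mem_Icc hα ha
        rcases eq_or_ne β 0 with hb | hb
        · subst hb; rw [bil_zero, add_zero]; exact h1
        · exact add_pos h1 (E.Gs_pos ⟨zero_le_one, le_rfl⟩ hβ hb)
    · exact E.Nb_left_zero ⟨k0, k1⟩ hα hβ hne
  · have hui : u ∈ Set.Ioo (0 : ℝ) 1 := ⟨h0, hu.2⟩
    have k1 : v < 1 := huv.resolve_left h0.ne'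
    rcases hv.1.eq_or_lt with k0 | k0
    · subst k0; exact E.Nb_right_zero hui hα hβ hne
    have hz : (α = 0 ∧ β = 0) → False := fun h => hne.elim (fun a => a h.1) (fun b => b h.2)
    rcases eq_or_ne u v with e | e
    · subst e
      obtain ⟨p1, p2⟩ := E.Nb_diag hui hα hβ
      exact lt_of_le_of_ne p1 fun h => hz (p2 h.symm)
    · obtain ⟨p1, p2⟩ := E.Nb_interior_ne hui ⟨k0, k1⟩ e hα hβ
      exact lt_of_le_of_ne p1 fun h => hz (p2 h.symm)

end Edge

end Vale.Agent.P256.Gen
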