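import Vale.Agent.P256.Gen.EdgeCoord

/-!
The cell around a flat segment, reduced to a quadratic form on the segment.
-/

namespace Vale.Agent.P256.Gen

open MvPolynomial Filter Topology
open scoped BigOperators Polynomial

set_option linter.unusedSectionVars false

variable {n : ℕ}

lemma continuous_zω : Continuous (zω (n := n)) := by
  unfold zω; fun_prop

lemma der_pt_one {m : MvPolynomial (Option (Fin n)) ℝ} (x : Option (Fin n) → ℝ) :
    der m x (pt 1 0) = eval x (pderiv none m) := by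
  rw [der, Fintype.sum_option]; simp

namespace Edge

variable {H : Hyp n} (E : Edge H)

/-- The slope along the segment as a polynomial. -/
noncomputable def cl : ℝ[X] := line E.Cp (pt 0 0) (pt 1 0)

/-- The quadratic coefficient along the segment. -/
noncomputable def ql (k l : Fin n) : ℝ[X] := line (E.Q k l) (pt 0 0) (pt 1 0)

lemma eval_cl (u : ℝ) : E.cl.eval u = E.c u := by
  rw [cl, eval_line, pt_smul, pt_add, mul_one, zero_add, smul_zero, add_zero, E.eval_Cp_axis]

lemma eval_ql (k l : Fin n) (u : ℝ) : (E.ql k l).eval u = eval (pt u 0) (E.Q k l) := by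
  rw [ql, eval_line, pt_smul, pt_add, mul_one, zero_add, smul_zero, add_zero]

/-- The curvature along the segment. -/
noncomputable def Gs (k l : Fin n) (u : ℝ) : ℝ := -(E.ql k l).eval u / E.cl.eval u

/-- Its first derivative. -/
noncomputable def G1 (k l : Fin n) (u : ℝ) : ℝ :=
  -(E.cl.derivative.eval u * E.Gs k l u + (E.ql k l).derivative.eval u) / E.cl.eval u

/-- Half of its second derivative. -/
noncomputable def G2 (k l : Fin n) (u : ℝ) : ℝ :=
  -((Polynomial.taylor u E.cl).coeff 2 * E.Gs k l u + (Polynomial.taylor u (E.ql k l)).coeff 2 +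
    E.cl.derivative.eval u * E.G1 k l u) / E.cl.eval u

/-- Difference quotients of the curvature. -/
noncomputable def Rs (k l : Fin n) (u v : ℝ) : ℝ :=
  if u = v then E.G1 k l u else (E.Gs k l v - E.Gs k l u) / (v - u)

/-- The coefficient of the first block. -/
noncomputable def As (k l : Fin n) (u v : ℝ) : ℝ :=
  if u = v then E.Gs k l u + (1 - 2 * u) * E.G1 k l u + u * (1 - u) * E.G2 k l u
  else E.Gs k l u + (1 - 2 * u - (v - u)) * E.G1 k l u -
    v * (1 - v) * (E.G1 k l u - E.Rs k l u v) / (v - u)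

/-- The limiting quadratic form on the segment. -/
noncomputable def Nb (u v : ℝ) (α β : Fin n → ℝ) : ℝ :=
  ∑ k, ∑ l, (E.As k l u v * α k * α l + E.Gs k l v * β k * β l +
    Real.sqrt (v * (1 - v)) * (E.Rs k l u v * α k * β l + E.Rs k l u v * β k * α l))

lemma Γf_axis (u : ℝ) (k l : Fin n) : E.Γf u 0 k l = E.Gs k l u := by
  rw [Γf, Gs, eval_cl, eval_ql, eval_Cp_axis]

lemma zw_z₀ (u : ℝ) : E.zw (E.z₀ u) = 0 := by simp [zw, zν, z₀]

lemma z₀_equation {u : ℝ} (hu : E.c u ≠ 0) (k l : Fin n) : eval (E.z₀ u) (E.Ez k l) = 0 := by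
  rw [E.eval_Ez, zw_z₀]
  simp only [z₀, zu_zp, zΓ_zp, Γf, E.eval_Cp_axis]
  field_simp
  ring

/-- The equations restricted to lines over the segment. -/
lemma line_Ez (k l : Fin n) (u : ℝ) (R : Fin n → Fin n → ℝ) :
    line (E.Ez k l) (E.z₀ u) (zp 1 0 R) =
      Polynomial.taylor u E.cl * (Polynomial.C (E.Gs k l u) + Polynomial.X * Polynomial.C (R k l)) +
        Polynomial.taylor u (E.ql k l) := by
  refine Polynomial.funext fun t => ?_
  have hω : zω (E.z₀ u + t • zp 1 0 R) = 0 := by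
    funext i; simp [zω, z₀, zp]
  have hw : E.zw (E.z₀ u + t • zp 1 0 R) = 0 := by simp [zw, zν, hω]
  have hu' : zu (E.z₀ u + t • zp 1 0 R) = t + u := by simp [zu, z₀, zp, add_comm]
  have hΓ : zΓ (E.z₀ u + t • zp 1 0 R) k l = E.Gs k l u + t * R k l := by
    simp [zΓ, z₀, zp, E.Γf_axis]
  rw [eval_line, E.eval_Ez, hw, hu', hΓ]
  simp [Polynomial.taylor_eval, E.eval_cl, E.eval_ql, E.eval_Cp_axis, mul_comm t]

lemma der_Ez (k l : Fin n) (u : ℝ) (R : Fin n → Fin n → ℝ) :
    der (E.Ez k l) (E.z₀ u) (zp 1 0 R) =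
      E.cl.derivative.eval u * E.Gs k l u + E.cl.eval u * R k l +
        (E.ql k l).derivative.eval u := by
  rw [← cf_one, cf, E.line_Ez]
  simp [Polynomial.coeff_mul, Finset.Nat.antidiagonal_succ, Polynomial.taylor_coeff_one,
    Polynomial.taylor_coeff_zero, Polynomial.coeff_X]
  ring

lemma cf_two_Ez (k l : Fin n) (u : ℝ) (R : Fin n → Fin n → ℝ) :
    cf (E.Ez k l) 2 (E.z₀ u) (zp 1 0 R) =
      (Polynomial.taylor u E.cl).coeff 2 * E.Gs k l u + E.cl.derivative.eval u * R k l +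
        (Polynomial.taylor u (E.ql k l)).coeff 2 := by
  rw [cf, E.line_Ez]
  simp [Polynomial.coeff_mul, Finset.Nat.antidiagonal_succ, Polynomial.taylor_coeff_one,
    Polynomial.taylor_coeff_zero, Polynomial.coeff_X]
  ring

/-- First order coefficients of the slope. -/
noncomputable def MC : Option (Fin n) → Option (Fin n) → Ker (Option (Fin n)) :=
  (exists_quad E.Cp).choose

/-- First order coefficients of the quadratic coefficient. -/
noncomputable def MQ (k l : Fin n) : Option (Fin n) → Option (Fin n) → Ker (Option (Fin n)) :=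
  (exists_quad (E.Q k l)).choose

/-- The point in segment coordinates. -/
noncomputable def X (z : ZI n → ℝ) : Option (Fin n) → ℝ := pt (zu z) (E.zw z)

/-- First order coefficients of an equation in segment coordinates. -/
noncomputable def Ao (k l : Fin n) (o : Option (Fin n)) (z₂ z₁ : ZI n → ℝ) : ℝ :=
  (eval (E.X z₁) (pderiv o E.Cp) +
      ∑ j, ev (E.MC o j) (E.X z₁) (E.X z₂) * (E.X z₂ j - E.X z₁ j)) * zΓ z₁ k l +
    (eval (E.X z₁) (pderiv o (E.Q k l)) +
      ∑ j, ev (E.MQ k l o j) (E.X z₁) (E.X z₂) * (E.X z₂ j - E.X z₁ j))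

/-- The relation coefficients of an equation. -/
noncomputable def Lc (k l : Fin n) (i : ZI n) (z₂ z₁ : ZI n → ℝ) : ℝ :=
  i.elim (E.Ao k l none z₂ z₁)
    (Sum.elim
      (fun j => E.Ao k l (some j) z₂ z₁ + (∑ i, E.Ao k l (some i) z₂ z₁ * E.ê i) *
        ((∑ q, zΓ z₂ j q * zω z₂ q) + ∑ q, zω z₁ q * zΓ z₁ q j))
      fun q => (if q = (k, l) then eval (E.X z₂) E.Cp else 0) +
        (∑ i, E.Ao k l (some i) z₂ z₁ * E.ê i) * (zω z₁ q.1 * zω z₂ q.2))

lemma Lc_spec (k l : Fin n) (z₂ z₁ : ZI n → ℝ) :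
    ∑ i, E.Lc k l i z₂ z₁ * (z₂ i - z₁ i) = eval z₂ (E.Ez k l) - eval z₁ (E.Ez k l) := by
  have rC := relation (exists_quad E.Cp).choose_spec.2 (E.X z₁) (E.X z₂)
  have rQ := relation (exists_quad (E.Q k l)).choose_spec.2 (E.X z₁) (E.X z₂)
  have hA : ∑ o, E.Ao k l o z₂ z₁ * (E.X z₂ o - E.X z₁ o) =
      (eval (E.X z₂) E.Cp - eval (E.X z₁) E.Cp) * zΓ z₁ k l +
        (eval (E.X z₂) (E.Q k l) - eval (E.X z₁) (E.Q k l)) := by
    rw [← rC, ← rQ, Finset.sum_mul, ← Finset.sum_add_distrib]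
    exact Finset.sum_congr rfl fun o _ => by simp only [Ao, MC, MQ]; ring
  have hν : zν z₂ - zν z₁ =
      (∑ j, (z₂ (some (Sum.inl j)) - z₁ (some (Sum.inl j))) *
        ((∑ q, zΓ z₂ j q * zω z₂ q) + ∑ q, zω z₁ q * zΓ z₁ q j)) +
      ∑ q : Fin n × Fin n, (z₂ (some (Sum.inr q)) - z₁ (some (Sum.inr q))) *
        (zω z₁ q.1 * zω z₂ q.2) := by
    have e : ∑ j, (z₂ (some (Sum.inl j)) - z₁ (some (Sum.inl j))) *
        ∑ q, zω z₁ q * zΓ z₁ q j =
        ∑ k, ∑ l, (z₂ (some (Sum.inl l)) - z₁ (some (Sum.inl l))) * (zω z₁ k * zΓ z₁ k l) := by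
      simp only [Finset.mul_sum]; exact Finset.sum_comm
    rw [Finset.sum_congr rfl fun j _ => mul_add _ _ _, Finset.sum_add_distrib, e]
    simp only [Fintype.sum_prod_type, Finset.mul_sum, zν,
      ← Finset.sum_sub_distrib, ← Finset.sum_add_distrib]
    refine Finset.sum_congr rfl fun a _ => Finset.sum_congr rfl fun b _ => ?_
    simp only [zω, zΓ]
    ring
  rw [Fintype.sum_option] at hA
  simp only [X, pt_none, pt_some, zw, Pi.add_apply, Pi.smul_apply, smul_eq_mul, zu] at hA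
  have hA' : ∑ i, E.Ao k l (some i) z₂ z₁ * (zν z₂ * E.ê i + zω z₂ i - (zν z₁ * E.ê i + zω z₁ i)) =
      (∑ i, E.Ao k l (some i) z₂ z₁ * E.ê i) * (zν z₂ - zν z₁) +
        ∑ i, E.Ao k l (some i) z₂ z₁ * (zω z₂ i - zω z₁ i) := by
    rw [Finset.sum_mul, ← Finset.sum_add_distrib]
    exact Finset.sum_congr rfl fun i _ => by ring
  rw [hA', hν] at hA
  rw [E.eval_Ez, E.eval_Ez]
  set S := ∑ i, E.Ao k l (some i) z₂ z₁ * E.ê i with hS
  set T : Fin n → ℝ := fun j => (∑ q, zΓ z₂ j q * zω z₂ q) + ∑ q, zω z₁ q * zΓ z₁ q j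
  have g1 : ∑ j, (E.Ao k l (some j) z₂ z₁ + S * T j) *
      (z₂ (some (Sum.inl j)) - z₁ (some (Sum.inl j))) =
      (∑ j, E.Ao k l (some j) z₂ z₁ * (zω z₂ j - zω z₁ j)) +
        S * ∑ j, (z₂ (some (Sum.inl j)) - z₁ (some (Sum.inl j))) * T j := by
    rw [Finset.mul_sum, ← Finset.sum_add_distrib]
    exact Finset.sum_congr rfl fun j _ => by simp only [zω]; ring
  have g2 : ∑ q : Fin n × Fin n, ((if q = (k, l) then eval (E.X z₂) E.Cp else 0) +
      S * (zω z₁ q.1 * zω z₂ q.2)) * (z₂ (some (Sum.inr q)) - z₁ (some (Sum.inr q))) =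
      eval (E.X z₂) E.Cp * (zΓ z₂ k l - zΓ z₁ k l) +
        S * ∑ q : Fin n × Fin n, (z₂ (some (Sum.inr q)) - z₁ (some (Sum.inr q))) *
          (zω z₁ q.1 * zω z₂ q.2) := by
    simp only [add_mul, Finset.sum_add_distrib, ite_mul, zero_mul, Finset.sum_ite_eq',
      Finset.mem_univ, if_true, Finset.mul_sum]
    congr 1
    exact Finset.sum_congr rfl fun q _ => by ring
  rw [Fintype.sum_option, Fintype.sum_sum_type]
  simp only [Lc, Option.elim_none, Option.elim_some, Sum.elim_inl, Sum.elim_inr, ← hS]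
  rw [g1, g2]
  simp only [X, zw, zu] at hA ⊢
  linear_combination hA

/-- Index of the vector of the quadratic form. -/
abbrev VI (n : ℕ) := Fin n ⊕ (Fin n ⊕ Fin n × ZI n)

/-- The vector. -/
noncomputable def vec (i : VI n) (z₂ z₁ : ZI n → ℝ) : ℝ :=
  Sum.elim (fun k => (zu z₂ - zu z₁) * zω z₁ k)
    (Sum.elim (fun j => Real.sqrt (zu z₂ * (1 - zu z₂)) * (zω z₂ j - zω z₁ j))
      fun q => Real.sqrt (zu z₂ * (1 - zu z₂)) * zω z₁ q.1 * (z₂ q.2 - z₁ q.2)) i

/-- The matrix. -/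
noncomputable def Nmat (i j : VI n) (z₂ z₁ : ZI n → ℝ) : ℝ :=
  match i, j with
  | Sum.inl k, Sum.inl l => E.G k l z₂ z₁
  | Sum.inr (Sum.inl k), Sum.inr (Sum.inl l) => E.Pν z₁ * zΓ z₂ k l
  | Sum.inr (Sum.inr q), Sum.inr (Sum.inl l) =>
      if q.2 = some (Sum.inr (q.1, l)) then E.Pν z₁ else 0
  | Sum.inr (Sum.inl k), Sum.inr (Sum.inr q) =>
      if q.2 = some (Sum.inr (k, q.1)) then E.Pν z₁ else 0
  | Sum.inr (Sum.inr q), Sum.inr (Sum.inr r) => -ev (E.ME q.1 r.1 q.2 r.2) z₁ z₂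
  | Sum.inl _, Sum.inr _ => 0
  | Sum.inr _, Sum.inl _ => 0

lemma quad_N (ξ : VI n → ℝ) (z₂ z₁ : ZI n → ℝ) :
    ∑ i, ∑ j, E.Nmat i j z₂ z₁ * ξ i * ξ j =
      (∑ k, ∑ l, E.G k l z₂ z₁ * ξ (Sum.inl k) * ξ (Sum.inl l)) +
      E.Pν z₁ * (∑ k, ∑ l, (zΓ z₂ k l * ξ (Sum.inr (Sum.inl k)) * ξ (Sum.inr (Sum.inl l)) +
        ξ (Sum.inr (Sum.inr (k, some (Sum.inr (k, l))))) * ξ (Sum.inr (Sum.inl l)) +
        ξ (Sum.inr (Sum.inl k)) * ξ (Sum.inr (Sum.inr (l, some (Sum.inr (k, l))))))) -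
      ∑ k, ∑ l, ∑ i, ∑ j, ev (E.ME k l i j) z₁ z₂ * ξ (Sum.inr (Sum.inr (k, i))) *
        ξ (Sum.inr (Sum.inr (l, j))) := by
  have e1 : ∑ q : Fin n × ZI n, ∑ l, (if q.2 = some (Sum.inr (q.1, l)) then E.Pν z₁ else 0) *
      ξ (Sum.inr (Sum.inr q)) * ξ (Sum.inr (Sum.inl l)) =
      ∑ k, ∑ l, E.Pν z₁ * (ξ (Sum.inr (Sum.inr (k, some (Sum.inr (k, l))))) *
        ξ (Sum.inr (Sum.inl l))) := by
    rw [Fintype.sum_prod_type]
    refine Finset.sum_congr rfl fun k _ => ?_
    rw [Finset.sum_comm]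
    refine Finset.sum_congr rfl fun l _ => ?_
    simp only [ite_mul, zero_mul, Finset.sum_ite_eq', Finset.mem_univ, if_true]
    ring
  have e2 : ∑ k, ∑ q : Fin n × ZI n, (if q.2 = some (Sum.inr (k, q.1)) then E.Pν z₁ else 0) *
      ξ (Sum.inr (Sum.inl k)) * ξ (Sum.inr (Sum.inr q)) =
      ∑ k, ∑ l, E.Pν z₁ * (ξ (Sum.inr (Sum.inl k)) *
        ξ (Sum.inr (Sum.inr (l, some (Sum.inr (k, l)))))) := by
    refine Finset.sum_congr rfl fun k _ => ?_
    rw [Fintype.sum_prod_type]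
    refine Finset.sum_congr rfl fun l _ => ?_
    simp only [ite_mul, zero_mul, Finset.sum_ite_eq', Finset.mem_univ, if_true]
    ring
  have e3 : ∑ q : Fin n × ZI n, ∑ r : Fin n × ZI n, -ev (E.ME q.1 r.1 q.2 r.2) z₁ z₂ *
      ξ (Sum.inr (Sum.inr q)) * ξ (Sum.inr (Sum.inr r)) =
      -∑ k, ∑ l, ∑ i, ∑ j, ev (E.ME k l i j) z₁ z₂ * ξ (Sum.inr (Sum.inr (k, i))) *
        ξ (Sum.inr (Sum.inr (l, j))) := by
    simp only [Fintype.sum_prod_type, neg_mul, Finset.sum_neg_distrib]
    congr 1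
    exact Finset.sum_congr rfl fun k _ => Finset.sum_comm
  simp only [Fintype.sum_sum_type, Nmat, zero_mul, Finset.sum_const_zero, add_zero, zero_add,
    Finset.sum_add_distrib]
  rw [e1, e2, e3]
  simp only [Finset.mul_sum, mul_add, Finset.sum_add_distrib, mul_assoc]
  ring

lemma vec_identity (z₂ z₁ : ZI n → ℝ) (h₂ : 0 ≤ zu z₂ * (1 - zu z₂)) :
    ∑ i, ∑ j, E.Nmat i j z₂ z₁ * vec i z₂ z₁ * vec j z₂ z₁ =
      (zu z₂ - zu z₁) ^ 2 * (∑ k, ∑ l, E.G k l z₂ z₁ * zω z₁ k * zω z₁ l) +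
        zu z₂ * (1 - zu z₂) *
          (E.Pν z₁ * (∑ k, ∑ l, ((zω z₂ - zω z₁) k * zΓ z₂ k l * (zω z₂ - zω z₁) l +
              zω z₁ k * (zΓ z₂ - zΓ z₁) k l * (zω z₂ - zω z₁) l +
              (zω z₂ - zω z₁) k * (zΓ z₂ - zΓ z₁) k l * zω z₁ l)) -
            ∑ k, ∑ l, zω z₁ k * zω z₁ l *
              ∑ i, ∑ j, ev (E.ME k l i j) z₁ z₂ * (z₂ i - z₁ i) * (z₂ j - z₁ j)) := by
  set r := Real.sqrt (zu z₂ * (1 - zu z₂))
  have hr : r * r = zu z₂ * (1 - zu z₂) := Real.mul_self_sqrt h₂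
  rw [E.quad_N]
  simp only [vec, Sum.elim_inl, Sum.elim_inr]
  set Δ := zu z₂ - zu z₁
  have a1 : ∑ k, ∑ l, E.G k l z₂ z₁ * (Δ * zω z₁ k) * (Δ * zω z₁ l) =
      Δ ^ 2 * ∑ k, ∑ l, E.G k l z₂ z₁ * zω z₁ k * zω z₁ l := by
    simp only [Finset.mul_sum]
    exact Finset.sum_congr rfl fun k _ => Finset.sum_congr rfl fun l _ => by ring
  have a2 : ∑ k, ∑ l, (zΓ z₂ k l * (r * (zω z₂ k - zω z₁ k)) * (r * (zω z₂ l - zω z₁ l)) +
      r * zω z₁ k * (z₂ (some (Sum.inr (k, l))) - z₁ (some (Sum.inr (k, l)))) *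
        (r * (zω z₂ l - zω z₁ l)) +
      r * (zω z₂ k - zω z₁ k) *
        (r * zω z₁ l * (z₂ (some (Sum.inr (k, l))) - z₁ (some (Sum.inr (k, l)))))) =
      r * r * ∑ k, ∑ l, ((zω z₂ - zω z₁) k * zΓ z₂ k l * (zω z₂ - zω z₁) l +
        zω z₁ k * (zΓ z₂ - zΓ z₁) k l * (zω z₂ - zω z₁) l +
        (zω z₂ - zω z₁) k * (zΓ z₂ - zΓ z₁) k l * zω z₁ l) := by
    simp only [Finset.mul_sum, Pi.sub_apply, zΓ]
    exact Finset.sum_congr rfl fun k _ => Finset.sum_congr rfl fun l _ => by ring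
  have a3 : ∑ k, ∑ l, ∑ i, ∑ j, ev (E.ME k l i j) z₁ z₂ * (r * zω z₁ k * (z₂ i - z₁ i)) *
      (r * zω z₁ l * (z₂ j - z₁ j)) = r * r * ∑ k, ∑ l, zω z₁ k * zω z₁ l *
        ∑ i, ∑ j, ev (E.ME k l i j) z₁ z₂ * (z₂ i - z₁ i) * (z₂ j - z₁ j) := by
    simp only [Finset.mul_sum]
    exact Finset.sum_congr rfl fun k _ => Finset.sum_congr rfl fun l _ =>
      Finset.sum_congr rfl fun i _ => Finset.sum_congr rfl fun j _ => by ring
  rw [a1, a2, a3, hr]
  ring

/-- Index of the relations. -/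
abbrev RI (n : ℕ) := (Fin n × Fin n × Fin n) ⊕ (Fin n ⊕ ((Fin n × Fin n) ⊕ (Bool × Fin 3)))

/-- The functionals cutting out the transversal space. -/
noncomputable def cut (i : Fin 3) : (Fin n → ℝ) →ₗ[ℝ] ℝ :=
  if i = 0 then H.τ else if i = 1 then E.μ else E.ν

lemma cut_zero {w : Fin n → ℝ} (hw : E.InW w) (i : Fin 3) : E.cut i w = 0 := by
  fin_cases i <;> simp [cut, hw.1, hw.2.1, hw.2.2]

lemma InW_of_cut {w : Fin n → ℝ} (h : ∀ i, E.cut i w = 0) : E.InW w :=
  ⟨by simpa [cut] using h 0, by simpa [cut] using h 1, by simpa [cut] using h 2⟩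

/-- The relations. -/
noncomputable def Rel (r : RI n) (i : VI n) (z₂ z₁ : ZI n → ℝ) : ℝ :=
  match r, i with
  | Sum.inl (q, k, l), Sum.inr (Sum.inr (q', o)) => if q' = q then E.Lc k l o z₂ z₁ else 0
  | Sum.inl _, Sum.inl _ => 0
  | Sum.inl _, Sum.inr (Sum.inl _) => 0
  | Sum.inr (Sum.inl q), Sum.inl k => if k = q then -Real.sqrt (zu z₂ * (1 - zu z₂)) else 0
  | Sum.inr (Sum.inl q), Sum.inr (Sum.inr r) => if r = (q, none) then 1 else 0
  | Sum.inr (Sum.inl _), Sum.inr (Sum.inl _) => 0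
  | Sum.inr (Sum.inr (Sum.inl (q, j))), Sum.inr (Sum.inl j') => if j' = j then -zω z₁ q else 0
  | Sum.inr (Sum.inr (Sum.inl (q, j))), Sum.inr (Sum.inr r) =>
      if r = (q, some (Sum.inl j)) then 1 else 0
  | Sum.inr (Sum.inr (Sum.inl _)), Sum.inl _ => 0
  | Sum.inr (Sum.inr (Sum.inr (side, c))), Sum.inl k =>
      if side then E.cut c (Pi.single k 1) else 0
  | Sum.inr (Sum.inr (Sum.inr (side, c))), Sum.inr (Sum.inl k) =>
      if side then 0 else E.cut c (Pi.single k 1)
  | Sum.inr (Sum.inr (Sum.inr _)), Sum.inr (Sum.inr _) => 0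

lemma lin_sum (L : (Fin n → ℝ) →ₗ[ℝ] ℝ) (ξ : Fin n → ℝ) :
    ∑ k, L (Pi.single k 1) * ξ k = L ξ := by
  conv_rhs => rw [pi_eq_sum_univ' ξ, map_sum]
  exact Finset.sum_congr rfl fun k _ => by rw [map_smul, smul_eq_mul, mul_comm]

lemma rel_sum (r : RI n) (ξ : VI n → ℝ) (z₂ z₁ : ZI n → ℝ) :
    ∑ i, E.Rel r i z₂ z₁ * ξ i = match r with
      | Sum.inl (q, k, l) => ∑ o, E.Lc k l o z₂ z₁ * ξ (Sum.inr (Sum.inr (q, o)))
      | Sum.inr (Sum.inl q) => -Real.sqrt (zu z₂ * (1 - zu z₂)) * ξ (Sum.inl q) +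
          ξ (Sum.inr (Sum.inr (q, none)))
      | Sum.inr (Sum.inr (Sum.inl (q, j))) => -zω z₁ q * ξ (Sum.inr (Sum.inl j)) +
          ξ (Sum.inr (Sum.inr (q, some (Sum.inl j))))
      | Sum.inr (Sum.inr (Sum.inr (side, c))) =>
          if side then E.cut c (fun k => ξ (Sum.inl k))
          else E.cut c (fun k => ξ (Sum.inr (Sum.inl k))) := by
  rcases r with ⟨q, k, l⟩ | q | ⟨q, j⟩ | ⟨side, c⟩
  · simp only [Fintype.sum_sum_type, Rel, zero_mul, Finset.sum_const_zero, zero_add, ite_mul,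
      Fintype.sum_prod_type]
    rw [Finset.sum_eq_single q (fun b _ hb => by simp [hb]) (by simp)]
    simp
  · simp [Fintype.sum_sum_type, Rel]
  · simp [Fintype.sum_sum_type, Rel]
  · dsimp only
    rw [← lin_sum (E.cut c) (fun k => ξ (Sum.inl k)),
      ← lin_sum (E.cut c) (fun k => ξ (Sum.inr (Sum.inl k)))]
    cases side <;> simp [Fintype.sum_sum_type, Rel]

lemma X_z₀ (u : ℝ) : E.X (E.z₀ u) = pt u 0 := by rw [X, zw_z₀]; rfl

lemma X_tendsto : Continuous fun z : ZI n → ℝ => E.X z := by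
  refine continuous_pt (continuous_apply none) ?_
  show Continuous fun z => zν z • E.ê + zω z
  exact ((by unfold zν zω zΓ; fun_prop : Continuous (zν (n := n))).smul continuous_const).add
    continuous_zω

lemma Ao_diag (k l : Fin n) (u : ℝ) :
    E.Ao k l none (E.z₀ u) (E.z₀ u) =
      E.cl.derivative.eval u * E.Gs k l u + (E.ql k l).derivative.eval u := by
  simp only [Ao, sub_self, mul_zero, Finset.sum_const_zero, add_zero, E.X_z₀]
  rw [cl, ql, derivative_line, derivative_line, pt_smul, pt_add, mul_one, zero_add, smul_zero,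
    add_zero, der_pt_one, der_pt_one]
  simp [z₀, E.Γf_axis, cl, ql]

/-- The reduction of the base form. -/
lemma base_form {u v : ℝ} (hu : E.c u ≠ 0) (hv : E.c v ≠ 0) (hV : 0 ≤ v * (1 - v))
    (ξ : VI n → ℝ) (hk : ∀ r, ∑ i, E.Rel r i (E.z₀ v) (E.z₀ u) * ξ i = 0) :
    ∑ i, ∑ j, E.Nmat i j (E.z₀ v) (E.z₀ u) * ξ i * ξ j =
        E.c u * E.Nb u v (fun k => ξ (Sum.inl k)) (fun k => ξ (Sum.inr (Sum.inl k))) ∧
      ((fun k => ξ (Sum.inl k)) = 0 → (fun k => ξ (Sum.inr (Sum.inl k))) = 0 → ξ = 0) := by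
  set z₁ := E.z₀ u
  set z₂ := E.z₀ v
  set α : Fin n → ℝ := fun k => ξ (Sum.inl k)
  set β : Fin n → ℝ := fun k => ξ (Sum.inr (Sum.inl k))
  set r := Real.sqrt (v * (1 - v))
  have r1 : ∀ q, ξ (Sum.inr (Sum.inr (q, none))) = r * α q := fun q => by
    have := hk (Sum.inr (Sum.inl q))
    rw [E.rel_sum] at this
    simp only [z₂, z₀, zu_zp] at this
    linarith
  have r2 : ∀ q j, ξ (Sum.inr (Sum.inr (q, some (Sum.inl j)))) = 0 := fun q j => by
    have := hk (Sum.inr (Sum.inr (Sum.inl (q, j))))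
    rw [E.rel_sum] at this
    simpa [z₁, z₀] using this
  have hAR : ∀ k l, E.Ao k l none z₂ z₁ = -E.c v * E.Rs k l u v := by
    intro k l
    by_cases huv : u = v
    · subst huv
      rw [show z₂ = z₁ from rfl, E.Ao_diag, Rs, if_pos rfl, G1, E.eval_cl]
      field_simp
    · have h := E.Lc_spec k l z₂ z₁
      rw [E.z₀_equation hv, E.z₀_equation hu, sub_zero] at h
      simp only [Fintype.sum_option, Fintype.sum_sum_type, Lc, Option.elim_none, Option.elim_some,
        Sum.elim_inl, Sum.elim_inr, z₁, z₂, z₀, zω_zp, Pi.zero_apply, mul_zero, add_zero] at h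
      simp only [zp, Option.elim_none, Option.elim_some, Sum.elim_inl, Sum.elim_inr, Pi.zero_apply,
        sub_self, mul_zero, Finset.sum_const_zero, zero_add, E.Γf_axis, ite_mul, zero_mul,
        Finset.sum_ite_eq', Finset.mem_univ, if_true] at h
      rw [show eval (E.X (zp v 0 (E.Γf v 0))) E.Cp = E.c v by rw [← z₀, E.X_z₀, E.eval_Cp_axis]] at h
      rw [Rs, if_neg huv]
      have hd : v - u ≠ 0 := sub_ne_zero.2 (Ne.symm huv)
      change E.Ao k l none z₂ z₁ * (v - u) + E.c v * (E.Gs k l v - E.Gs k l u) = 0 at h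
      field_simp
      linarith
  have r3 : ∀ q k l, ξ (Sum.inr (Sum.inr (q, some (Sum.inr (k, l))))) = r * α q * E.Rs k l u v := by
    intro q k l
    have h := hk (Sum.inl (q, k, l))
    rw [E.rel_sum] at h
    simp only [Fintype.sum_option, Fintype.sum_sum_type, Lc, Option.elim_none, Option.elim_some,
      Sum.elim_inl, Sum.elim_inr, r1, r2, mul_zero, Finset.sum_const_zero, zero_add] at h
    simp only [z₂, z₁, z₀, zω_zp, Pi.zero_apply, mul_zero, add_zero, ite_mul, zero_mul,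
      Finset.sum_ite_eq', Finset.mem_univ, if_true] at h
    rw [show eval (E.X (zp v 0 (E.Γf v 0))) E.Cp = E.c v by rw [← z₀, E.X_z₀, E.eval_Cp_axis]] at h
    change E.Ao k l none z₂ z₁ * (r * α q) + _ = 0 at h
    rw [hAR] at h
    refine mul_left_cancel₀ hv ?_
    linear_combination h
  refine ⟨?_, fun ha hb => funext fun i => ?_⟩
  · -- the second order term along the segment
    have hD : ∀ q, (fun i => ξ (Sum.inr (Sum.inr (q, i)))) =
        (r * α q) • zp 1 0 (fun k l => E.Rs k l u v) := by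
      intro q
      funext i
      rcases i with _ | j | ⟨k, l⟩
      · simp [r1, zp]
      · simp [r2, zp]
      · simp [r3, zp]
    have hMD : ∀ k l, ∑ i, ∑ j, ev (E.ME k l i j) z₁ z₂ * ξ (Sum.inr (Sum.inr (k, i))) *
        ξ (Sum.inr (Sum.inr (l, j))) = r * α k * (r * α l) * ∑ i, ∑ j, ev (E.ME k l i j) z₁ z₂ *
          zp 1 0 (fun k l => E.Rs k l u v) i * zp 1 0 (fun k l => E.Rs k l u v) j := by
      intro k l
      simp only [fun q i => congrFun (hD q) i, Pi.smul_apply, smul_eq_mul, Finset.mul_sum]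
      exact Finset.sum_congr rfl fun i _ => Finset.sum_congr rfl fun j _ => by ring
    have hM : ∀ k l, ∑ i, ∑ j, ev (E.ME k l i j) z₁ z₂ *
        zp 1 0 (fun k l => E.Rs k l u v) i * zp 1 0 (fun k l => E.Rs k l u v) j =
        E.c u * (if u = v then -E.G2 k l u else (E.G1 k l u - E.Rs k l u v) / (v - u)) := by
      intro k l
      by_cases huv : u = v
      · subst huv
        rw [show z₂ = z₁ from rfl, if_pos rfl,
          ← cf_two (E.Ez k l) (fun x a => E.ME_spec k l x a), E.cf_two_Ez, Rs, if_pos rfl, G2,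
          E.eval_cl]
        field_simp
        ring
      · rw [if_neg huv]
        have hd : v - u ≠ 0 := sub_ne_zero.2 (Ne.symm huv)
        have hz : z₂ - z₁ = (v - u) • zp 1 0 (fun k l => E.Rs k l u v) := by
          funext i
          rcases i with _ | j | ⟨k, l⟩
          · simp [z₁, z₂, z₀, zp]
          · simp [z₁, z₂, z₀, zp]
          · simp [z₁, z₂, z₀, zp, E.Γf_axis, Rs, if_neg huv]
            field_simp
        have h := E.ME_spec k l z₁ z₂
        rw [E.z₀_equation hv, E.z₀_equation hu, hz, der_smul, E.der_Ez, E.eval_cl] at h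
        simp only [fun i => show z₂ i - z₁ i = (v - u) * zp 1 0 (fun k l => E.Rs k l u v) i from
          congrFun hz i] at h
        have hG1 : E.cl.derivative.eval u * E.Gs k l u + (E.ql k l).derivative.eval u =
            -E.c u * E.G1 k l u := by
          rw [G1, E.eval_cl]; field_simp
        have e : ∑ i, ∑ j, ev (E.ME k l i j) z₁ z₂ * ((v - u) * zp 1 0 (fun k l => E.Rs k l u v) i) *
            ((v - u) * zp 1 0 (fun k l => E.Rs k l u v) j) = (v - u) * ((v - u) *
              ∑ i, ∑ j, ev (E.ME k l i j) z₁ z₂ * zp 1 0 (fun k l => E.Rs k l u v) i *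
                zp 1 0 (fun k l => E.Rs k l u v) j) := by
          simp only [Finset.mul_sum]
          exact Finset.sum_congr rfl fun i _ => Finset.sum_congr rfl fun j _ => by ring
        rw [e] at h
        rw [mul_div_assoc', eq_div_iff hd]
        refine mul_left_cancel₀ hd ?_
        linear_combination -h - (v - u) * hG1
    have hG : ∀ k l, E.G k l z₂ z₁ =
        E.c u * (E.Gs k l u + (1 - 2 * u - (v - u)) * E.G1 k l u) := by
      intro k l
      have h0 : der (E.Ez k l) z₁ (zp 0 (zω z₁) 0) = 0 := by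
        rw [show zp 0 (zω z₁) (0 : Fin n → Fin n → ℝ) = 0 from by
          funext i; rcases i with _ | j | ⟨k, l⟩ <;> simp [zp, z₁, z₀], der_zero]
      have hP : E.Pν z₁ = E.c u := by
        simp only [Pν, c, z₁, zw_z₀]; rfl
      rw [G, h0, hP, E.der_Ez, E.eval_cl]
      simp only [z₁, z₂, z₀, zu_zp, zΓ_zp, E.Γf_axis, Pi.zero_apply, mul_zero, add_zero]
      rw [show E.cl.derivative.eval u * E.Gs k l u + (E.ql k l).derivative.eval u =
        -E.c u * E.G1 k l u by rw [G1, E.eval_cl]; field_simp]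
      ring
    rw [E.quad_N]
    have hP : E.Pν z₁ = E.c u := by simp only [Pν, c, z₁, zw_z₀]; rfl
    simp only [hMD, hM, hG, hP, r3]
    simp only [Nb, Finset.mul_sum, ← Finset.sum_add_distrib, ← Finset.sum_sub_distrib]
    refine Finset.sum_congr rfl fun k _ => Finset.sum_congr rfl fun l _ => ?_
    show _ = E.c u * (E.As k l u v * α k * α l + E.Gs k l v * β k * β l +
      r * (E.Rs k l u v * α k * β l + E.Rs k l u v * β k * α l))
    have hr : r * r = v * (1 - v) := Real.mul_self_sqrt hV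
    simp only [z₂, z₀, zΓ_zp, E.Γf_axis]
    by_cases huv : u = v
    · subst huv
      rw [if_pos rfl, As, if_pos rfl]
      linear_combination (α k * α l * E.c u * E.G2 k l u) * hr
    · rw [if_neg huv, As, if_neg huv]
      linear_combination (-(α k * α l * E.c u * ((E.G1 k l u - E.Rs k l u v) / (v - u)))) * hr
  · rcases i with k | k | ⟨q, _ | j | ⟨k, l⟩⟩
    · exact congrFun ha k
    · exact congrFun hb k
    · rw [r1, show α q = 0 from congrFun ha q]; simp
    · exact r2 q j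
    · rw [r3, show α q = 0 from congrFun ha q]; simp

attribute [local irreducible] Edge.P Edge.Ez der Hyp.slack

/-- Near a segment the kernel is a sum of squares when the limiting form is positive. -/
theorem cell_edge {u v : ℝ} (hu : u ∈ Set.Icc (0 : ℝ) 1) (hv : v ∈ Set.Icc (0 : ℝ) 1)
    (hpd : ∀ α β, E.InW α → E.InW β → (α ≠ 0 ∨ β ≠ 0) → 0 < E.Nb u v α β) :
    SOSNear (E.near v) (E.near u) H.slack := by
  set za := E.z₀ v
  set zb := E.z₀ u
  have hR : ∀ (φ : (ZI n → ℝ) → ℝ), Continuous φ →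
      NiceAt za zb (fun (_ : ZI n → ℝ) x => φ x) := fun φ h => niceAt_right h.continuousAt
  have hL : ∀ (φ : (ZI n → ℝ) → ℝ), Continuous φ →
      NiceAt za zb (fun a (_ : ZI n → ℝ) => φ a) := fun φ h => niceAt_left h.continuousAt
  have hz : ∀ i, NiceAt za zb (fun (a x : ZI n → ℝ) => a i - x i) := fun i =>
    (hL _ (continuous_apply i)).sub (hR _ (continuous_apply i))
  have hXc : ∀ o, Continuous fun z : ZI n → ℝ => E.X z o := fun o =>
    (continuous_apply o).comp E.X_tendsto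
  have hr : Continuous fun z : ZI n → ℝ => Real.sqrt (zu z * (1 - zu z)) := by
    unfold zu; fun_prop
  have hω : ∀ k, Continuous fun z : ZI n → ℝ => zω z k := fun k =>
    (continuous_apply k).comp continuous_zω
  have hΓ : ∀ k l, Continuous fun z : ZI n → ℝ => zΓ z k l := fun k l => continuous_apply _
  have hkX : ∀ (K : Ker (Option (Fin n))), NiceAt za zb (fun a x => ev K (E.X x) (E.X a)) :=
    fun K => niceAt_congr
      (niceAt_eval (rename Sum.swap K) (fun o a => E.X a o) (fun o x => E.X x o)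
        (fun o => (hXc o).continuousAt) (fun o => (hXc o).continuousAt))
      fun a x => by
        rw [eval_rename, ev]
        congr 2
        funext q
        rcases q with q | q <;> rfl
  have hkz : ∀ (K : Ker (ZI n)), NiceAt za zb (fun a x => ev K x a) := fun K =>
    niceAt_congr
      (niceAt_eval (rename Sum.swap K) (fun o (a : ZI n → ℝ) => a o) (fun o (x : ZI n → ℝ) => x o)
        (fun o => (continuous_apply o).continuousAt) (fun o => (continuous_apply o).continuousAt))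
      fun a x => by
        rw [eval_rename, ev]
        congr 2
        funext q
        rcases q with q | q <;> rfl
  have hAo : ∀ k l o, NiceAt za zb (fun a x => E.Ao k l o a x) := fun k l o => by
    have hd : ∀ j, NiceAt za zb (fun a x => E.X a j - E.X x j) := fun j =>
      (hL _ (hXc j)).sub (hR _ (hXc j))
    exact (((hR _ ((MvPolynomial.continuous_eval _).comp E.X_tendsto)).add
      (niceAt_sum Finset.univ fun j _ => (hkX (E.MC o j)).mul (hd j))).mul (hR _ (hΓ k l))).add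
      ((hR _ ((MvPolynomial.continuous_eval _).comp E.X_tendsto)).add
      (niceAt_sum Finset.univ fun j _ => (hkX (E.MQ k l o j)).mul (hd j)))
  have hLc : ∀ k l i, NiceAt za zb (fun a x => E.Lc k l i a x) := by
    intro k l i
    have hS : NiceAt za zb (fun a x => ∑ i, E.Ao k l (some i) a x * E.ê i) :=
      niceAt_sum Finset.univ fun i _ => (hAo k l (some i)).mul (niceAt_const _)
    rcases i with _ | j | q
    · exact hAo k l none
    · exact (hAo k l (some j)).add (hS.mul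
        ((hL (fun z => ∑ q, zΓ z j q * zω z q)
            (continuous_finsetSum _ fun q _ => (hΓ j q).mul (hω q))).add
          (hR (fun z => ∑ q, zω z q * zΓ z q j)
            (continuous_finsetSum _ fun q _ => (hω q).mul (hΓ q j)))))
    · refine NiceAt.add ?_ (hS.mul ((hR _ (hω q.1)).mul (hL _ (hω q.2))))
      split_ifs with hq
      · subst hq; exact hL _ ((MvPolynomial.continuous_eval _).comp E.X_tendsto)
      · exact niceAt_const 0
  have hPν : Continuous fun z : ZI n → ℝ => E.Pν z := by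
    have : Continuous fun z : ZI n → ℝ => (E.X z, pt 0 E.ê) :=
      E.X_tendsto.prodMk continuous_const
    exact Continuous.comp
      (g := fun z : (Option (Fin n) → ℝ) × (Option (Fin n) → ℝ) => der E.P z.1 z.2)
      (continuous_der E.P) this
  have hN : ∀ i j, NiceAt za zb (fun a x => E.Nmat i j a x) := by
    have h0 : NiceAt za zb (fun (_ _ : ZI n → ℝ) => (0 : ℝ)) := niceAt_const 0
    rintro (k | k | q) (l | l | r) <;> simp only [Nmat]
    · have hd : ∀ D : (ZI n → ℝ) → ZI n → ℝ, Continuous D →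
          Continuous fun z => der (E.Ez k l) z (D z) := fun D hD =>
        Continuous.comp (g := fun z : (ZI n → ℝ) × (ZI n → ℝ) => der (E.Ez k l) z.1 z.2)
          (continuous_der _) (continuous_id.prodMk hD)
      have h1 := hd (fun z => zp 0 (zω z) 0) (continuous_pi fun o => by
        rcases o with _ | j | q
        · exact continuous_const
        · exact hω j
        · exact continuous_const)
      have h2 := hd (fun _ => zp 1 0 0) continuous_const
      exact ((hR _ h1.neg).add ((hR _ hPν).mul (hR _ (hΓ k l)))).sub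
        (((hR (fun z => 1 - 2 * zu z) (by unfold zu; fun_prop)).sub
          ((hL (fun z => zu z) (continuous_apply _)).sub (hR (fun z => zu z) (continuous_apply _)))).mul
          (hR _ h2))
    · exact h0
    · exact h0
    · exact h0
    · exact (hR _ hPν).mul (hL _ (hΓ k l))
    · split_ifs
      · exact hR _ hPν
      · exact h0
    · exact h0
    · split_ifs
      · exact hR _ hPν
      · exact h0
    · exact (hkz _).neg
  have hvec : ∀ i : VI n, FinRank (fun (a x : ZI n → ℝ) => vec i a x) := by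
    rintro (k | k | q)
    · exact (((hL (fun z => zu z) (continuous_apply _)).sub
        (hR (fun z => zu z) (continuous_apply _))).mul (hR _ (hω k))).finRank
    · exact ((hL _ hr).mul ((hL _ (hω k)).sub (hR _ (hω k)))).finRank
    · exact (((hL _ hr).mul (hR _ (hω q.1))).mul (hz q.2)).finRank
  have hRel : ∀ r i, NiceAt za zb (fun a x => E.Rel r i a x) := by
    have h0 : NiceAt za zb (fun (_ _ : ZI n → ℝ) => (0 : ℝ)) := niceAt_const 0
    rintro (⟨q, k, l⟩ | q | ⟨q, j⟩ | ⟨side, c⟩) (i | i | i) <;> simp only [Rel] <;>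
      (try split_ifs) <;>
      first
      | exact h0
      | exact hLc _ _ _
      | exact (hL _ hr).neg
      | exact (hR _ (hω q)).neg
      | exact niceAt_const _
  obtain ⟨U, hU, V, hV, hS⟩ := quad_sos (fun i a x => vec i a x) hvec
    (fun i j a x => E.Nmat i j a x) hN (fun r i a x => E.Rel r i a x) hRel
    (A := E.Zset) (B := E.Zset)
    (fun ξ hξ hk => by
      have hV' : 0 ≤ v * (1 - v) := mul_nonneg hv.1 (by linarith [hv.2])
      obtain ⟨he, h0⟩ := E.base_form (E.c_pos hu).ne' (E.c_pos hv).ne' hV' ξ hk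
      rw [he]
      refine mul_pos (E.c_pos hu) (hpd _ _ (E.InW_of_cut fun i => ?_) (E.InW_of_cut fun i => ?_) ?_)
      · simpa [E.rel_sum] using hk (Sum.inr (Sum.inr (Sum.inr (true, i))))
      · simpa [E.rel_sum] using hk (Sum.inr (Sum.inr (Sum.inr (false, i))))
      · by_contra hcon
        push Not at hcon
        exact hξ (h0 hcon.1 hcon.2))
    (fun a ha x hx r => by
      rw [E.rel_sum r (fun i => vec i a x) a x]
      rcases r with ⟨q, k, l⟩ | q | ⟨q, j⟩ | ⟨side, c⟩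
      · simp only [vec, Sum.elim_inr]
        have h := E.Lc_spec k l a x
        rw [ha.2.2, hx.2.2, sub_zero] at h
        rw [← mul_zero (Real.sqrt (zu a * (1 - zu a)) * zω x q), ← h, Finset.mul_sum]
        exact Finset.sum_congr rfl fun o _ => by ring
      · simp only [vec, Sum.elim_inl, Sum.elim_inr, zu]; ring
      · simp only [vec, Sum.elim_inl, Sum.elim_inr, zω]; ring
      · cases side
        · simp only [vec, Sum.elim_inl, Sum.elim_inr, Bool.false_eq_true, if_false]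
          rw [show (fun k => Real.sqrt (zu a * (1 - zu a)) * (zω a k - zω x k)) =
            Real.sqrt (zu a * (1 - zu a)) • (zω a - zω x) from rfl, map_smul, map_sub,
            E.cut_zero ha.2.1, E.cut_zero hx.2.1, sub_zero, smul_zero]
        · simp only [vec, Sum.elim_inl, if_true]
          rw [show (fun k => (zu a - zu x) * zω x k) = (zu a - zu x) • zω x from rfl, map_smul,
            E.cut_zero hx.2.1, smul_zero])
  obtain ⟨ta, ea⟩ := E.near_zc hv
  obtain ⟨tx, ex⟩ := E.near_zc hu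
  have hQ := SOSNear.comap (F := 𝓝[E.Zset] za) (G := 𝓝[E.Zset] zb)
    ⟨_, inter_mem (nhdsWithin_le_nhds hU) self_mem_nhdsWithin, _,
      inter_mem (nhdsWithin_le_nhds hV) self_mem_nhdsWithin, hS⟩
    (tendsto_nhdsWithin_iff.2 ⟨ta, ea.mono fun _ h => h.1⟩)
    (tendsto_nhdsWithin_iff.2 ⟨tx, ex.mono fun _ h => h.1⟩)
  have hJ := sosNear_prod (F := E.near v) (G := E.near u) (fun _ : Fin n → ℝ => (1 : ℝ))
    (fun x => E.J (zu (E.zc x))) (Eventually.of_forall fun _ => zero_le_one)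
    (ex.mono fun x hx => mul_nonneg (pow_nonneg hx.1.1.1.le _)
      (pow_nonneg (by linarith [hx.1.1.2]) _))
  refine (hJ.mul hQ).congr ea ex fun a ha x hx => ?_
  rw [Hyp.slack]
  conv_lhs => rw [hx.2.2.2, ha.2.2.2]
  rw [E.slack_eq hx.1 ha.1, one_mul, E.vec_identity _ _
    (mul_nonneg ha.1.1.1.le (by linarith [ha.1.1.2]))]

end Edge

end Vale.Agent.P256.Gen
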