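import Mathlib

/-!
Exact second order expansion of a polynomial between two points, with polynomial coefficients.
-/

namespace Vale.Agent.P256.Gen

open MvPolynomial
open scoped BigOperators

set_option linter.unusedSectionVars false

variable {σ : Type*} [Fintype σ]

/-- Polynomials in the coordinates of a pair of points. -/
abbrev Ker (σ : Type*) := MvPolynomial (σ ⊕ σ) ℝ

/-- Evaluation at a pair of points. -/
noncomputable def ev (K : Ker σ) (x a : σ → ℝ) : ℝ := eval (Sum.elim x a) K

@[simp] lemma ev_C (c : ℝ) (x a : σ → ℝ) : ev (C c : Ker σ) x a = c := by simp [ev]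

@[simp] lemma ev_zero (x a : σ → ℝ) : ev (0 : Ker σ) x a = 0 := by simp [ev]

@[simp] lemma ev_one (x a : σ → ℝ) : ev (1 : Ker σ) x a = 1 := by simp [ev]

@[simp] lemma ev_add (K L : Ker σ) (x a : σ → ℝ) : ev (K + L) x a = ev K x a + ev L x a := by
  simp [ev]

@[simp] lemma ev_mul (K L : Ker σ) (x a : σ → ℝ) : ev (K * L) x a = ev K x a * ev L x a := by
  simp [ev]

@[simp] lemma ev_sub (K L : Ker σ) (x a : σ → ℝ) : ev (K - L) x a = ev K x a - ev L x a := by
  simp [ev]

@[simp] lemma ev_left (i : σ) (x a : σ → ℝ) : ev (X (Sum.inl i) : Ker σ) x a = x i := by simp [ev]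

@[simp] lemma ev_right (i : σ) (x a : σ → ℝ) : ev (X (Sum.inr i) : Ker σ) x a = a i := by simp [ev]

@[simp] lemma ev_rename_left (f : MvPolynomial σ ℝ) (x a : σ → ℝ) :
    ev (rename Sum.inl f : Ker σ) x a = eval x f := by
  simp [ev, eval_rename]

@[simp] lemma ev_rename_right (f : MvPolynomial σ ℝ) (x a : σ → ℝ) :
    ev (rename Sum.inr f : Ker σ) x a = eval a f := by
  simp [ev, eval_rename]

/-- The derivative of `f` at `x` applied to `v`. -/
noncomputable def der (f : MvPolynomial σ ℝ) (x v : σ → ℝ) : ℝ :=
  ∑ i, eval x (pderiv i f) * v i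

lemma der_add (f : MvPolynomial σ ℝ) (x v w : σ → ℝ) : der f x (v + w) = der f x v + der f x w := by
  simp [der, mul_add, Finset.sum_add_distrib]

lemma der_sub (f : MvPolynomial σ ℝ) (x v w : σ → ℝ) : der f x (v - w) = der f x v - der f x w := by
  simp [der, mul_sub, Finset.sum_sub_distrib]

lemma der_smul (f : MvPolynomial σ ℝ) (x v : σ → ℝ) (c : ℝ) : der f x (c • v) = c * der f x v := by
  simp [der, Finset.mul_sum, mul_left_comm]

lemma der_zero (f : MvPolynomial σ ℝ) (x : σ → ℝ) : der f x 0 = 0 := by simp [der]

lemma der_neg (f : MvPolynomial σ ℝ) (x v : σ → ℝ) : der f x (-v) = -der f x v := by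
  simp [der, Finset.sum_neg_distrib]

/-- `f(a) = f(x) + f'(x)(a-x) + (a-x)ᵀ M(x,a) (a-x)` for a symmetric polynomial matrix `M`. -/
theorem exists_quad (f : MvPolynomial σ ℝ) :
    ∃ M : σ → σ → Ker σ, (∀ i j, M i j = M j i) ∧ ∀ x a : σ → ℝ,
      eval a f = eval x f + der f x (a - x)
        + ∑ i, ∑ j, ev (M i j) x a * (a i - x i) * (a j - x j) := by
  classical
  induction f using MvPolynomial.induction_on with
  | C c => exact ⟨fun _ _ => 0, fun _ _ => rfl, fun x a => by simp [der]⟩
  | add f g hf hg =>
    obtain ⟨M, hM, hf⟩ := hf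
    obtain ⟨N, hN, hg⟩ := hg
    refine ⟨fun i j => M i j + N i j, fun i j => by simp only [hM i j, hN i j], fun x a => ?_⟩
    simp only [map_add, hf x a, hg x a, der, ev_add, add_mul, Finset.sum_add_distrib]
    ring
  | mul_X g k hg =>
    obtain ⟨M, hM, hg⟩ := hg
    refine ⟨fun i j => X (Sum.inr k) * M i j +
        C (1 / 2) * ((if j = k then rename Sum.inl (pderiv i g) else 0) +
          (if i = k then rename Sum.inl (pderiv j g) else 0)), fun i j => ?_, fun x a => ?_⟩
    · simp only
      rw [hM i j, add_comm (if j = k then _ else _)]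
    have h1 : ∑ i, ∑ j, ev (X (Sum.inr k) * M i j +
        C (1 / 2) * ((if j = k then rename Sum.inl (pderiv i g) else 0) +
          (if i = k then rename Sum.inl (pderiv j g) else 0))) x a * (a i - x i) * (a j - x j) =
        a k * (∑ i, ∑ j, ev (M i j) x a * (a i - x i) * (a j - x j)) +
          der g x (a - x) * (a k - x k) := by
      have e : ∀ i j, ev (X (Sum.inr k) * M i j +
          C (1 / 2) * ((if j = k then rename Sum.inl (pderiv i g) else 0) +
            (if i = k then rename Sum.inl (pderiv j g) else 0))) x a * (a i - x i) * (a j - x j) =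
          a k * (ev (M i j) x a * (a i - x i) * (a j - x j)) +
          (if j = k then 1 / 2 * (eval x (pderiv i g) * (a i - x i)) * (a k - x k) else 0) +
          (if i = k then 1 / 2 * (eval x (pderiv j g) * (a j - x j)) * (a k - x k) else 0) := by
        intro i j
        split_ifs with h1 h2 h2
        · subst h1; subst h2; simp; ring
        · subst h1; simp; ring
        · subst h2; simp; ring
        · simp; ring
      simp only [e, Finset.sum_add_distrib, ← Finset.mul_sum, Finset.sum_ite_eq',
        Finset.mem_univ, if_true]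
      rw [Finset.sum_comm (f := fun i j => if i = k then _ else _)]
      simp only [Finset.sum_ite_eq', Finset.mem_univ, if_true, der, Pi.sub_apply, Finset.sum_mul]
      rw [add_assoc, ← Finset.sum_add_distrib]
      congr 1
      exact Finset.sum_congr rfl fun i _ => by ring
    have h2 : der (g * X k) x (a - x) = x k * der g x (a - x) + eval x g * (a k - x k) := by
      simp only [der, Derivation.leibniz, pderiv_X, smul_eq_mul, map_add, map_mul, eval_X,
        Pi.single_apply, apply_ite (eval x), map_zero, add_mul, Finset.sum_add_distrib,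
        mul_ite, ite_mul, mul_one, mul_zero, zero_mul, Finset.sum_ite_eq,
        Finset.mem_univ, if_true, Finset.mul_sum, Pi.sub_apply, mul_assoc]
      ring
    rw [h1, h2, map_mul, map_mul, eval_X, eval_X, hg x a]
    ring

end Vale.Agent.P256.Gen
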