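import Mathlib

/-!
Real rooted polynomials in one variable.
-/

namespace Vale.Agent.P256.Gen

open Polynomial Filter Topology

theorem splits_of_im_zero {f : ℝ[X]} (h : ∀ z : ℂ, aeval z f = 0 → z.im = 0) : Splits f := by
  induction hd : f.natDegree using Nat.strong_induction_on generalizing f with
  | _ k ih =>
    rcases Nat.eq_zero_or_pos k with hk | hk
    · exact Splits.of_natDegree_eq_zero (by omega)
    have hdeg : (f.map (algebraMap ℝ ℂ)).degree ≠ 0 := by
      rw [degree_map, degree_eq_natDegree (fun h0 => by simp [h0] at hd; omega)]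
      exact_mod_cast (show f.natDegree ≠ 0 by omega)
    obtain ⟨z, hz⟩ := IsAlgClosed.exists_root _ hdeg
    have hz' : aeval z f = 0 := by
      rw [IsRoot.def, eval_map] at hz
      rwa [aeval_def]
    have hzr : z = (z.re : ℂ) := Complex.ext (by simp) (by simp [h z hz'])
    have hroot : f.IsRoot z.re := by
      rw [hzr] at hz'
      have : aeval (algebraMap ℝ ℂ z.re) f = 0 := hz'
      rw [aeval_algebraMap_apply] at this
      exact (map_eq_zero (algebraMap ℝ ℂ)).1 (by simpa using this)
    obtain ⟨g, hg⟩ := dvd_iff_isRoot.2 hroot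
    have hg0 : g ≠ 0 := fun h0 => by simp [hg, h0] at hd; omega
    have hlt : g.natDegree < k := by
      rw [hg, natDegree_mul (X_sub_C_ne_zero _) hg0, natDegree_X_sub_C] at hd
      omega
    rw [hg]
    refine Splits.mul ?_ (ih _ hlt (fun w hw => h w (by simp [hg, hw])) rfl)
    rw [sub_eq_add_neg, ← map_neg]
    exact Splits.X_add_C _

theorem im_zero_of_splits {f : ℝ[X]} (hf : Splits f) (h0 : f ≠ 0) {z : ℂ}
    (hz : aeval z f = 0) : z.im = 0 := by
  induction hf using Submonoid.closure_induction generalizing z with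
  | mem g hg =>
    rcases hg with ⟨a, rfl⟩ | ⟨a, rfl⟩
    · simp only [aeval_C] at hz
      exact absurd (by simpa using hz) (show a ≠ 0 from fun h => h0 (by simp [h]))
    · simp only [map_add, aeval_X, aeval_C] at hz
      have := congrArg Complex.im hz
      simpa using this
  | one => simp at hz
  | mul f g _ _ ihf ihg =>
    rw [mul_ne_zero_iff] at h0
    rw [map_mul, mul_eq_zero] at hz
    exact hz.elim (ihf h0.1) (ihg h0.2)

theorem splits_derivative {f : ℝ[X]} (hf : Splits f) : Splits (derivative f) := by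
  rw [splits_iff_card_roots] at hf ⊢
  have h1 := card_roots_le_derivative f
  have h2 := natDegree_derivative_le f
  have h3 := card_roots' (derivative f)
  omega

theorem splits_iterate_derivative {f : ℝ[X]} (hf : Splits f) :
    ∀ k : ℕ, Splits (derivative^[k] f)
  | 0 => hf
  | k + 1 => by
    rw [Function.iterate_succ_apply']
    exact splits_derivative (splits_iterate_derivative hf k)

/-- Bounds on the coefficients of a product of linear forms with constant term one. -/
theorem coeff_prod_le (u : Multiset ℝ) (j : ℕ) :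
    |((u.map fun t => (1 : ℝ[X]) + C t * X).prod).coeff j| ≤ (u.map fun t => 1 + |t|).prod := by
  induction u using Multiset.induction_on generalizing j with
  | empty =>
    rcases j with _ | j <;> simp [coeff_one]
  | cons t u ih =>
    have hnn : 0 ≤ (u.map fun t => 1 + |t|).prod := (abs_nonneg _).trans (ih 0)
    rw [Multiset.map_cons, Multiset.prod_cons, Multiset.map_cons, Multiset.prod_cons, add_mul,
      one_mul, coeff_add, mul_assoc, coeff_C_mul, add_mul, one_mul]
    refine (abs_add_le _ _).trans (add_le_add (ih j) ?_)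
    rw [abs_mul]
    refine mul_le_mul_of_nonneg_left ?_ (abs_nonneg t)
    rcases j with _ | j
    · simpa using hnn
    · rw [coeff_X_mul]; exact ih j

/-- Splitting with nonzero value at zero: constant times factors `1 + t X`. -/
theorem exists_factors {f : ℝ[X]} (hf : Splits f) (h0 : f.coeff 0 ≠ 0) :
    ∃ u : Multiset ℝ, Multiset.card u ≤ f.natDegree ∧
      f = C (f.coeff 0) * (u.map fun t => (1 : ℝ[X]) + C t * X).prod := by
  induction hf using Submonoid.closure_induction with
  | mem g hg =>
    rcases hg with ⟨a, rfl⟩ | ⟨a, rfl⟩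
    · exact ⟨0, by simp, by simp⟩
    · have ha : a ≠ 0 := by simpa using h0
      refine ⟨{a⁻¹}, by simp, ?_⟩
      simp only [coeff_add, coeff_X_zero, coeff_C_zero, zero_add, Multiset.map_singleton,
        Multiset.prod_singleton, mul_add, mul_one, ← mul_assoc, ← C_mul, mul_inv_cancel₀ ha]
      simp [add_comm]
  | one => exact ⟨0, by simp, by simp⟩
  | mul f g _ _ ihf ihg =>
    rw [mul_coeff_zero, mul_ne_zero_iff] at h0
    obtain ⟨u, hu, ef⟩ := ihf h0.1
    obtain ⟨w, hw, eg⟩ := ihg h0.2
    refine ⟨u + w, ?_, ?_⟩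
    · rw [Multiset.card_add, natDegree_mul (fun h => h0.1 (by simp [h])) (fun h => h0.2 (by simp [h]))]
      omega
    · rw [mul_coeff_zero, C_mul, Multiset.map_add, Multiset.prod_add]
      conv_lhs => rw [ef, eg]
      ring

theorem coeff_one_two (u : Multiset ℝ) :
    ((u.map fun t => (1 : ℝ[X]) + C t * X).prod).coeff 0 = 1 ∧
    ((u.map fun t => (1 : ℝ[X]) + C t * X).prod).coeff 1 = u.sum ∧
    2 * ((u.map fun t => (1 : ℝ[X]) + C t * X).prod).coeff 2 =
      u.sum ^ 2 - (u.map fun t => t ^ 2).sum := by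
  induction u using Multiset.induction_on with
  | empty => simp [coeff_one]
  | cons t u ih =>
    obtain ⟨h0, h1, h2⟩ := ih
    simp only [Multiset.map_cons, Multiset.prod_cons, Multiset.sum_cons, add_mul, one_mul,
      coeff_add, mul_assoc, coeff_C_mul, coeff_X_mul_zero]
    rw [coeff_X_mul _ 0, coeff_X_mul _ 1, h0, h1]
    refine ⟨by ring, by ring, ?_⟩
    linear_combination h2

/-- Real rooted polynomials whose first two coefficients are controlled by a vanishing constant
term tend to zero. -/
theorem limit_zero {d : ℕ} {f : ℕ → ℝ[X]} (hf : ∀ k, Splits (f k)) (hd : ∀ k, (f k).natDegree ≤ d)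
    (h0 : ∀ k, (f k).coeff 0 ≠ 0) {C₀ : ℝ} (h1 : ∀ k, |(f k).coeff 1| ≤ C₀ * |(f k).coeff 0|)
    (h2 : ∀ k, |(f k).coeff 2| ≤ C₀ * |(f k).coeff 0|)
    (hlim : Tendsto (fun k => (f k).coeff 0) atTop (𝓝 0)) (j : ℕ) :
    Tendsto (fun k => (f k).coeff j) atTop (𝓝 0) := by
  set B := C₀ ^ 2 + 2 * C₀ + 2 with hB
  have hC : 0 ≤ C₀ := nonneg_of_mul_nonneg_left ((abs_nonneg _).trans (h1 0)) (abs_pos.2 (h0 0))
  refine squeeze_zero_norm (fun k => ?_)
    (show Tendsto (fun k => |(f k).coeff 0| * B ^ d) atTop (𝓝 0) by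
      simpa using (hlim.abs).mul_const (B ^ d))
  obtain ⟨u, hu, e⟩ := exists_factors (hf k) (h0 k)
  obtain ⟨-, e1, e2⟩ := coeff_one_two u
  set c := (f k).coeff 0 with hc
  have hcp : 0 < |c| := abs_pos.2 (h0 k)
  have c1 : (f k).coeff 1 = c * u.sum := by rw [e, coeff_C_mul, e1]
  have c2 : (f k).coeff 2 = c * ((u.map fun t => (1 : ℝ[X]) + C t * X).prod).coeff 2 := by
    rw [e, coeff_C_mul]
  have k1 := h1 k
  have k2 := h2 k
  rw [c1, abs_mul, ← hc, mul_comm C₀] at k1
  rw [c2, abs_mul, ← hc, mul_comm C₀] at k2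
  have s1 := le_of_mul_le_mul_left k1 hcp
  have s2 := abs_le.1 (le_of_mul_le_mul_left k2 hcp)
  have s3 : u.sum ^ 2 ≤ C₀ ^ 2 := sq_le_sq' (abs_le.1 s1).1 (abs_le.1 s1).2
  have hsq : (u.map fun t => t ^ 2).sum ≤ C₀ ^ 2 + 2 * C₀ := by linarith [s2.1]
  have ht : ∀ t ∈ u, 1 + |t| ≤ B := by
    intro t ht
    have : t ^ 2 ≤ (u.map fun t => t ^ 2).sum :=
      Multiset.single_le_sum (fun x hx => by
        obtain ⟨y, _, rfl⟩ := Multiset.mem_map.1 hx
        exact sq_nonneg y) _ (Multiset.mem_map_of_mem _ ht)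
    nlinarith [sq_abs t, sq_nonneg (|t| - 1)]
  have hB1 : 1 ≤ B := by rw [hB]; nlinarith
  rw [Real.norm_eq_abs, e, coeff_C_mul, abs_mul]
  refine mul_le_mul_of_nonneg_left ((coeff_prod_le u j).trans ?_) (abs_nonneg _)
  have hk : Multiset.card u ≤ d := hu.trans (hd k)
  refine le_trans ?_ (pow_le_pow_right₀ hB1 hk)
  clear e e1 e2 c1 c2 k1 k2 s1 s2 s3 hsq hu hk
  induction u using Multiset.induction_on with
  | empty => simp
  | cons t u ih =>
    rw [Multiset.map_cons, Multiset.prod_cons, Multiset.card_cons, pow_succ']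
    have hp : 0 ≤ (u.map fun t => 1 + |t|).prod := (abs_nonneg _).trans (coeff_prod_le u 0)
    exact mul_le_mul (ht t (Multiset.mem_cons_self _ _))
      (ih fun s hs => ht s (Multiset.mem_cons_of_mem hs)) hp (zero_le_one.trans hB1)

/-- All coefficients are nonnegative when the leading one is and no root is positive. -/
theorem coeff_nonneg {f : ℝ[X]} (hf : Splits f) (hl : 0 ≤ f.leadingCoeff)
    (hr : ∀ r ∈ f.roots, r ≤ 0) (j : ℕ) : 0 ≤ f.coeff j := by
  rw [hf.eq_prod_roots, coeff_C_mul]
  refine mul_nonneg hl ?_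
  generalize f.roots = u at hr
  induction u using Multiset.induction_on generalizing j with
  | empty => rcases j with _ | j <;> simp [coeff_one]
  | cons t u ih =>
    have ht := hr t (Multiset.mem_cons_self _ _)
    have hu : ∀ i, 0 ≤ ((u.map fun a => X - C a).prod).coeff i := fun i =>
      ih i fun r h => hr r (Multiset.mem_cons_of_mem h)
    rw [Multiset.map_cons, Multiset.prod_cons, sub_mul, coeff_sub, coeff_C_mul]
    have := mul_nonpos_of_nonpos_of_nonneg ht (hu j)
    rcases j with _ | j
    · rw [coeff_X_mul_zero]; linarith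
    · rw [coeff_X_mul]; linarith [hu j]

/-- Lower bound to the right of all roots. -/
theorem eval_ge {f : ℝ[X]} (hf : Splits f) (hl : 0 ≤ f.leadingCoeff)
    (hr : ∀ r ∈ f.roots, r ≤ 0) {s : ℝ} (hs : 0 ≤ s) :
    f.leadingCoeff * s ^ f.natDegree ≤ f.eval s := by
  rw [hf.eval_eq_prod_roots, hf.natDegree_eq_card_roots]
  refine mul_le_mul_of_nonneg_left ?_ hl
  generalize f.roots = u at hr
  induction u using Multiset.induction_on with
  | empty => simp
  | cons t u ih =>
    rw [Multiset.card_cons, Multiset.map_cons, Multiset.prod_cons, pow_succ']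
    have ht := hr t (Multiset.mem_cons_self _ _)
    exact mul_le_mul (by linarith) (ih fun r h => hr r (Multiset.mem_cons_of_mem h))
      (pow_nonneg hs _) (by linarith)

end Vale.Agent.P256.Gen
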