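import Vale.Agent.P256.Gen.Line
import Vale.Agent.P256.Gen.Univ
import Vale.Agent.P256.Defs

/-!
Hyperbolic polynomials of any degree: roots, cone, Gårding's theorem, signs of coefficients.
-/

namespace Vale.Agent.P256.Gen

open MvPolynomial Filter Topology
open scoped BigOperators Polynomial

set_option linter.unusedSectionVars false

/-- A hyperbolic homogeneous polynomial. -/
structure Hyp (n : ℕ) where
  p : MvPolynomial (Fin n) ℝ
  e : Fin n → ℝ
  d : ℕ
  hom : p.IsHomogeneous d
  hp : IsHyperbolic p e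

namespace Hyp

variable {n : ℕ} (H : Hyp n)

lemma pe_pos : 0 < eval H.e H.p := H.hp.1

lemma smul_eval (t : ℝ) (x : Fin n → ℝ) : eval (t • x) H.p = t ^ H.d * eval x H.p := by
  have := aeval_smul_of_homogeneous H.hom t x
  simp only [aeval_eq_eval] at this
  exact this

lemma natDegree_line (x v : Fin n → ℝ) : (line H.p x v).natDegree ≤ H.d :=
  natDegree_lineS H.hom _ _

lemma coeff_top (x v : Fin n → ℝ) : (line H.p x v).coeff H.d = eval v H.p := by
  rw [line, coeff_lineS_top H.hom, aeval_eq_eval]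

lemma natDegree_eq {v : Fin n → ℝ} (hv : eval v H.p ≠ 0) (x : Fin n → ℝ) :
    (line H.p x v).natDegree = H.d :=
  le_antisymm (H.natDegree_line x v)
    (Polynomial.le_natDegree_of_ne_zero (by rw [H.coeff_top]; exact hv))

lemma leadingCoeff_eq {v : Fin n → ℝ} (hv : eval v H.p ≠ 0) (x : Fin n → ℝ) :
    (line H.p x v).leadingCoeff = eval v H.p := by
  rw [Polynomial.leadingCoeff, H.natDegree_eq hv, H.coeff_top]

lemma line_ne_zero {v : Fin n → ℝ} (hv : eval v H.p ≠ 0) (x : Fin n → ℝ) :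
    line H.p x v ≠ 0 := fun h => hv (by rw [← H.coeff_top x v, h, Polynomial.coeff_zero])

lemma splits_e (x : Fin n → ℝ) : Polynomial.Splits (line H.p x H.e) := by
  refine splits_of_im_zero fun z hz => ?_
  rw [aeval_line] at hz
  refine H.hp.2 (-x) z ?_
  rw [← hz]
  congr 2
  ext i
  simp [add_comm]

/-- The closed cone. -/
def K : Set (Fin n → ℝ) := {x | ∀ s : ℝ, 0 < s → eval (x + s • H.e) H.p ≠ 0}

/-- The open cone. -/
def core : Set (Fin n → ℝ) := {x | ∀ s : ℝ, 0 ≤ s → eval (x + s • H.e) H.p ≠ 0}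

lemma hypCone_eq : hypCone H.p H.e = H.K := by
  ext x
  have key : ∀ t : ℝ, eval (t • H.e - x) H.p = (-1) ^ H.d * eval (x + (-t) • H.e) H.p := by
    intro t
    rw [← H.smul_eval]
    congr 2
    module
  constructor
  · intro h s hs h0
    have := h (-s) (by rw [key, neg_neg, h0, mul_zero])
    linarith
  · intro h t ht
    by_contra hneg
    rw [key, mul_eq_zero] at ht
    exact h (-t) (by linarith [not_le.1 hneg]) (ht.resolve_left (pow_ne_zero _ (by norm_num)))

lemma core_subset : H.core ⊆ H.K := fun _ hx s hs => hx s hs.le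

lemma roots_nonpos {x : Fin n → ℝ} (hx : x ∈ H.K) : ∀ r ∈ (line H.p x H.e).roots, r ≤ 0 := by
  intro r hr
  by_contra hpos
  rw [Polynomial.mem_roots', Polynomial.IsRoot.def, eval_line] at hr
  exact hx r (not_le.1 hpos) hr.2

lemma K_lower {x : Fin n → ℝ} (hx : x ∈ H.K) {s : ℝ} (hs : 0 ≤ s) :
    eval H.e H.p * s ^ H.d ≤ eval (x + s • H.e) H.p := by
  have h := eval_ge (H.splits_e x) (by rw [H.leadingCoeff_eq H.pe_pos.ne']; exact H.pe_pos.le)
    (H.roots_nonpos hx) hs
  rwa [H.natDegree_eq H.pe_pos.ne', H.leadingCoeff_eq H.pe_pos.ne', eval_line] at h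

lemma K_iff {x : Fin n → ℝ} :
    x ∈ H.K ↔ ∀ s : ℝ, 0 < s → eval H.e H.p * s ^ H.d ≤ eval (x + s • H.e) H.p := by
  refine ⟨fun hx s hs => H.K_lower hx hs.le, fun h s hs h0 => ?_⟩
  have := h s hs
  rw [h0] at this
  have := mul_pos H.pe_pos (pow_pos hs H.d)
  linarith

lemma continuous_line (x v : Fin n → ℝ) : Continuous fun t : ℝ => eval (x + t • v) H.p :=
  (MvPolynomial.continuous_eval _).comp (by fun_prop)

lemma continuous_p : Continuous fun x : Fin n → ℝ => eval x H.p := MvPolynomial.continuous_eval _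

lemma isClosed_K : IsClosed H.K := by
  have : H.K = ⋂ (s : ℝ) (_ : 0 < s),
      {x | eval H.e H.p * s ^ H.d ≤ eval (x + s • H.e) H.p} := by
    ext x; simp only [Set.mem_iInter]; exact H.K_iff
  rw [this]
  exact isClosed_iInter fun s => isClosed_iInter fun _ =>
    isClosed_le continuous_const (H.continuous_p.comp (by fun_prop))

lemma K_nonneg {x : Fin n → ℝ} (hx : x ∈ H.K) : 0 ≤ eval x H.p := by
  have := H.K_lower hx le_rfl
  rcases Nat.eq_zero_or_pos H.d with h | h
  · rw [h, pow_zero, mul_one, zero_smul, add_zero] at this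
    exact H.pe_pos.le.trans this
  · rwa [zero_pow h.ne', mul_zero, zero_smul, add_zero] at this

lemma core_iff {x : Fin n → ℝ} : x ∈ H.core ↔ x ∈ H.K ∧ eval x H.p ≠ 0 := by
  refine ⟨fun h => ⟨H.core_subset h, by simpa using h 0 le_rfl⟩, fun ⟨h, h0⟩ s hs => ?_⟩
  rcases hs.eq_or_lt with h1 | h1
  · subst h1; simpa using h0
  · exact h s h1

lemma core_pos {x : Fin n → ℝ} (hx : x ∈ H.core) : 0 < eval x H.p :=
  lt_of_le_of_ne (H.K_nonneg (H.core_subset hx)) (H.core_iff.1 hx).2.symm

lemma shift_core {x : Fin n → ℝ} (hx : x ∈ H.K) {t : ℝ} (ht : 0 < t) : x + t • H.e ∈ H.core :=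
  fun s hs => by rw [add_assoc, ← add_smul]; exact hx _ (by linarith)

lemma isOpen_core : IsOpen H.core := by
  rw [isOpen_iff_eventually]
  intro x hx
  have hlarge : ∀ᶠ q : (Fin n → ℝ) × ℝ in 𝓝 (x, 0), eval (H.e + q.2 • q.1) H.p ≠ 0 := by
    have hc : ContinuousAt (fun q : (Fin n → ℝ) × ℝ => eval (H.e + q.2 • q.1) H.p) (x, 0) :=
      (H.continuous_p.comp (by fun_prop)).continuousAt
    exact hc.eventually_ne (by simpa using H.pe_pos.ne')
  rw [nhds_prod_eq, eventually_prod_iff] at hlarge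
  obtain ⟨P, hP, Q, hQ, hPQ⟩ := hlarge
  obtain ⟨δ, hδ, hball⟩ := Metric.eventually_nhds_iff.1 hQ
  have hsmall : ∀ᶠ y in 𝓝 x, ∀ s ∈ Set.Icc (0 : ℝ) (2 / δ), eval (y + s • H.e) H.p ≠ 0 := by
    refine isCompact_Icc.eventually_forall_of_forall_eventually fun s hs => ?_
    exact ((H.continuous_p.comp
      (by fun_prop : Continuous fun q : (Fin n → ℝ) × ℝ => q.1 + q.2 • H.e)).continuousAt).eventually_ne
        (hx s hs.1)
  filter_upwards [hsmall, hP] with y hy hyP s hs
  rcases le_or_gt s (2 / δ) with h | h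
  · exact hy s ⟨hs, h⟩
  · have hs0 : 0 < s := lt_trans (by positivity) h
    have e : y + s • H.e = s • (H.e + s⁻¹ • y) := by
      rw [smul_add, smul_smul, mul_inv_cancel₀ hs0.ne', one_smul, add_comm]
    rw [e, H.smul_eval]
    refine mul_ne_zero (pow_ne_zero _ hs0.ne') (hPQ hyP (hball ?_))
    rw [dist_zero_right, Real.norm_eq_abs, abs_of_pos (inv_pos.2 hs0),
      inv_lt_comm₀ hs0 hδ]
    calc δ⁻¹ < 2 / δ := by rw [div_eq_mul_inv]; linarith [inv_pos.2 hδ]
      _ < s := h

lemma smul_mem_core {x : Fin n → ℝ} (hx : x ∈ H.core) {t : ℝ} (ht : 0 < t) : t • x ∈ H.core := by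
  intro s hs
  have e : t • x + s • H.e = t • (x + (s / t) • H.e) := by
    rw [smul_add, smul_smul, mul_div_cancel₀ _ ht.ne']
  rw [e, H.smul_eval]
  exact mul_ne_zero (pow_ne_zero _ ht.ne') (hx _ (div_nonneg hs ht.le))

lemma smul_mem {x : Fin n → ℝ} (hx : x ∈ H.K) {t : ℝ} (ht : 0 < t) : t • x ∈ H.K := by
  intro s hs
  have e : t • x + s • H.e = t • (x + (s / t) • H.e) := by
    rw [smul_add, smul_smul, mul_div_cancel₀ _ ht.ne']
  rw [e, H.smul_eval]
  exact mul_ne_zero (pow_ne_zero _ ht.ne') (hx _ (div_pos hs ht))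

lemma zero_mem : (0 : Fin n → ℝ) ∈ H.K := fun s hs => by
  rw [zero_add, H.smul_eval]
  exact mul_ne_zero (pow_ne_zero _ hs.ne') H.pe_pos.ne'

lemma e_mem_core : H.e ∈ H.core := fun s hs => by
  rw [show H.e + s • H.e = (1 + s) • H.e by module, H.smul_eval]
  exact mul_ne_zero (pow_ne_zero _ (by linarith)) H.pe_pos.ne'

lemma seg_core {c : Fin n → ℝ} (hc : c ∈ H.core) {s : ℝ} (hs : s ∈ Set.Icc (0 : ℝ) 1) :
    (1 - s) • H.e + s • c ∈ H.core := by
  rcases hs.1.eq_or_lt with h | h
  · subst h; simpa using H.e_mem_core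
  · have e : (1 - s) • H.e + s • c = s • (c + ((1 - s) / s) • H.e) := by
      rw [smul_add, smul_smul, mul_div_cancel₀ _ h.ne', add_comm]
    rw [e]
    refine H.smul_mem_core ?_ h
    intro t ht
    rw [add_assoc, ← add_smul]
    exact hc _ (add_nonneg (div_nonneg (by linarith [hs.2]) h.le) ht)

lemma isPreconnected_core : IsPreconnected H.core := by
  have h : StarConvex ℝ H.e H.core := fun y hy a b ha hb hab => by
    have := H.seg_core hy (s := b) ⟨hb, by linarith⟩
    rwa [show 1 - b = a by linarith] at this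
  exact (h.isPathConnected H.e_mem_core).isConnected.isPreconnected

/-- Complexification of a real vector. -/
def cx (x : Fin n → ℝ) : Fin n → ℂ := fun i => (x i : ℂ)

lemma aeval_cx (x : Fin n → ℝ) : aeval (cx x) H.p = ((eval x H.p : ℝ) : ℂ) := by
  have h := aeval_line H.p x (0 : Fin n → ℝ) 0
  have e : (fun i => (x i : ℂ) + 0 * ((0 : Fin n → ℝ) i : ℂ)) = cx x := by ext i; simp [cx]
  rw [e] at h
  rw [← h, show (0 : ℂ) = algebraMap ℝ ℂ 0 by simp, Polynomial.aeval_algebraMap_apply,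
    Polynomial.coe_aeval_eq_eval, eval_line]
  simp

/-- The perturbed polynomial in the homotopy variable. -/
noncomputable def G (y c : Fin n → ℝ) (α : ℝ) (z : ℂ) : ℂ :=
  aeval (fun i => (y i : ℂ) + Complex.I * α * (H.e i : ℂ) + z * (c i : ℂ)) H.p

lemma G_real_ne (y c : Fin n → ℝ) {α : ℝ} (hα : α ≠ 0) (τ : ℝ) : H.G y c α τ ≠ 0 := by
  intro h
  apply hα
  have := H.hp.2 (-(y + τ • c)) (Complex.I * α) (by
    rw [← h, G]
    congr 2
    ext i
    simp
    ring)
  simpa using this

lemma continuous_G {X : Type*} [TopologicalSpace X] {c : X → Fin n → ℝ} {α : X → ℝ} {z : X → ℂ}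
    (y : Fin n → ℝ) (hc : Continuous c) (hα : Continuous α) (hz : Continuous z) :
    Continuous fun q => H.G y (c q) (α q) (z q) := by
  unfold G
  induction H.p using MvPolynomial.induction_on with
  | C r => simpa using continuous_const
  | add a b ha hb => simp only [map_add]; exact ha.add hb
  | mul_X a k ha => simp only [map_mul, aeval_X]; fun_prop

lemma G_large {seg : ℝ → Fin n → ℝ} (hsc : Continuous seg)
    (hpos : ∀ s ∈ Set.Icc (0 : ℝ) 1, 0 < eval (seg s) H.p) (y : Fin n → ℝ) (α : ℝ) :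
    ∃ R : ℝ, ∀ s ∈ Set.Icc (0 : ℝ) 1, ∀ z : ℂ, R < ‖z‖ → H.G y (seg s) α z ≠ 0 := by
  set u : Fin n → ℂ := fun i => (y i : ℂ) + Complex.I * α * (H.e i : ℂ) with hu
  have hΦc : Continuous fun q : ℂ × ℝ =>
      aeval (fun i => q.1 * u i + (seg q.2 i : ℂ)) H.p := by
    induction H.p using MvPolynomial.induction_on with
    | C r => simpa using continuous_const
    | add a b ha hb => simp only [map_add]; exact ha.add hb
    | mul_X a k ha => simp only [map_mul, aeval_X]; fun_prop
  have h := isCompact_Icc.eventually_forall_of_forall_eventually (x₀ := (0 : ℂ))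
    (P := fun w s => aeval (fun i => w * u i + (seg s i : ℂ)) H.p ≠ 0)
    (K := Set.Icc (0 : ℝ) 1) fun s hs => by
      refine hΦc.continuousAt.eventually_ne ?_
      have e : (fun i => ((0 : ℂ), s).1 * u i + (seg ((0 : ℂ), s).2 i : ℂ)) = cx (seg s) := by
        ext i; simp [cx]
      rw [e, H.aeval_cx]
      exact_mod_cast (hpos s hs).ne'
  obtain ⟨δ, hδ, hδ'⟩ := Metric.eventually_nhds_iff.1 h
  refine ⟨δ⁻¹, fun s hs z hz h0 => ?_⟩
  have hz0 : z ≠ 0 := fun h => by
    rw [h, norm_zero] at hz; linarith [inv_pos.2 hδ]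
  refine hδ' (y := z⁻¹) ?_ s hs ?_
  · rw [dist_zero_right, norm_inv]
    exact inv_lt_of_inv_lt₀ hδ hz
  · have e := aeval_smul_of_homogeneous H.hom (z⁻¹) (fun i => u i + z * (seg s i : ℂ))
    rw [G] at h0
    rw [show aeval (fun i => u i + z * (seg s i : ℂ)) H.p = 0 from h0, mul_zero] at e
    have e2 : (fun i => z⁻¹ * (u i + z * (seg s i : ℂ))) = fun i => z⁻¹ * u i + (seg s i : ℂ) := by
      ext i
      rw [mul_add, inv_mul_cancel_left₀ hz0]
    rw [e2] at e
    exact e

lemma G_lower_bound {y c : Fin n → ℝ} (hc : 0 < eval c H.p) {α : ℝ}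
    (hroot : ∀ z : ℂ, H.G y c α z = 0 → z.im ≤ 0) {z : ℂ} (hz : 0 < z.im) :
    eval c H.p * z.im ^ H.d ≤ ‖H.G y c α z‖ := by
  set g : ℂ[X] := lineS H.p (fun i => (y i : ℂ) + Complex.I * α * (H.e i : ℂ)) (cx c) with hg
  have hev : ∀ w, g.eval w = H.G y c α w := fun w => by rw [hg, eval_lineS]; rfl
  have htop : g.coeff H.d = ((eval c H.p : ℝ) : ℂ) := by
    rw [hg, coeff_lineS_top H.hom, H.aeval_cx]
  have hne : g.coeff H.d ≠ 0 := by rw [htop]; exact_mod_cast hc.ne'
  have hdeg : g.natDegree = H.d :=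
    le_antisymm (natDegree_lineS H.hom _ _) (Polynomial.le_natDegree_of_ne_zero hne)
  have hlead : g.leadingCoeff = ((eval c H.p : ℝ) : ℂ) := by
    rw [Polynomial.leadingCoeff, hdeg, htop]
  have hsp := IsAlgClosed.splits g
  have hd := hsp.natDegree_eq_card_roots
  rw [hdeg] at hd
  rw [← hev, hsp.eval_eq_prod_roots, hlead, norm_mul, Complex.norm_real, Real.norm_eq_abs,
    abs_of_pos hc, hd]
  refine mul_le_mul_of_nonneg_left ?_ hc.le
  have hr : ∀ r ∈ g.roots, r.im ≤ 0 := fun r hr => by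
    rw [Polynomial.mem_roots', Polynomial.IsRoot.def, hev] at hr
    exact hroot r hr.2
  generalize g.roots = u at hr
  induction u using Multiset.induction_on with
  | empty => simp
  | cons t u ih =>
    rw [Multiset.card_cons, Multiset.map_cons, Multiset.prod_cons, norm_mul, pow_succ']
    refine mul_le_mul ?_ (ih fun r h => hr r (Multiset.mem_cons_of_mem h))
      (pow_nonneg hz.le _) (norm_nonneg _)
    refine le_trans ?_ ((le_abs_self _).trans (Complex.abs_im_le_norm _))
    have := hr t (Multiset.mem_cons_self _ _)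
    simp
    linarith

lemma G_lower (y : Fin n → ℝ) {c : Fin n → ℝ} (hc : c ∈ H.core) {α : ℝ} (hα : 0 < α) :
    ∀ z : ℂ, H.G y c α z = 0 → z.im < 0 := by
  set seg : ℝ → Fin n → ℝ := fun s => (1 - s) • H.e + s • c with hseg
  have hsc : Continuous seg := by fun_prop
  have hpos : ∀ s ∈ Set.Icc (0 : ℝ) 1, 0 < eval (seg s) H.p :=
    fun s hs => H.core_pos (H.seg_core hc hs)
  set good : Set ℝ := {s | s ∈ Set.Icc (0 : ℝ) 1 ∧
    ∀ z : ℂ, H.G y (seg s) α z = 0 → z.im < 0} with hgood
  set bad : Set ℝ := {s | s ∈ Set.Icc (0 : ℝ) 1 ∧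
    ∃ z : ℂ, H.G y (seg s) α z = 0 ∧ 0 ≤ z.im} with hbad
  have good_eq : good = Set.Icc (0 : ℝ) 1 ∩ ⋂ (z : ℂ) (_ : 0 < z.im),
      {s | eval (seg s) H.p * z.im ^ H.d ≤ ‖H.G y (seg s) α z‖} := by
    ext s
    simp only [hgood, Set.mem_inter_iff, Set.mem_iInter, Set.mem_ofPred_eq]
    constructor
    · rintro ⟨hs, h⟩
      exact ⟨hs, fun z hz => H.G_lower_bound (hpos s hs) (fun w hw => (h w hw).le) hz⟩
    · rintro ⟨hs, h⟩
      refine ⟨hs, fun z hz => ?_⟩
      by_contra hc'
      rcases eq_or_lt_of_le (not_lt.1 hc') with h0 | h0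
      · exact H.G_real_ne y _ hα.ne' z.re (by
          rw [show (z.re : ℂ) = z from Complex.ext (by simp) (by simp [← h0]), hz])
      · have := h z h0
        rw [hz, norm_zero] at this
        nlinarith [mul_pos (hpos s hs) (pow_pos h0 H.d)]
  have good_closed : IsClosed good := by
    rw [good_eq]
    refine isClosed_Icc.inter (isClosed_iInter fun z => isClosed_iInter fun _ => isClosed_le ?_ ?_)
    · exact ((H.continuous_p.comp hsc)).mul continuous_const
    · exact (H.continuous_G y hsc continuous_const continuous_const).norm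
  obtain ⟨R, hR⟩ := H.G_large hsc hpos y α
  have bad_closed : IsClosed bad := by
    set T : Set (ℝ × ℂ) := (Set.Icc (0 : ℝ) 1 ×ˢ Metric.closedBall (0 : ℂ) R) ∩
      ({p | H.G y (seg p.1) α p.2 = 0} ∩ {p | 0 ≤ p.2.im}) with hT
    have hTc : IsCompact T := (isCompact_Icc.prod (isCompact_closedBall _ _)).inter_right
      ((isClosed_eq (H.continuous_G y (hsc.comp continuous_fst) continuous_const continuous_snd)
        continuous_const).inter (isClosed_le continuous_const (by fun_prop)))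
    have : bad = Prod.fst '' T := by
      ext s
      constructor
      · rintro ⟨hs, z, hz, hzi⟩
        refine ⟨(s, z), ⟨⟨hs, ?_⟩, hz, hzi⟩, rfl⟩
        rw [mem_closedBall_zero_iff]
        exact not_lt.1 fun hlt => hR s hs z hlt hz
      · rintro ⟨⟨s', z⟩, ⟨⟨hs, _⟩, hz, hzi⟩, rfl⟩
        exact ⟨hs, z, hz, hzi⟩
    rw [this]
    exact (hTc.image continuous_fst).isClosed
  have h0 : (0 : ℝ) ∈ good := by
    refine ⟨by simp, fun z hz => ?_⟩
    have := H.hp.2 (-y) (z + Complex.I * α) (by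
      rw [← hz, G]
      congr 2
      ext i
      simp [hseg]
      ring)
    simp at this
    linarith
  intro z hz
  by_contra hneg
  have h1bad : (1 : ℝ) ∈ bad := ⟨by simp, z, by simpa [hseg] using hz, not_lt.1 hneg⟩
  have := isPreconnected_closed_iff.1 isPreconnected_Icc good bad good_closed bad_closed
    (fun s hs => by
      by_cases h : ∀ z : ℂ, H.G y (seg s) α z = 0 → z.im < 0
      · exact Or.inl ⟨hs, h⟩
      · push Not at h
        exact Or.inr ⟨hs, h⟩)
    ⟨0, by simp, h0⟩ ⟨1, by simp, h1bad⟩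
  obtain ⟨s, _, hg, hb, z', hz', hzi'⟩ := this
  exact absurd (hg.2 z' hz') (not_lt.2 hzi')

/-- Gårding: every interior point is a direction of hyperbolicity. -/
theorem garding (y : Fin n → ℝ) {c : Fin n → ℝ} (hc : c ∈ H.core) :
    Polynomial.Splits (line H.p y c) := by
  refine splits_of_im_zero fun z hz => ?_
  have upper : ∀ w : ℂ, H.G y c 0 w = 0 → w.im ≤ 0 := by
    intro w hw
    by_contra hpos
    push Not at hpos
    have key : ∀ α ∈ Set.Ioi (0 : ℝ), eval c H.p * w.im ^ H.d ≤ ‖H.G y c α w‖ := fun α hα =>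
      H.G_lower_bound (H.core_pos hc) (fun v hv => (H.G_lower y hc hα v hv).le) hpos
    have hlim : Tendsto (fun α : ℝ => ‖H.G y c α w‖) (𝓝[>] 0) (𝓝 ‖H.G y c 0 w‖) :=
      ((H.continuous_G y continuous_const continuous_id continuous_const).norm.tendsto 0).mono_left
        nhdsWithin_le_nhds
    have := ge_of_tendsto hlim (eventually_nhdsWithin_of_forall key)
    rw [hw, norm_zero] at this
    nlinarith [mul_pos (H.core_pos hc) (pow_pos hpos H.d)]
  have hG : ∀ w : ℂ, Polynomial.aeval w (line H.p y c) = H.G y c 0 w := fun w => by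
    rw [aeval_line, G]; congr 2; ext i; simp
  have h1 := upper z (by rw [← hG, hz])
  have h2 := upper (starRingEnd ℂ z) (by rw [← hG, Polynomial.aeval_conj, hz, map_zero])
  simp only [Complex.conj_im, neg_nonpos] at h2
  linarith

lemma core_ray {x c : Fin n → ℝ} (hx : x ∈ H.core) (hc : c ∈ H.core) :
    ∀ t : ℝ, 0 ≤ t → x + t • c ∈ H.core := by
  -- points from which every forward ray along `c` avoids the zero set
  set U : Set (Fin n → ℝ) := {z | ∀ t : ℝ, 0 ≤ t → eval (z + t • c) H.p ≠ 0} with hU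
  have hUroots : ∀ z ∈ U, ∀ r ∈ (line H.p z c).roots, r ≤ 0 := by
    intro z hz r hr
    by_contra hpos
    rw [Polynomial.mem_roots', Polynomial.IsRoot.def, eval_line] at hr
    exact hz r (not_le.1 hpos).le hr.2
  have hcp := H.core_pos hc
  have hUlow : ∀ z ∈ U, ∀ t : ℝ, 0 ≤ t → eval c H.p * t ^ H.d ≤ eval (z + t • c) H.p := by
    intro z hz t ht
    have h := eval_ge (H.garding z hc) (by rw [H.leadingCoeff_eq hcp.ne']; exact hcp.le)
      (hUroots z hz) ht
    rwa [H.natDegree_eq hcp.ne', H.leadingCoeff_eq hcp.ne', eval_line] at h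
  have hUopen : IsOpen U := by
    let H' : Hyp n := ⟨H.p, c, H.d, H.hom, hcp, fun z w hw => by
      refine im_zero_of_splits (H.garding (-z) hc) (H.line_ne_zero hcp.ne' _) ?_
      rw [aeval_line, ← hw]
      congr 2
      ext i
      simp
      ring⟩
    exact H'.isOpen_core
  have hUc : closure U ∩ H.core ⊆ U := by
    rintro z ⟨hz, hzc⟩ t ht h0
    rcases ht.eq_or_lt with h | h
    · subst h; rw [zero_smul, add_zero] at h0; exact (H.core_pos hzc).ne' h0
    have hcl : closure U ⊆ {z | eval c H.p * t ^ H.d ≤ eval (z + t • c) H.p} :=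
      closure_minimal (fun w hw => hUlow w hw t ht)
        (isClosed_le continuous_const (H.continuous_p.comp (by fun_prop)))
    have h2 : eval c H.p * t ^ H.d ≤ eval (z + t • c) H.p := hcl hz
    rw [h0] at h2
    have := mul_pos hcp (pow_pos h H.d)
    linarith
  have hcU : c ∈ U := fun t ht => by
    rw [show c + t • c = (1 + t) • c by module, H.smul_eval]
    exact mul_ne_zero (pow_ne_zero _ (by linarith)) hcp.ne'
  have hsub : H.core ⊆ U :=
    H.isPreconnected_core.subset_of_closure_inter_subset hUopen ⟨c, hc, hcU⟩ hUc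
  set ray : Set (Fin n → ℝ) := (fun t : ℝ => x + t • c) '' Set.Ici 0 with hray
  have hrc : IsPreconnected ray :=
    isPreconnected_Ici.image _ (Continuous.continuousOn (by fun_prop))
  have hrne : ∀ z ∈ ray, eval z H.p ≠ 0 := by
    rintro _ ⟨t, ht, rfl⟩
    exact hsub hx t ht
  have hrsub : ray ⊆ H.core := by
    refine hrc.subset_of_closure_inter_subset H.isOpen_core ⟨x, ⟨0, by simp, by simp⟩, hx⟩ ?_
    rintro z ⟨hz, hzr⟩
    exact H.core_iff.2 ⟨closure_minimal H.core_subset H.isClosed_K hz, hrne z hzr⟩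
  exact fun t ht => hrsub ⟨t, ht, rfl⟩

lemma mem_closure_core {x : Fin n → ℝ} (hx : x ∈ H.K) :
    Tendsto (fun k : ℕ => x + (1 / ((k : ℝ) + 1)) • H.e) atTop (𝓝 x) ∧
      ∀ k : ℕ, x + (1 / ((k : ℝ) + 1)) • H.e ∈ H.core := by
  refine ⟨?_, fun k => H.shift_core hx (by positivity)⟩
  simpa using ((tendsto_one_div_add_atTop_nhds_zero_nat (𝕜 := ℝ)).smul_const H.e).const_add x

lemma add_mem_core {x c : Fin n → ℝ} (hx : x ∈ H.K) (hc : c ∈ H.core) : x + c ∈ H.core := by
  have hev : ∀ᶠ t in 𝓝 (0 : ℝ), c - t • H.e ∈ H.core := by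
    refine (by fun_prop : Continuous fun t : ℝ => c - t • H.e).continuousAt.eventually
      (H.isOpen_core.mem_nhds ?_)
    simpa using hc
  obtain ⟨t, ht, ht0⟩ := ((hev.filter_mono nhdsWithin_le_nhds).and
    (self_mem_nhdsWithin (s := Set.Ioi (0 : ℝ)))).exists
  have h := H.core_ray (H.shift_core hx ht0) ht 1 zero_le_one
  rwa [one_smul, show x + t • H.e + (c - t • H.e) = x + c by abel] at h

lemma add_mem {x y : Fin n → ℝ} (hx : x ∈ H.K) (hy : y ∈ H.K) : x + y ∈ H.K := fun s hs => by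
  rw [add_assoc]
  exact (H.core_pos (H.add_mem_core hx (H.shift_core hy hs))).ne'

lemma convex_K : Convex ℝ H.K := fun x hx y hy a b ha hb _ => by
  refine H.add_mem ?_ ?_
  · rcases ha.eq_or_lt with h | h
    · rw [← h, zero_smul]; exact H.zero_mem
    · exact H.smul_mem hx h
  · rcases hb.eq_or_lt with h | h
    · rw [← h, zero_smul]; exact H.zero_mem
    · exact H.smul_mem hy h

/-- All coefficients of the restriction to a ray inside the cone are nonnegative. -/
theorem cf_nonneg {x v : Fin n → ℝ} (hx : x ∈ H.K) (hv : v ∈ H.K) (j : ℕ) : 0 ≤ cf H.p j x v := by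
  have hcore : ∀ a ∈ H.core, ∀ b ∈ H.core, 0 ≤ cf H.p j a b := fun a ha b hb => by
    refine coeff_nonneg (H.garding a hb) ?_ ?_ j
    · rw [H.leadingCoeff_eq (H.core_pos hb).ne']; exact (H.core_pos hb).le
    · intro r hr
      by_contra hpos
      rw [Polynomial.mem_roots', Polynomial.IsRoot.def, eval_line] at hr
      exact (H.core_pos (H.core_ray ha hb r (not_le.1 hpos).le)).ne' hr.2
  obtain ⟨h1, h2⟩ := H.mem_closure_core hx
  obtain ⟨h3, h4⟩ := H.mem_closure_core hv
  exact ge_of_tendsto (((continuous_cf H.p j).tendsto (x, v)).comp (h1.prodMk_nhds h3))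
    (Eventually.of_forall fun k => hcore _ (h2 k) _ (h4 k))

/-- The polynomial is monotone on the cone. -/
theorem mono {x v : Fin n → ℝ} (hx : x ∈ H.K) (hv : v ∈ H.K) :
    eval x H.p ≤ eval (x + v) H.p := by
  have h : eval (x + v) H.p = ∑ j ∈ Finset.range (H.d + 1), cf H.p j x v := by
    have := Polynomial.eval_eq_sum_range' (Nat.lt_succ_of_le (H.natDegree_line x v)) (1 : ℝ)
    rw [eval_line, one_smul] at this
    simpa [cf] using this
  rw [h, ← cf_zero H.p x v]
  exact Finset.single_le_sum (fun j _ => H.cf_nonneg hx hv j) (Finset.mem_range.2 (by omega))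

lemma der_self (x : Fin n → ℝ) : der H.p x x = H.d * eval x H.p := by
  have h := congrArg (eval x) H.hom.sum_X_mul_pderiv
  simp only [map_sum, map_mul, eval_X, nsmul_eq_mul, map_natCast] at h
  rw [← h, der]
  exact Finset.sum_congr rfl fun i _ => mul_comm _ _

end Hyp

end Vale.Agent.P256.Gen
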