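import Vale.Agent.P256.Gen.Univ

/-!
Limits of real rooted polynomials of bounded degree.
-/

namespace Vale.Agent.P256.Gen

open Polynomial Filter Topology

/-- Pointwise convergence on an infinite set gives convergence everywhere and of all coefficients,
for polynomials of bounded degree. -/
theorem tendsto_coeff {d : ℕ} {f : ℕ → ℝ[X]} {g : ℝ[X]} (hd : ∀ k, (f k).natDegree ≤ d)
    (hg : g.natDegree ≤ d) {I : Set ℝ} (hI : I.Infinite)
    (h : ∀ t ∈ I, Tendsto (fun k => (f k).eval t) atTop (𝓝 (g.eval t))) :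
    ∀ j, Tendsto (fun k => (f k).coeff j) atTop (𝓝 (g.coeff j)) := by
  obtain ⟨s, hsI, hs⟩ := hI.exists_subset_card_eq (d + 1)
  have hinj : Set.InjOn (id : ℝ → ℝ) (s : Set ℝ) := Function.injective_id.injOn
  have hlt : ∀ q : ℝ[X], q.natDegree ≤ d → q.degree < s.card := fun q hq => by
    rw [hs]
    exact lt_of_le_of_lt degree_le_natDegree (by exact_mod_cast Nat.lt_succ_of_le hq)
  have key : ∀ q : ℝ[X], q.natDegree ≤ d → ∀ j,
      q.coeff j = ∑ i ∈ s, q.eval i * (Lagrange.basis s id i).coeff j := by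
    intro q hq j
    conv_lhs => rw [Lagrange.eq_interpolate hinj (hlt q hq)]
    simp [Lagrange.interpolate_apply, finsetSum_coeff]
  intro j
  simp only [key _ (hd _) j, key _ hg j]
  exact tendsto_finsetSum _ fun i hi => (h i (hsI hi)).mul_const _

theorem tendsto_aeval {d : ℕ} {f : ℕ → ℝ[X]} {g : ℝ[X]} (hd : ∀ k, (f k).natDegree ≤ d)
    (hg : g.natDegree ≤ d) (h : ∀ j, Tendsto (fun k => (f k).coeff j) atTop (𝓝 (g.coeff j)))
    (z : ℂ) : Tendsto (fun k => aeval z (f k)) atTop (𝓝 (aeval z g)) := by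
  have key : ∀ q : ℝ[X], q.natDegree ≤ d →
      aeval z q = ∑ i ∈ Finset.range (d + 1), (q.coeff i : ℂ) * z ^ i := fun q hq => by
    rw [aeval_eq_sum_range' (Nat.lt_succ_of_le hq)]
    simp [Complex.real_smul]
  simp only [key _ (hd _), key _ hg]
  exact tendsto_finsetSum _ fun i _ =>
    (((Complex.continuous_ofReal.tendsto _).comp (h i))).mul_const _

/-- A real rooted polynomial is not much smaller at a non-real point than at a real one. -/
theorem aeval_lower {f : ℝ[X]} (hf : Splits f) {d : ℕ} (hd : f.natDegree ≤ d) {z : ℂ}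
    (hz : z.im ≠ 0) (t : ℝ) :
    |f.eval t| * (|z.im| / (|z.im| + ‖(t : ℂ) - z‖)) ^ d ≤ ‖aeval z f‖ := by
  set c := |z.im| / (|z.im| + ‖(t : ℂ) - z‖) with hc
  have hi : 0 < |z.im| := abs_pos.2 hz
  have hn : 0 ≤ ‖(t : ℂ) - z‖ := norm_nonneg _
  have hc0 : 0 ≤ c := by positivity
  have hc1 : c ≤ 1 := (div_le_one (by positivity)).2 (by linarith)
  have step : ∀ r : ℝ, |t - r| * c ≤ ‖z - (r : ℂ)‖ := by
    intro r
    have h1 : |z.im| ≤ ‖z - (r : ℂ)‖ := by
      simpa using Complex.abs_im_le_norm (z - (r : ℂ))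
    have h2 : |t - r| ≤ ‖(t : ℂ) - z‖ + ‖z - (r : ℂ)‖ := by
      have := norm_sub_le_norm_sub_add_norm_sub (t : ℂ) z (r : ℂ)
      rwa [← Complex.ofReal_sub, Complex.norm_real, Real.norm_eq_abs] at this
    rw [hc, mul_div_assoc', div_le_iff₀ (by positivity)]
    nlinarith [mul_le_mul_of_nonneg_right h2 hi.le, mul_le_mul_of_nonneg_left h1 hn]
  have main : |f.eval t| * c ^ f.natDegree ≤ ‖aeval z f‖ := by
    rw [hf.eval_eq_prod_roots, (hf.map (algebraMap ℝ ℂ)).aeval_eq_prod_aroots, hf.natDegree_eq_card_roots,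
      Polynomial.aroots_def, hf.roots_map (algebraMap ℝ ℂ)]
    simp only [abs_mul, norm_mul, Multiset.map_map, Function.comp_def]
    rw [mul_assoc]
    refine mul_le_mul (le_of_eq ?_) ?_ (by positivity) (by positivity)
    · simp
    generalize f.roots = u
    induction u using Multiset.induction_on with
    | empty => simp
    | cons r u ih =>
      rw [Multiset.map_cons, Multiset.prod_cons, Multiset.card_cons, Multiset.map_cons,
        Multiset.prod_cons, abs_mul, norm_mul, pow_succ']
      calc |t - r| * |(u.map fun x => t - x).prod| * (c * c ^ Multiset.card u)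
          = (|t - r| * c) * (|(u.map fun x => t - x).prod| * c ^ Multiset.card u) := by ring
        _ ≤ _ := mul_le_mul (step r) ih (by positivity) (norm_nonneg _)
  exact le_trans (mul_le_mul_of_nonneg_left (pow_le_pow_of_le_one hc0 hc1 hd) (abs_nonneg _)) main

/-- A nonzero limit of real rooted polynomials of bounded degree is real rooted. -/
theorem splits_limit {d : ℕ} {f : ℕ → ℝ[X]} {g : ℝ[X]} (hf : ∀ k, Splits (f k))
    (hd : ∀ k, (f k).natDegree ≤ d) (hg : g.natDegree ≤ d)
    (h : ∀ j, Tendsto (fun k => (f k).coeff j) atTop (𝓝 (g.coeff j))) : Splits g := by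
  rcases eq_or_ne g 0 with rfl | hg0
  · simp
  refine splits_of_im_zero fun z hz => ?_
  by_contra him
  obtain ⟨t, ht⟩ := exists_eval_ne_zero_of_natDegree_lt_card g hg0
    (lt_of_lt_of_le Cardinal.natCast_lt_aleph0 (Cardinal.aleph0_le_mk ℝ))
  set c := (|z.im| / (|z.im| + ‖(t : ℂ) - z‖)) ^ d with hc
  have hc0 : 0 < c := by
    have : 0 < |z.im| := abs_pos.2 him
    positivity
  have l1 : Tendsto (fun k => |(f k).eval t| * c) atTop (𝓝 (|g.eval t| * c)) := by
    refine (Filter.Tendsto.abs ?_).mul_const c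
    have key : ∀ q : ℝ[X], q.natDegree ≤ d →
        q.eval t = ∑ i ∈ Finset.range (d + 1), q.coeff i * t ^ i := fun q hq =>
      eval_eq_sum_range' (Nat.lt_succ_of_le hq) t
    simp only [key _ (hd _), key _ hg]
    exact tendsto_finsetSum _ fun i _ => (h i).mul_const _
  have := le_of_tendsto_of_tendsto l1 (tendsto_aeval hd hg h z).norm
    (Eventually.of_forall fun k => aeval_lower (hf k) (hd k) him t)
  rw [hz, norm_zero] at this
  nlinarith [abs_pos.2 ht]

end Vale.Agent.P256.Gen
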