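import Vale.Agent.P256.Gen.Expand

/-!
Restrictions of homogeneous polynomials to lines.
-/

namespace Vale.Agent.P256.Gen

open MvPolynomial
open scoped BigOperators Polynomial

set_option linter.unusedSectionVars false

variable {σ : Type*} [Fintype σ]

section Algebra

variable {S : Type*} [CommRing S] [Algebra ℝ S] (f : MvPolynomial σ ℝ)

/-- The restriction of `f` to the line `g + t h`. -/
noncomputable def lineS (g h : σ → S) : S[X] :=
  aeval (fun i => Polynomial.C (g i) + Polynomial.X * Polynomial.C (h i)) f

lemma eval_lineS (g h : σ → S) (t : S) :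
    (lineS f g h).eval t = aeval (fun i => g i + t * h i) f := by
  induction f using MvPolynomial.induction_on with
  | C c => simp [lineS, Polynomial.algebraMap_eq, IsScalarTower.algebraMap_apply ℝ S S[X]]
  | add a b ha hb => simp only [lineS, map_add, Polynomial.eval_add] at *; rw [ha, hb]
  | mul_X a k ha =>
    simp only [lineS, map_mul, aeval_X, Polynomial.eval_mul] at *
    rw [ha]; simp [mul_comm t]

variable {f} {d : ℕ}

lemma aeval_smul_of_homogeneous (hf : f.IsHomogeneous d) (t : S) (g : σ → S) :
    aeval (fun i => t * g i) f = t ^ d * aeval g f := by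
  classical
  rw [aeval_def, eval₂_eq', aeval_def, eval₂_eq', Finset.mul_sum]
  refine Finset.sum_congr rfl fun s hs => ?_
  have hd : ∑ i, s i = d := by
    rw [hf.degree_eq_sum_deg_support hs]
    exact (Finset.sum_subset (Finset.subset_univ _) fun i _ hi => by simpa using hi).symm
  simp only [mul_pow, Finset.prod_mul_distrib, Finset.prod_pow_eq_pow_sum, hd]
  ring

lemma lineS_eq_sum (g h : σ → S) : lineS f g h = ∑ s ∈ f.support,
    Polynomial.C (algebraMap ℝ S (coeff s f)) *
      ∏ i, (Polynomial.C (g i) + Polynomial.X * Polynomial.C (h i)) ^ s i := by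
  rw [lineS, aeval_def, eval₂_eq']
  rfl

lemma natDegree_factor (g h : S) (k : ℕ) :
    ((Polynomial.C g + Polynomial.X * Polynomial.C h) ^ k).natDegree ≤ k := by
  refine Polynomial.natDegree_pow_le.trans ?_
  calc k * (Polynomial.C g + Polynomial.X * Polynomial.C h).natDegree ≤ k * 1 := by
        refine Nat.mul_le_mul_left k ?_
        rw [Polynomial.natDegree_C_add, mul_comm]
        exact (Polynomial.natDegree_C_mul_le _ _).trans Polynomial.natDegree_X_le
    _ = k := mul_one k

lemma natDegree_lineS (hf : f.IsHomogeneous d) (g h : σ → S) : (lineS f g h).natDegree ≤ d := by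
  classical
  rw [lineS_eq_sum]
  refine Polynomial.natDegree_sum_le_of_forall_le _ _ fun s hs => ?_
  refine (Polynomial.natDegree_C_mul_le _ _).trans ((Polynomial.natDegree_prod_le _ _).trans ?_)
  have hd : ∑ i, s i = d := by
    rw [hf.degree_eq_sum_deg_support hs]
    exact (Finset.sum_subset (Finset.subset_univ _) fun i _ hi => by simpa using hi).symm
  rw [← hd]
  exact Finset.sum_le_sum fun i _ => natDegree_factor _ _ _

lemma coeff_lineS_top (hf : f.IsHomogeneous d) (g h : σ → S) :
    (lineS f g h).coeff d = aeval h f := by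
  classical
  rw [lineS_eq_sum, Polynomial.finsetSum_coeff, aeval_def, eval₂_eq']
  refine Finset.sum_congr rfl fun s hs => ?_
  have hd : ∑ i, s i = d := by
    rw [hf.degree_eq_sum_deg_support hs]
    exact (Finset.sum_subset (Finset.subset_univ _) fun i _ hi => by simpa using hi).symm
  rw [Polynomial.coeff_C_mul]
  congr 1
  have key : ∀ (t : Finset σ), (∏ i ∈ t, (Polynomial.C (g i) + Polynomial.X * Polynomial.C (h i)) ^ s i).coeff
      (∑ i ∈ t, s i) = ∏ i ∈ t, h i ^ s i := by
    intro t
    induction t using Finset.induction_on with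
    | empty => simp
    | @insert a t ha ih =>
      rw [Finset.prod_insert ha, Finset.sum_insert ha, Finset.prod_insert ha,
        Polynomial.coeff_mul_add_eq_of_natDegree_le (natDegree_factor _ _ _)
          ((Polynomial.natDegree_prod_le _ _).trans
            (Finset.sum_le_sum fun i _ => natDegree_factor _ _ _)), ih]
      congr 1
      have h1 := Polynomial.coeff_pow_of_natDegree_le (m := s a) (n := 1)
        (p := Polynomial.C (g a) + Polynomial.X * Polynomial.C (h a)) (by
          rw [Polynomial.natDegree_C_add, mul_comm]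
          exact (Polynomial.natDegree_C_mul_le _ _).trans Polynomial.natDegree_X_le)
      simpa using h1
  have := key Finset.univ
  rwa [hd] at this

end Algebra

section Real

variable (f : MvPolynomial σ ℝ)

/-- The restriction of `f` to a real line. -/
noncomputable def line (x v : σ → ℝ) : ℝ[X] := lineS f x v

lemma eval_line (x v : σ → ℝ) (t : ℝ) : (line f x v).eval t = eval (x + t • v) f := by
  rw [line, eval_lineS, aeval_eq_eval]
  rfl

lemma aeval_line (x v : σ → ℝ) (z : ℂ) :
    Polynomial.aeval z (line f x v) = aeval (fun i => (x i : ℂ) + z * (v i : ℂ)) f := by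
  induction f using MvPolynomial.induction_on with
  | C c => simp [line, lineS]
  | add a b ha hb => simp only [line, lineS, map_add] at *; rw [ha, hb]
  | mul_X a k ha =>
    simp only [line, lineS, map_mul, aeval_X] at *
    rw [ha]
    simp [mul_comm z]

/-- The universal restriction to lines. -/
noncomputable def lineK : (Ker σ)[X] :=
  lineS f (fun i => X (Sum.inl i)) (fun i => X (Sum.inr i))

lemma map_lineK (x v : σ → ℝ) :
    (lineK f).map (eval (Sum.elim x v)) = line f x v := by
  induction f using MvPolynomial.induction_on with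
  | C c => simp [lineK, line, lineS, Polynomial.map_C, IsScalarTower.algebraMap_apply ℝ (Ker σ) (Ker σ)[X],
      MvPolynomial.algebraMap_eq]
  | add a b ha hb => simp only [lineK, line, lineS, map_add, Polynomial.map_add] at *; rw [ha, hb]
  | mul_X a k ha =>
    simp only [lineK, line, lineS, map_mul, aeval_X, Polynomial.map_mul] at *
    rw [ha]
    simp

/-- The coefficient of `t ^ j` in `f (x + t v)`. -/
noncomputable def cf (j : ℕ) (x v : σ → ℝ) : ℝ := (line f x v).coeff j

lemma cf_eq_ev (j : ℕ) (x v : σ → ℝ) : cf f j x v = ev ((lineK f).coeff j) x v := by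
  rw [cf, ← map_lineK, Polynomial.coeff_map]
  rfl

lemma continuous_cf (j : ℕ) : Continuous fun q : (σ → ℝ) × (σ → ℝ) => cf f j q.1 q.2 := by
  simp only [cf_eq_ev]
  have h : Continuous fun q : (σ → ℝ) × (σ → ℝ) => Sum.elim q.1 q.2 :=
    continuous_pi fun i => by
      rcases i with i | i
      · exact (continuous_apply i).comp continuous_fst
      · exact (continuous_apply i).comp continuous_snd
  exact (MvPolynomial.continuous_eval _).comp h

lemma cf_zero (x v : σ → ℝ) : cf f 0 x v = eval x f := by
  rw [cf, Polynomial.coeff_zero_eq_eval_zero, eval_line]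
  simp

lemma line_expand {M : σ → σ → Ker σ} (hM : ∀ x a : σ → ℝ,
      eval a f = eval x f + der f x (a - x)
        + ∑ i, ∑ j, ev (M i j) x a * (a i - x i) * (a j - x j)) (x v : σ → ℝ) :
    line f x v = Polynomial.C (eval x f) + Polynomial.C (der f x v) * Polynomial.X +
      (∑ i, ∑ j, Polynomial.C (v i * v j) *
        lineS (M i j) (Sum.elim x x) (Sum.elim 0 v)) * Polynomial.X ^ 2 := by
  refine Polynomial.funext fun t => ?_
  have h := hM x (x + t • v)
  rw [add_sub_cancel_left, der_smul] at h
  simp only [Pi.add_apply, Pi.smul_apply, smul_eq_mul, add_sub_cancel_left] at h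
  rw [eval_line, h]
  simp only [Polynomial.eval_add, Polynomial.eval_mul, Polynomial.eval_C, Polynomial.eval_X,
    Polynomial.eval_pow, Polynomial.eval_finsetSum, eval_lineS, aeval_eq_eval]
  rw [Finset.sum_mul]
  congr 1
  · ring
  refine Finset.sum_congr rfl fun i _ => ?_
  rw [Finset.sum_mul]
  refine Finset.sum_congr rfl fun j _ => ?_
  have e : (fun k => Sum.elim x x k + t * Sum.elim (0 : σ → ℝ) v k) = Sum.elim x (x + t • v) := by
    ext (k | k) <;> simp
  rw [e, ev]
  ring

lemma cf_one (x v : σ → ℝ) : cf f 1 x v = der f x v := by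
  obtain ⟨M, -, hM⟩ := exists_quad f
  rw [cf, line_expand f hM, Polynomial.coeff_add, Polynomial.coeff_add,
    Polynomial.coeff_C_mul_X, Polynomial.coeff_C, Polynomial.coeff_mul_X_pow']
  simp

lemma cf_two {M : σ → σ → Ker σ} (hM : ∀ x a : σ → ℝ,
      eval a f = eval x f + der f x (a - x)
        + ∑ i, ∑ j, ev (M i j) x a * (a i - x i) * (a j - x j)) (x v : σ → ℝ) :
    cf f 2 x v = ∑ i, ∑ j, ev (M i j) x x * v i * v j := by
  rw [cf, line_expand f hM, Polynomial.coeff_add, Polynomial.coeff_add,
    Polynomial.coeff_C_mul_X, Polynomial.coeff_C, Polynomial.coeff_mul_X_pow']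
  simp only [show (2 : ℕ) ≠ 0 from two_ne_zero, show (2 : ℕ) ≠ 1 by norm_num, if_false, le_refl,
    if_true, zero_add, Nat.sub_self, Polynomial.finsetSum_coeff, Polynomial.coeff_C_mul]
  refine Finset.sum_congr rfl fun i _ => Finset.sum_congr rfl fun j _ => ?_
  rw [Polynomial.coeff_zero_eq_eval_zero, eval_lineS]
  simp [ev, aeval_eq_eval]
  ring

end Real

end Vale.Agent.P256.Gen
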