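import Vale.Agent.P256.Gen.Quad

/-!
Sums of squares along filters, for gluing in blown up coordinates.
-/

namespace Vale.Agent.P256

open Filter Topology
open scoped BigOperators

set_option linter.unusedSectionVars false

variable {α β γ δ : Type*}

/-- A sum of squares on some member of `F` times some member of `G`. -/
def SOSNear (F : Filter α) (G : Filter β) (S : α → β → ℝ) : Prop :=
  ∃ U ∈ F, ∃ V ∈ G, SOSOn U V S

variable {F F' : Filter α} {G G' : Filter β} {S T : α → β → ℝ}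

lemma SOSNear.mono (h : SOSNear F G S) (hF : F' ≤ F) (hG : G' ≤ G) : SOSNear F' G' S := by
  obtain ⟨U, hU, V, hV, hS⟩ := h
  exact ⟨U, hF hU, V, hG hV, hS⟩

lemma SOSNear.congr (h : SOSNear F G S) {p : α → Prop} {q : β → Prop} (hp : ∀ᶠ a in F, p a)
    (hq : ∀ᶠ b in G, q b) (e : ∀ a, p a → ∀ b, q b → T a b = S a b) : SOSNear F G T := by
  obtain ⟨U, hU, V, hV, hS⟩ := h
  exact ⟨_, inter_mem hU hp, _, inter_mem hV hq,
    sosOn_congr (sosOn_mono hS Set.inter_subset_left Set.inter_subset_left)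
      fun a ha b hb => e a ha.2 b hb.2⟩

lemma sosNear_prod (f : α → ℝ) (g : β → ℝ) (hf : ∀ᶠ a in F, 0 ≤ f a) (hg : ∀ᶠ b in G, 0 ≤ g b) :
    SOSNear F G (fun a b => f a * g b) :=
  ⟨_, hf, _, hg, sosOn_prod f g (fun _ h => h) (fun _ h => h)⟩

lemma SOSNear.add (hS : SOSNear F G S) (hT : SOSNear F G T) :
    SOSNear F G (fun a b => S a b + T a b) := by
  obtain ⟨U, hU, V, hV, hS⟩ := hS
  obtain ⟨U', hU', V', hV', hT⟩ := hT
  exact ⟨_, inter_mem hU hU', _, inter_mem hV hV',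
    (sosOn_mono hS Set.inter_subset_left Set.inter_subset_left).add
      (sosOn_mono hT Set.inter_subset_right Set.inter_subset_right)⟩

lemma SOSNear.mul (hS : SOSNear F G S) (hT : SOSNear F G T) :
    SOSNear F G (fun a b => S a b * T a b) := by
  obtain ⟨U, hU, V, hV, hS⟩ := hS
  obtain ⟨U', hU', V', hV', hT⟩ := hT
  exact ⟨_, inter_mem hU hU', _, inter_mem hV hV',
    (sosOn_mono hS Set.inter_subset_left Set.inter_subset_left).mul
      (sosOn_mono hT Set.inter_subset_right Set.inter_subset_right)⟩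

lemma SOSNear.swap (h : SOSNear F G S) : SOSNear G F (fun b a => S a b) := by
  obtain ⟨U, hU, V, hV, hS⟩ := h
  exact ⟨V, hV, U, hU, hS.swap⟩

lemma SOSNear.comap {F' : Filter γ} {G' : Filter δ} (h : SOSNear F G S) {φ : γ → α} {ψ : δ → β}
    (hφ : Tendsto φ F' F) (hψ : Tendsto ψ G' G) : SOSNear F' G' (fun a b => S (φ a) (ψ b)) := by
  obtain ⟨U, hU, V, hV, hS⟩ := h
  exact ⟨_, hφ hU, _, hψ hV, sosOn_comap hS φ ψ (fun _ h => h) (fun _ h => h)⟩

section Topo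

variable [TopologicalSpace γ]

/-- Compactness in an auxiliary space on the first side. -/
lemma sosNear_of_local_left {C : Set γ} (hC : IsCompact C) (φ : α → γ) (hφ : ∀ᶠ a in F, φ a ∈ C)
    (h : ∀ c ∈ C, SOSNear (F ⊓ Filter.comap φ (𝓝 c)) G S) : SOSNear F G S := by
  classical
  have h' : ∀ c ∈ C, ∃ U ∈ F, ∃ W ∈ 𝓝 c, ∃ V ∈ G, SOSOn (U ∩ φ ⁻¹' W) V S := by
    intro c hc
    obtain ⟨U, hU, V, hV, hS⟩ := h c hc
    obtain ⟨U₁, hU₁, U₂, hU₂, rfl⟩ := mem_inf_iff.1 hU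
    obtain ⟨W, hW, hWU⟩ := Filter.mem_comap.1 hU₂
    exact ⟨U₁, hU₁, W, hW, V, hV,
      sosOn_mono hS (Set.inter_subset_inter_right _ hWU) Set.Subset.rfl⟩
  choose! U hU W hW V hV hS using h'
  obtain ⟨t, ht, hcov⟩ := hC.elim_nhds_subcover W hW
  refine ⟨(⋂ c ∈ t, U c) ∩ {a | φ a ∈ C},
    inter_mem ((biInter_finset_mem t).2 fun c hc => hU c (ht c hc)) hφ,
    ⋂ c ∈ t, V c, (biInter_finset_mem t).2 fun c hc => hV c (ht c hc), ?_⟩
  refine sosOn_glue (fun c : t => (⋂ c ∈ t, U c) ∩ φ ⁻¹' W c.1) (fun _ : t => ⋂ c ∈ t, V c) ?_ ?_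
  · intro a ha b hb
    have := hcov ha.2
    simp only [Set.mem_iUnion] at this
    obtain ⟨c, hc, hmem⟩ := this
    exact ⟨⟨c, hc⟩, ⟨ha.1, hmem⟩, hb⟩
  · intro c
    exact sosOn_mono (hS c.1 (ht c.1 c.2))
      (Set.inter_subset_inter_left _ (Set.biInter_subset_of_mem c.2))
      (Set.biInter_subset_of_mem c.2)

/-- Compactness in an auxiliary space on the second side. -/
lemma sosNear_of_local_right {C : Set γ} (hC : IsCompact C) (φ : β → γ)
    (hφ : ∀ᶠ b in G, φ b ∈ C)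
    (h : ∀ c ∈ C, SOSNear F (G ⊓ Filter.comap φ (𝓝 c)) S) : SOSNear F G S :=
  (sosNear_of_local_left (S := fun b a => S a b) hC φ hφ fun c hc => (h c hc).swap).swap

end Topo

/-- A bilinear pairing with positive limit. -/
lemma sosNear_lin {ι : Type*} [Fintype ι] (f : ι → α → ℝ) (g : ι → β → ℝ) (c d : ι → ℝ)
    (hf : ∀ i, Tendsto (f i) F (𝓝 (c i))) (hg : ∀ i, Tendsto (g i) G (𝓝 (d i)))
    (hpos : 0 < ∑ i, c i * d i) : SOSNear F G (fun a b => ∑ i, f i a * g i b) := by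
  have hn : NiceAt c d (fun (u v : ι → ℝ) => ∑ i, u i * v i) :=
    niceAt_fintype (fun i (u : ι → ℝ) => u i) (fun i (v : ι → ℝ) => v i) (fun i => (continuous_apply i).continuousAt)
      (fun i => (continuous_apply i).continuousAt)
  obtain ⟨U, hU, V, hV, hS⟩ := hn.sos_of_pos hpos
  exact SOSNear.comap (F := 𝓝 c) (G := 𝓝 d) ⟨U, hU, V, hV, hS⟩
    (tendsto_pi_nhds.2 hf) (tendsto_pi_nhds.2 hg)

/-- A nice kernel pulled back along filters. -/
lemma NiceAt.sosNear {γ δ : Type*} [TopologicalSpace γ] [TopologicalSpace δ] {c : γ} {d : δ}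
    {K : γ → δ → ℝ} (hK : NiceAt c d K) (hpos : 0 < K c d) {φ : α → γ} {ψ : β → δ}
    (hφ : Tendsto φ F (𝓝 c)) (hψ : Tendsto ψ G (𝓝 d)) :
    SOSNear F G (fun a b => K (φ a) (ψ b)) := by
  obtain ⟨U, hU, V, hV, hS⟩ := hK.sos_of_pos hpos
  exact SOSNear.comap (F := 𝓝 c) (G := 𝓝 d) ⟨U, hU, V, hV, hS⟩ hφ hψ

end Vale.Agent.P256
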