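import Vale.Agent.P256.Gen.Coeff
import Vale.Agent.P256.Gen.Limit

/-!
Boundary points of a hyperbolicity cone: multiplicity, smooth points, curvature, flat segments.
-/

namespace Vale.Agent.P256.Gen

open MvPolynomial Filter Topology
open scoped BigOperators Polynomial

set_option linter.unusedSectionVars false

/-- The lowest coefficient is the limit of the normalised values. -/
lemma tendsto_low {f : ℝ[X]} {m : ℕ} (h : ∀ j < m, f.coeff j = 0) :
    Tendsto (fun t => f.eval t / t ^ m) (𝓝[>] 0) (𝓝 (f.coeff m)) := by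
  obtain ⟨g, rfl⟩ := Polynomial.X_pow_dvd_iff.2 h
  have hm : (Polynomial.X ^ m * g).coeff m = g.eval 0 := by
    simpa [Polynomial.coeff_zero_eq_eval_zero] using Polynomial.coeff_X_pow_mul g m 0
  rw [hm]
  refine (g.continuous.tendsto 0 |>.mono_left nhdsWithin_le_nhds).congr' ?_
  filter_upwards [self_mem_nhdsWithin] with t ht
  have : t ≠ 0 := (Set.mem_Ioi.1 ht).ne'
  simp only [Polynomial.eval_mul, Polynomial.eval_pow, Polynomial.eval_X]
  field_simp

lemma low_nonneg {f : ℝ[X]} {m : ℕ} (h : ∀ j < m, f.coeff j = 0)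
    (hp : ∀ᶠ t in 𝓝[>] (0 : ℝ), 0 ≤ f.eval t) : 0 ≤ f.coeff m :=
  ge_of_tendsto (tendsto_low h) ((hp.and self_mem_nhdsWithin).mono fun _ ht =>
    div_nonneg ht.1 (pow_nonneg (Set.mem_Ioi.1 ht.2).le _))

variable {σ : Type*} [Fintype σ]

/-- A polynomial vanishing near a point vanishes everywhere. -/
lemma eval_zero_of_eventually {f : MvPolynomial σ ℝ} {c : σ → ℝ}
    (h : ∀ᶠ v in 𝓝 c, eval v f = 0) (v : σ → ℝ) : eval v f = 0 := by
  have hl : line f c (v - c) = 0 := by
    have hc : Tendsto (fun t : ℝ => c + t • (v - c)) (𝓝 0) (𝓝 c) := by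
      simpa using (((continuous_id (X := ℝ)).smul continuous_const).const_add c).tendsto (0 : ℝ)
    refine Polynomial.eq_zero_of_infinite_isRoot _
      ((infinite_of_mem_nhds 0 (hc.eventually h)).mono fun t ht => ?_)
    simpa [Polynomial.IsRoot.def, eval_line] using ht
  simpa [eval_line] using congrArg (Polynomial.eval (1 : ℝ)) hl

lemma line_shift (f : MvPolynomial σ ℝ) (x v : σ → ℝ) (t : ℝ) :
    line f (x + t • v) v = (line f x v).comp (Polynomial.X + Polynomial.C t) := by
  refine Polynomial.funext fun s => ?_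
  simp only [Polynomial.eval_comp, eval_line, Polynomial.eval_add, Polynomial.eval_X,
    Polynomial.eval_C]
  congr 2
  module

lemma derivative_line (f : MvPolynomial σ ℝ) (x v : σ → ℝ) (t : ℝ) :
    (line f x v).derivative.eval t = der f (x + t • v) v := by
  rw [← cf_one, cf, line_shift]
  rw [← Polynomial.taylor_apply, Polynomial.taylor_coeff_one]

namespace Hyp

variable {n : ℕ} (H : Hyp n)

/-- Lines through interior points split in every direction. -/
lemma splits_core {y : Fin n → ℝ} (hy : y ∈ H.core) (v : Fin n → ℝ) :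
    Polynomial.Splits (line H.p y v) := by
  refine splits_of_im_zero fun z hz => ?_
  rcases eq_or_ne z 0 with rfl | hz0
  · simp
  have h2 : Polynomial.aeval z⁻¹ (line H.p v y) = 0 := by
    rw [aeval_line] at hz ⊢
    have e : (fun i => (v i : ℂ) + z⁻¹ * (y i : ℂ)) =
        fun i => z⁻¹ * ((y i : ℂ) + z * (v i : ℂ)) := by
      funext i; field_simp; ring
    rw [e, aeval_smul_of_homogeneous H.hom, hz, mul_zero]
  have := im_zero_of_splits (H.garding v hy) (H.line_ne_zero (H.core_pos hy).ne' v) h2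
  rw [Complex.inv_im, div_eq_zero_iff] at this
  rcases this with h | h
  · linarith
  · exact absurd (Complex.normSq_eq_zero.1 h) hz0

/-- The normalising functional. -/
noncomputable def τ : (Fin n → ℝ) →ₗ[ℝ] ℝ where
  toFun := der H.p H.e
  map_add' := der_add _ _
  map_smul' := fun c x => der_smul _ _ x c

lemma τ_nonneg {x : Fin n → ℝ} (hx : x ∈ H.K) : 0 ≤ H.τ x := by
  have := H.cf_nonneg (H.core_subset H.e_mem_core) hx 1
  rwa [cf_one] at this

/-- No line in the cone. -/
def Pointed : Prop := ∀ x ∈ H.K, -x ∈ H.K → x = 0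

/-- A point of the cone annihilated by the normalising functional spans a line in the cone. -/
lemma τ_zero {x : Fin n → ℝ} (hx : x ∈ H.K) (h : H.τ x = 0) :
    -x ∈ H.K ∧ ∀ t : ℝ, eval (H.e + t • x) H.p = eval H.e H.p := by
  obtain ⟨u, -, hu⟩ := exists_factors (H.splits_core H.e_mem_core x)
    (show (line H.p H.e x).coeff 0 ≠ 0 by
      rw [show (line H.p H.e x).coeff 0 = cf H.p 0 H.e x from rfl, cf_zero]; exact H.pe_pos.ne')
  obtain ⟨-, e1, e2⟩ := coeff_one_two u
  have c0 : (line H.p H.e x).coeff 0 = eval H.e H.p := cf_zero _ _ _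
  rw [c0] at hu
  have hs : u.sum = 0 := by
    have h' : cf H.p 1 H.e x = 0 := by rw [cf_one]; exact h
    rw [cf, hu, Polynomial.coeff_C_mul, e1] at h'
    exact (mul_eq_zero.1 h').resolve_left H.pe_pos.ne'
  have h2 := H.cf_nonneg (H.core_subset H.e_mem_core) hx 2
  rw [cf, hu, Polynomial.coeff_C_mul] at h2
  have h3 : (u.map fun t => t ^ 2).sum ≤ 0 := by
    rw [hs] at e2
    have := nonneg_of_mul_nonneg_right h2 H.pe_pos
    linarith
  have hzero : ∀ t ∈ u, t = 0 := fun t ht => by
    have : t ^ 2 ≤ (u.map fun t => t ^ 2).sum :=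
      Multiset.single_le_sum (fun y hy => by
        obtain ⟨z, _, rfl⟩ := Multiset.mem_map.1 hy
        exact sq_nonneg z) _ (Multiset.mem_map_of_mem _ ht)
    exact pow_eq_zero_iff two_ne_zero |>.1 (le_antisymm (this.trans h3) (sq_nonneg t))
  have hprod : ((u.map fun t => (1 : ℝ[X]) + Polynomial.C t * Polynomial.X).prod) = 1 :=
    Multiset.prod_eq_one fun y hy => by
      obtain ⟨t, ht, rfl⟩ := Multiset.mem_map.1 hy
      simp [hzero t ht]
  have hconst : ∀ t : ℝ, eval (H.e + t • x) H.p = eval H.e H.p := fun t => by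
    rw [← eval_line, hu, hprod, mul_one, Polynomial.eval_C]
  refine ⟨fun s hs0 => ?_, hconst⟩
  have e : -x + s • H.e = s • (H.e + (-s⁻¹) • x) := by
    rw [smul_add, smul_smul, mul_neg, mul_inv_cancel₀ hs0.ne', neg_one_smul, add_comm]
  rw [e, H.smul_eval, hconst]
  exact mul_ne_zero (pow_ne_zero _ hs0.ne') H.pe_pos.ne'

lemma τ_pos (hP : H.Pointed) {x : Fin n → ℝ} (hx : x ∈ H.K) (hx0 : x ≠ 0) : 0 < H.τ x :=
  lt_of_le_of_ne (H.τ_nonneg hx) fun h => hx0 (hP x hx (H.τ_zero hx h.symm).1)

open Classical in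
/-- The order of vanishing at a point, measured along `e`. -/
noncomputable def mult (x : Fin n → ℝ) : ℕ :=
  Nat.find (p := fun j => cf H.p j x H.e ≠ 0)
    ⟨H.d, by rw [cf, H.coeff_top]; exact H.pe_pos.ne'⟩

lemma mult_ne (x : Fin n → ℝ) : cf H.p (H.mult x) x H.e ≠ 0 := by
  classical
  exact Nat.find_spec (p := fun j => cf H.p j x H.e ≠ 0) _

lemma mult_low {x : Fin n → ℝ} {j : ℕ} (hj : j < H.mult x) : cf H.p j x H.e = 0 := by
  classical
  exact not_not.1 (Nat.find_min (p := fun j => cf H.p j x H.e ≠ 0) _ hj)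

lemma exists_dominate {a c : Fin n → ℝ} (hc : c ∈ H.core) :
    ∃ C : ℝ, 0 < C ∧ C • c - a ∈ H.K := by
  have hev : ∀ᶠ t in 𝓝 (0 : ℝ), c - t • a ∈ H.core :=
    (by fun_prop : Continuous fun t : ℝ => c - t • a).continuousAt.eventually
      (H.isOpen_core.mem_nhds (by simpa using hc))
  obtain ⟨t, ht, ht0⟩ := ((hev.filter_mono nhdsWithin_le_nhds).and
    (self_mem_nhdsWithin (s := Set.Ioi (0 : ℝ)))).exists
  refine ⟨t⁻¹, inv_pos.2 ht0, ?_⟩
  have := H.smul_mem (H.core_subset ht) (inv_pos.2 ht0)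
  rwa [smul_sub, smul_smul, inv_mul_cancel₀ (Set.mem_Ioi.1 ht0).ne', one_smul] at this

/-- Below the multiplicity all coefficients vanish in every direction. -/
lemma cf_lt {x : Fin n → ℝ} (hx : x ∈ H.K) {j : ℕ} (hj : j < H.mult x) (v : Fin n → ℝ) :
    cf H.p j x v = 0 := by
  revert v
  induction j using Nat.strong_induction_on with
  | _ j ih =>
    intro v
    have hcore : ∀ a ∈ H.core, cf H.p j x a = 0 := by
      intro a ha
      obtain ⟨C, hC, hCa⟩ := H.exists_dominate (a := a) H.e_mem_core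
      refine le_antisymm ?_ (H.cf_nonneg hx (H.core_subset ha) j)
      have h1 := tendsto_low (f := line H.p x (C • H.e)) (m := j) fun i hi => ih i hi (hi.trans hj) _
      have h2 := tendsto_low (f := line H.p x a) (m := j) fun i hi => ih i hi (hi.trans hj) _
      have h3 : (line H.p x (C • H.e)).coeff j = 0 := by
        rw [← cf, cf_smul, H.mult_low hj, mul_zero]
      rw [h3] at h1
      refine le_of_tendsto_of_tendsto h2 h1 ?_
      filter_upwards [self_mem_nhdsWithin] with t (ht : (0 : ℝ) < t)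
      refine div_le_div_of_nonneg_right ?_ (pow_nonneg ht.le _)
      rw [eval_line, eval_line]
      have := H.mono (H.add_mem hx (H.smul_mem (H.core_subset ha) ht)) (H.smul_mem hCa ht)
      rwa [add_assoc, ← smul_add, add_sub_cancel] at this
    rw [← eval_dirPoly]
    refine eval_zero_of_eventually (c := H.e) ?_ v
    filter_upwards [H.isOpen_core.mem_nhds H.e_mem_core] with a ha
    rw [eval_dirPoly, hcore a ha]

lemma tendsto_mult {x : Fin n → ℝ} (hx : x ∈ H.K) (v : Fin n → ℝ) :
    Tendsto (fun t : ℝ => eval (x + t • v) H.p / t ^ H.mult x) (𝓝[>] 0)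
      (𝓝 (cf H.p (H.mult x) x v)) := by
  have := tendsto_low (f := line H.p x v) (m := H.mult x) fun j hj => H.cf_lt hx hj v
  simp only [eval_line] at this
  exact this

lemma cf_mult_mono {x v w : Fin n → ℝ} (hx : x ∈ H.K) (hv : v ∈ H.K) (hw : w ∈ H.K) :
    cf H.p (H.mult x) x v ≤ cf H.p (H.mult x) x (v + w) := by
  refine le_of_tendsto_of_tendsto (H.tendsto_mult hx v) (H.tendsto_mult hx (v + w)) ?_
  filter_upwards [self_mem_nhdsWithin] with t (ht : (0 : ℝ) < t)
  refine div_le_div_of_nonneg_right ?_ (pow_nonneg ht.le _)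
  rw [smul_add, ← add_assoc]
  exact H.mono (H.add_mem hx (H.smul_mem hv ht)) (H.smul_mem hw ht)

lemma cf_mult_e_pos {x : Fin n → ℝ} (hx : x ∈ H.K) : 0 < cf H.p (H.mult x) x H.e :=
  lt_of_le_of_ne (H.cf_nonneg hx (H.core_subset H.e_mem_core) _) (H.mult_ne x).symm

lemma cf_mult_pos {x a : Fin n → ℝ} (hx : x ∈ H.K) (ha : a ∈ H.core) :
    0 < cf H.p (H.mult x) x a := by
  obtain ⟨C, hC, hCa⟩ := H.exists_dominate (a := H.e) ha
  have h := H.cf_mult_mono hx (H.core_subset H.e_mem_core) hCa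
  rw [add_sub_cancel, cf_smul] at h
  exact pos_of_mul_pos_right (lt_of_lt_of_le (H.cf_mult_e_pos hx) h) (by positivity)

lemma mult_pos {x : Fin n → ℝ} (h0 : eval x H.p = 0) : 0 < H.mult x := by
  rw [Nat.pos_iff_ne_zero]
  intro h
  have := H.mult_ne x
  rw [h, cf_zero] at this
  exact this h0

/-- The linear functional of the tangent hyperplane. -/
noncomputable def tang (x : Fin n → ℝ) : (Fin n → ℝ) →ₗ[ℝ] ℝ where
  toFun := der H.p x
  map_add' := der_add _ _
  map_smul' := fun c v => der_smul _ _ v c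

lemma der_nonneg {x a : Fin n → ℝ} (hx : x ∈ H.K) (ha : a ∈ H.K) : 0 ≤ der H.p x a := by
  have := H.cf_nonneg hx ha 1
  rwa [cf_one] at this

/-- Smooth boundary points. -/
def Smooth (x : Fin n → ℝ) : Prop := x ∈ H.K ∧ eval x H.p = 0 ∧ 0 < der H.p x H.e

/-- Singular boundary points. -/
def Singular (x : Fin n → ℝ) : Prop := x ∈ H.K ∧ eval x H.p = 0 ∧ der H.p x H.e = 0

lemma smooth_or {x : Fin n → ℝ} (hx : x ∈ H.K) (h0 : eval x H.p = 0) :
    H.Smooth x ∨ H.Singular x := by
  rcases (H.der_nonneg hx (H.core_subset H.e_mem_core)).eq_or_lt with h | h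
  · exact Or.inr ⟨hx, h0, h.symm⟩
  · exact Or.inl ⟨hx, h0, h⟩

lemma Smooth.mult_eq {H : Hyp n} {x : Fin n → ℝ} (h : H.Smooth x) : H.mult x = 1 := by
  rcases Nat.lt_or_ge (H.mult x) 2 with h2 | h2
  · have := H.mult_pos h.2.1; omega
  · have := H.mult_low (x := x) (j := 1) (by omega)
    rw [cf_one] at this
    exact absurd this h.2.2.ne'

lemma Singular.two_le {H : Hyp n} {x : Fin n → ℝ} (h : H.Singular x) : 2 ≤ H.mult x := by
  by_contra hc
  have h1 := H.mult_pos h.2.1
  have := H.mult_ne x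
  rw [show H.mult x = 1 by omega, cf_one] at this
  exact this h.2.2

lemma Singular.der_eq {H : Hyp n} {x : Fin n → ℝ} (h : H.Singular x) (v : Fin n → ℝ) :
    der H.p x v = 0 := by
  rw [← cf_one]; exact H.cf_lt h.1 h.two_le v

lemma Smooth.der_core {H : Hyp n} {x a : Fin n → ℝ} (h : H.Smooth x) (ha : a ∈ H.core) :
    0 < der H.p x a := by
  have := H.cf_mult_pos h.1 ha
  rwa [h.mult_eq, cf_one] at this

/-- Near a smooth boundary point the sign of the polynomial decides membership. -/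
lemma Smooth.local_mem {H : Hyp n} {x : Fin n → ℝ} (hx : H.Smooth x) :
    ∀ᶠ z in 𝓝 x, (0 ≤ eval z H.p → z ∈ H.K) ∧ (0 < eval z H.p → z ∈ H.core) := by
  have hc : Continuous fun q : (Fin n → ℝ) × ℝ => der H.p (q.1 + q.2 • H.e) H.e := by
    simp only [← derivative_line]
    have := fun q : (Fin n → ℝ) × ℝ => derivative_line H.p q.1 H.e q.2
    simp only [derivative_line, der]
    exact continuous_finsetSum _ fun i _ => ((MvPolynomial.continuous_eval _).comp
      (by fun_prop)).mul continuous_const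
  have h0 : ∀ᶠ q in 𝓝 ((x, (0 : ℝ)) : (Fin n → ℝ) × ℝ),
      0 < der H.p (q.1 + q.2 • H.e) H.e :=
    hc.continuousAt.eventually (lt_mem_nhds (by simpa using hx.2.2))
  rw [nhds_prod_eq, eventually_prod_iff] at h0
  obtain ⟨P, hP, Q, hQ, hPQ⟩ := h0
  obtain ⟨ε, hε, hball⟩ := Metric.eventually_nhds_iff.1 hQ
  set δ := ε / 2 with hδ
  have hδ0 : 0 < δ := by positivity
  have hcore : ∀ᶠ z in 𝓝 x, z + δ • H.e ∈ H.core :=
    (by fun_prop : Continuous fun z : Fin n → ℝ => z + δ • H.e).continuousAt.eventually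
      (H.isOpen_core.mem_nhds (H.shift_core hx.1 hδ0))
  filter_upwards [hP, hcore] with z hz hzc
  have hmono : StrictMonoOn (fun s => (line H.p z H.e).eval s) (Set.Icc 0 δ) := by
    refine strictMonoOn_of_deriv_pos (convex_Icc _ _) (Polynomial.continuousOn _) fun s hs => ?_
    rw [interior_Icc] at hs
    rw [Polynomial.deriv, derivative_line]
    refine hPQ hz (hball ?_)
    rw [dist_zero_right, Real.norm_eq_abs, abs_of_pos hs.1]
    linarith [hs.2]
  have pos : 0 ≤ eval z H.p → ∀ s : ℝ, 0 < s → eval (z + s • H.e) H.p ≠ 0 := by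
    intro hp s hs
    rcases le_or_gt s δ with h | h
    · have := hmono ⟨le_rfl, hδ0.le⟩ ⟨hs.le, h⟩ hs
      simp only [eval_line, zero_smul, add_zero] at this
      exact (lt_of_le_of_lt hp this).ne'
    · have := hzc (s - δ) (by linarith)
      rwa [add_assoc, ← add_smul, add_sub_cancel] at this
  exact ⟨pos, fun hp => H.core_iff.2 ⟨pos hp.le, hp.ne'⟩⟩

/-- A smooth boundary point is not between an interior point and a point of the cone. -/
lemma Smooth.not_between {H : Hyp n} {x h : Fin n → ℝ} (hx : H.Smooth x) {t : ℝ}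
    (h1 : x + t • h ∈ H.core) (h2 : x - t • h ∈ H.K) : False := by
  have hc := H.smul_mem_core (H.add_mem_core h2 h1) (show (0 : ℝ) < 1 / 2 by norm_num)
  rw [show (1 / 2 : ℝ) • (x - t • h + (x + t • h)) = x by module] at hc
  exact (H.core_pos hc).ne' hx.2.1

/-- The second coefficient along a tangent direction is nonpositive. -/
lemma Smooth.cf_two_nonpos {H : Hyp n} {x h : Fin n → ℝ} (hx : H.Smooth x)
    (hh : der H.p x h = 0) : cf H.p 2 x h ≤ 0 := by
  by_contra hcon
  push Not at hcon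
  have low : ∀ v, der H.p x v = 0 → ∀ j < 2, (line H.p x v).coeff j = 0 := by
    intro v hv j hj
    interval_cases j
    · exact (cf_zero _ _ _).trans hx.2.1
    · exact (cf_one _ _ _).trans hv
  have pos : ∀ v, der H.p x v = 0 → 0 < cf H.p 2 x v →
      ∀ᶠ t in 𝓝[>] (0 : ℝ), x + t • v ∈ H.core := by
    intro v hv hv2
    have hev := (tendsto_low (f := line H.p x v) (low v hv)).eventually (lt_mem_nhds hv2)
    have hnear : Tendsto (fun t : ℝ => x + t • v) (𝓝[>] 0) (𝓝 x) :=
      tendsto_nhdsWithin_of_tendsto_nhds (by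
        simpa using (((continuous_id (X := ℝ)).smul continuous_const).const_add x).tendsto (0 : ℝ))
    filter_upwards [hev, self_mem_nhdsWithin, hnear.eventually hx.local_mem] with t h1 ht h2
    refine h2.2 ?_
    rw [eval_line] at h1
    exact (div_pos_iff_of_pos_right (pow_pos (Set.mem_Ioi.1 ht) 2)).1 h1
  have hneg : cf H.p 2 x (-h) = cf H.p 2 x h := by
    rw [← neg_one_smul ℝ h, cf_smul]; norm_num
  obtain ⟨t, t1, t2⟩ := ((pos h hh hcon).and
    (pos (-h) (by rw [der_neg, hh, neg_zero]) (by rw [hneg]; exact hcon))).exists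
  refine hx.not_between t1 ?_
  rw [sub_eq_add_neg, ← smul_neg]
  exact H.core_subset t2

/-- The derivative at the base point of the coefficient below the multiplicity. -/
lemma coeff_one_base {x h : Fin n → ℝ} (j : ℕ) :
    (line (basePoly H.p j h) x H.e).coeff 1 = der (dirPoly H.p (j + 1) x) h H.e := by
  rw [← cf, cf_one, der_basePoly, der_dirPoly]

/-- Rigidity: a line with two vanishing coefficients above the multiplicity lies in the zero set. -/
theorem line_eq_zero {x h : Fin n → ℝ} (hx : x ∈ H.K) {m : ℕ} (hm : 1 ≤ m)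
    (hlow : ∀ j < m, ∀ v, cf H.p j x v = 0)
    (hT : 0 < der (dirPoly H.p m x) h H.e) (h0 : cf H.p m x h = 0)
    (h1 : cf H.p (m + 1) x h = 0) : line H.p x h = 0 := by
  obtain ⟨i, rfl⟩ : ∃ i, m = i + 1 := ⟨m - 1, by omega⟩
  -- the three coefficients along `x + t e`, divided by `t`
  have dvd : ∀ j, cf H.p j x h = 0 → ∃ g : ℝ[X], line (basePoly H.p j h) x H.e = Polynomial.X * g := by
    intro j hj
    refine Polynomial.X_dvd_iff.2 ?_
    rw [Polynomial.coeff_zero_eq_eval_zero, base_line]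
    simpa using hj
  obtain ⟨g, hg⟩ := dvd i (hlow i (by omega) h)
  obtain ⟨g₁, hg₁⟩ := dvd (i + 1) h0
  obtain ⟨g₂, hg₂⟩ := dvd (i + 1 + 1) h1
  have hg0 : g.eval 0 = der (dirPoly H.p (i + 1) x) h H.e := by
    rw [← H.coeff_one_base, hg, Polynomial.coeff_X_mul, Polynomial.coeff_zero_eq_eval_zero]
  set B := g.eval 0 with hB
  have hBpos : 0 < B := by rw [hg0]; exact hT
  set seq : ℕ → ℝ := fun k => 1 / ((k : ℝ) + 1) with hseq
  have hseq0 : Tendsto seq atTop (𝓝 0) := tendsto_one_div_add_atTop_nhds_zero_nat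
  obtain ⟨N, hN⟩ := eventually_atTop.1
    (((g.continuous.tendsto 0).comp hseq0).eventually (lt_mem_nhds (show B / 2 < g.eval 0 by
      rw [← hB]; linarith)))
  obtain ⟨C₁, hC₁⟩ := (isCompact_Icc (a := (0 : ℝ)) (b := 1)).exists_bound_of_continuousOn
    g₁.continuous.continuousOn
  obtain ⟨C₂, hC₂⟩ := (isCompact_Icc (a := (0 : ℝ)) (b := 1)).exists_bound_of_continuousOn
    g₂.continuous.continuousOn
  let F : ℕ → ℝ[X] := fun k =>
    Polynomial.derivative^[i] (line H.p (x + seq (k + N) • H.e) h)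
  have Fcoeff : ∀ k j, (F k).coeff j =
      ((j + i).descFactorial i : ℝ) * cf H.p (j + i) (x + seq (k + N) • H.e) h := fun k j => by
    simp only [F, Polynomial.coeff_iterate_derivative, cf, nsmul_eq_mul]
  have hs : ∀ k : ℕ, 0 < seq k ∧ seq k ≤ 1 := fun k => by
    have hk : (0 : ℝ) ≤ (k : ℝ) := Nat.cast_nonneg k
    exact ⟨by simp only [hseq]; positivity, by
      simp only [hseq]; rw [div_le_one (by positivity)]; linarith⟩
  have c0 : ∀ k, (F k).coeff 0 = (i.descFactorial i : ℝ) *
      (seq (k + N) * g.eval (seq (k + N))) := fun k => by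
    rw [Fcoeff, Nat.zero_add, ← base_line, hg]; simp
  have fpos : (0 : ℝ) < (i.descFactorial i : ℝ) := by
    exact_mod_cast Nat.descFactorial_pos.2 le_rfl
  have c0low : ∀ k, (i.descFactorial i : ℝ) * (seq (k + N) * (B / 2)) ≤ (F k).coeff 0 := fun k => by
    rw [c0]
    refine mul_le_mul_of_nonneg_left (mul_le_mul_of_nonneg_left ?_ (hs _).1.le) fpos.le
    exact le_of_lt (hN (k + N) (Nat.le_add_left N k))
  have c0pos : ∀ k, 0 < (F k).coeff 0 := fun k =>
    lt_of_lt_of_le (mul_pos fpos (mul_pos (hs _).1 (half_pos hBpos))) (c0low k)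
  set Cb : ℝ := ((1 + i).descFactorial i : ℝ) * |C₁| + ((2 + i).descFactorial i : ℝ) * |C₂| with hCb
  have bound : ∀ k, |(F k).coeff 1| ≤ seq (k + N) * Cb ∧ |(F k).coeff 2| ≤ seq (k + N) * Cb := by
    intro k
    obtain ⟨t1, t2⟩ := hs (k + N)
    have b : ∀ (j : ℕ) (q : ℝ[X]) (C : ℝ), line (basePoly H.p (j + i) h) x H.e = Polynomial.X * q →
        ‖q.eval (seq (k + N))‖ ≤ C →
        |(F k).coeff j| ≤ seq (k + N) * (((j + i).descFactorial i : ℝ) * |C|) := by
      intro j q C hq hC
      rw [Fcoeff, ← base_line, hq]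
      simp only [Polynomial.eval_mul, Polynomial.eval_X, abs_mul, Nat.abs_cast, abs_of_pos t1]
      rw [mul_left_comm]
      refine mul_le_mul_of_nonneg_left (mul_le_mul_of_nonneg_left ?_ (Nat.cast_nonneg _)) t1.le
      rw [Real.norm_eq_abs] at hC
      exact hC.trans (le_abs_self C)
    have b1 := b 1 g₁ C₁ (by rw [add_comm 1 i]; exact hg₁) (hC₁ _ ⟨t1.le, t2⟩)
    have b2 := b 2 g₂ C₂ (by rw [show 2 + i = i + 1 + 1 by omega]; exact hg₂) (hC₂ _ ⟨t1.le, t2⟩)
    have q1 : 0 ≤ seq (k + N) * (((2 + i).descFactorial i : ℝ) * |C₂|) := by positivity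
    have q2 : 0 ≤ seq (k + N) * (((1 + i).descFactorial i : ℝ) * |C₁|) := by positivity
    rw [hCb, mul_add]
    constructor <;> linarith
  set C₀ : ℝ := Cb / ((i.descFactorial i : ℝ) * (B / 2)) with hC₀
  have hCb0 : 0 ≤ Cb := by rw [hCb]; positivity
  have key : ∀ k, seq (k + N) * Cb ≤ C₀ * |(F k).coeff 0| := fun k => by
    rw [abs_of_pos (c0pos k), hC₀,
      div_mul_eq_mul_div Cb _ ((F k).coeff 0),
      le_div_iff₀ (show (0 : ℝ) < (i.descFactorial i : ℝ) * (B / 2) by positivity)]
    calc seq (k + N) * Cb * ((i.descFactorial i : ℝ) * (B / 2))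
        = Cb * ((i.descFactorial i : ℝ) * (seq (k + N) * (B / 2))) := by ring
      _ ≤ _ := mul_le_mul_of_nonneg_left (c0low k) hCb0
  have hseqN : Tendsto (fun k => seq (k + N)) atTop (𝓝 0) :=
    hseq0.comp (tendsto_add_atTop_nat N)
  have hlim : Tendsto (fun k => (F k).coeff 0) atTop (𝓝 0) := by
    simp only [c0]
    simpa using (hseqN.mul ((g.continuous.tendsto 0).comp hseqN)).const_mul
      (i.descFactorial i : ℝ)
  have hall := limit_zero (d := H.d)
    (fun k => splits_iterate_derivative (H.splits_core (H.shift_core hx (hs _).1) h) i)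
    (fun k => by
      refine (Polynomial.natDegree_iterate_derivative _ i).trans ?_
      have := H.natDegree_line (x + seq (k + N) • H.e) h
      omega)
    (fun k => (c0pos k).ne') (fun k => (bound k).1.trans (key k))
    (fun k => (bound k).2.trans (key k)) hlim
  ext j
  rw [Polynomial.coeff_zero]
  rcases Nat.lt_or_ge j i with hj | hj
  · exact hlow j (by omega) h
  obtain ⟨l, rfl⟩ : ∃ l, j = l + i := ⟨j - i, by omega⟩
  have l2 : Tendsto (fun k => (F k).coeff l) atTop
      (𝓝 (((l + i).descFactorial i : ℝ) * cf H.p (l + i) x h)) := by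
    simp only [Fcoeff, ← base_line]
    have h3 := ((line (basePoly H.p (l + i) h) x H.e).continuous.tendsto 0).comp hseqN
    rw [base_line, zero_smul, add_zero] at h3
    exact h3.const_mul _
  have := tendsto_nhds_unique l2 (hall l)
  exact (mul_eq_zero.1 this).resolve_left
    (by exact_mod_cast (Nat.descFactorial_pos.2 (Nat.le_add_left i l)).ne')

/-- Rigidity at a smooth boundary point. -/
theorem Smooth.line_eq_zero {H : Hyp n} {x h : Fin n → ℝ} (hx : H.Smooth x)
    (h1 : der H.p x h = 0) (h2 : cf H.p 2 x h = 0) : line H.p x h = 0 := by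
  refine H.line_eq_zero hx.1 le_rfl (fun j hj v => ?_) ?_ ((cf_one _ _ _).trans h1) h2
  · obtain rfl : j = 0 := by omega
    rw [cf_zero, hx.2.1]
  · rw [der_dirPoly]
    refine lt_of_lt_of_eq hx.2.2 ?_
    exact Finset.sum_congr rfl fun i _ => by rw [cf_zero]

/-- A zero of the tangent functional gives a flat segment. -/
theorem Smooth.segment {H : Hyp n} {x a : Fin n → ℝ} (hx : H.Smooth x) (ha : a ∈ H.K)
    (hS : der H.p x a = 0) : line H.p x (a - x) = 0 := by
  have hd : der H.p x (a - x) = 0 := by rw [der_sub, hS, H.der_self, hx.2.1, mul_zero, sub_zero]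
  refine hx.line_eq_zero hd (le_antisymm (hx.cf_two_nonpos hd) ?_)
  refine low_nonneg (fun j hj => ?_) ?_
  · interval_cases j
    · exact (cf_zero _ _ _).trans hx.2.1
    · exact (cf_one _ _ _).trans hd
  · filter_upwards [Ioo_mem_nhdsGT (zero_lt_one' ℝ)] with t ht
    rw [eval_line]
    refine H.K_nonneg ?_
    have := H.convex_K hx.1 ha (show (0 : ℝ) ≤ 1 - t by linarith [ht.2]) ht.1.le (by ring)
    convert this using 1
    module

lemma line_zero_eval {x h : Fin n → ℝ} (hl : line H.p x h = 0) (t : ℝ) :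
    eval (x + t • h) H.p = 0 := by rw [← eval_line, hl, Polynomial.eval_zero]

/-- A flat segment ends at a singular point. -/
theorem flat_exit {x h : Fin n → ℝ} (hx : x ∈ H.K) (hl : line H.p x h = 0) (hh : h ∉ H.K) :
    ∃ t : ℝ, 0 ≤ t ∧ H.Singular (x + t • h) ∧ ∀ s, t < s → x + s • h ∉ H.K := by
  set I : Set ℝ := {t | 0 ≤ t ∧ x + t • h ∈ H.K} with hI
  have hne : I.Nonempty := ⟨0, le_rfl, by simpa using hx⟩
  have hclosed : IsClosed I := isClosed_Ici.inter (H.isClosed_K.preimage (by fun_prop))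
  have hbdd : BddAbove I := by
    by_contra hb
    refine hh ?_
    rw [bddAbove_def] at hb
    push Not at hb
    choose t ht htk using fun k : ℕ => hb (k + 1)
    have htpos : ∀ k, 0 < t k := fun k => lt_trans (by positivity) (htk k)
    have hinv : Tendsto (fun k => (t k)⁻¹) atTop (𝓝 0) := by
      refine tendsto_inv_atTop_zero.comp (tendsto_atTop_mono (fun k => (htk k).le) ?_)
      exact tendsto_atTop_add_const_right _ 1 tendsto_natCast_atTop_atTop
    refine H.isClosed_K.mem_of_tendsto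
      (show Tendsto (fun k => (t k)⁻¹ • (x + t k • h)) atTop (𝓝 h) from ?_)
      (Eventually.of_forall fun k => H.smul_mem (ht k).2 (inv_pos.2 (htpos k)))
    simp_rw [smul_add, smul_smul, fun k => inv_mul_cancel₀ (htpos k).ne', one_smul]
    simpa using (hinv.smul_const x).add_const h
  obtain ⟨h0, hmem⟩ := hclosed.csSup_mem hne hbdd
  refine ⟨sSup I, h0, ?_, fun s hs hc => ?_⟩
  · rcases H.smooth_or hmem (H.line_zero_eval hl _) with hsm | hsg
    · exfalso
      have hnear : Tendsto (fun s : ℝ => x + s • h) (𝓝 (sSup I)) (𝓝 (x + sSup I • h)) :=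
        (((continuous_id (X := ℝ)).smul continuous_const).const_add x).tendsto _
      obtain ⟨s, hs, hgt⟩ := (((hnear.eventually hsm.local_mem).filter_mono
        nhdsWithin_le_nhds).and (self_mem_nhdsWithin (s := Set.Ioi (sSup I)))).exists
      exact absurd (le_csSup hbdd ⟨h0.trans (Set.mem_Ioi.1 hgt).le,
        hs.1 (H.line_zero_eval hl s).ge⟩) (not_le.2 hgt)
    · exact hsg
  · exact absurd (le_csSup hbdd ⟨h0.trans hs.le, hc⟩) (not_le.2 hs)

end Hyp

end Vale.Agent.P256.Gen
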