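import Vale.Agent.P256.Near
import Vale.Agent.P256.Gen.Expand

/-!
Local sums of squares from a quadratic form in finite rank kernels, positive on the kernel of
exact linear relations between them.
-/

namespace Vale.Agent.P256

open Filter Topology
open scoped BigOperators

set_option linter.unusedSectionVars false

variable {α β : Type*}

lemma sosOn_comap {γ δ : Type*} {A : Set α} {B : Set β} {S : α → β → ℝ} (h : SOSOn A B S)
    (φ : γ → α) (ψ : δ → β) {A' : Set γ} {B' : Set δ} (hA : ∀ a ∈ A', φ a ∈ A)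
    (hB : ∀ b ∈ B', ψ b ∈ B) : SOSOn A' B' (fun a b => S (φ a) (ψ b)) := by
  obtain ⟨N, G, hG, hS⟩ := h
  refine ⟨N, fun k a b => G k (φ a) (ψ b), fun k => ?_, fun a ha b hb =>
    hS _ (hA a ha) _ (hB b hb)⟩
  obtain ⟨r, f, g, hfg⟩ := hG k
  exact ⟨r, fun j => f j ∘ φ, fun j => g j ∘ ψ, fun a b => hfg _ _⟩

/-- Swapping the two sides. -/
lemma SOSOn.swap {A : Set α} {B : Set β} {S : α → β → ℝ} (h : SOSOn A B S) :
    SOSOn B A (fun b a => S a b) := by
  obtain ⟨N, G, hG, hS⟩ := h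
  refine ⟨N, fun k b a => G k a b, fun k => ?_, fun b hb a ha => hS a ha b hb⟩
  obtain ⟨r, f, g, hfg⟩ := hG k
  exact ⟨r, g, f, fun b a => by beta_reduce; rw [hfg]; exact Finset.sum_congr rfl fun j _ => mul_comm _ _⟩

variable [TopologicalSpace α] [TopologicalSpace β] {a₀ : α} {b₀ : β}

/-- Polynomials in continuous one-sided functions are nice kernels. -/
lemma niceAt_eval {σ τ : Type*} (K : MvPolynomial (σ ⊕ τ) ℝ) (φ : σ → α → ℝ) (ψ : τ → β → ℝ)
    (hφ : ∀ i, ContinuousAt (φ i) a₀) (hψ : ∀ j, ContinuousAt (ψ j) b₀) :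
    NiceAt a₀ b₀ (fun a b =>
      MvPolynomial.eval (Sum.elim (fun i => φ i a) (fun j => ψ j b)) K) := by
  induction K using MvPolynomial.induction_on with
  | C c => exact niceAt_congr (niceAt_const c) (by simp)
  | add f g hf hg => exact niceAt_congr (hf.add hg) (by simp)
  | mul_X g k hg =>
    rcases k with i | j
    · exact niceAt_congr (hg.mul (niceAt_left (hφ i))) (by simp)
    · exact niceAt_congr (hg.mul (niceAt_right (hψ j))) (by simp)

/-- A nice kernel vanishing at the base point is small nearby. -/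
lemma NiceAt.bdd_of_zero {S : α → β → ℝ} (hS : NiceAt a₀ b₀ S) (h0 : S a₀ b₀ = 0) {ε : ℝ}
    (hε : 0 < ε) : ∃ U ∈ 𝓝 a₀, ∃ V ∈ 𝓝 b₀, Bdd U V ε S := by
  obtain ⟨r, f, g, hf, hg, hS⟩ := hS
  set K : ℝ := 1 + ∑ j, (|f j a₀| + |g j b₀|) with hK
  have hsum0 : 0 ≤ ∑ j, (|f j a₀| + |g j b₀|) := Finset.sum_nonneg fun j _ => by positivity
  have hK1 : 1 ≤ K := by rw [hK]; linarith
  have hKf : ∀ j, |f j a₀| ≤ K ∧ |g j b₀| ≤ K := by
    intro j
    have := Finset.single_le_sum (f := fun j => |f j a₀| + |g j b₀|)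
      (fun j _ => by positivity) (Finset.mem_univ j)
    have h1 := abs_nonneg (f j a₀)
    have h2 := abs_nonneg (g j b₀)
    constructor <;> (rw [hK]; linarith)
  set δ : ℝ := min 1 (ε / ((3 * r + 1) * K)) with hδ
  have hδpos : 0 < δ := lt_min one_pos (by positivity)
  have hU : ∀ᶠ a in 𝓝 a₀, ∀ j, |f j a - f j a₀| ≤ δ := by
    rw [eventually_all]
    intro j
    filter_upwards [Metric.tendsto_nhds.1 (hf j) δ hδpos] with a ha
    exact le_of_lt (by simpa [Real.dist_eq] using ha)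
  have hV : ∀ᶠ b in 𝓝 b₀, ∀ j, |g j b - g j b₀| ≤ δ := by
    rw [eventually_all]
    intro j
    filter_upwards [Metric.tendsto_nhds.1 (hg j) δ hδpos] with b hb
    exact le_of_lt (by simpa [Real.dist_eq] using hb)
  refine ⟨_, hU, _, hV, bdd_congr ((bdd_fintype
    (Sum.elim (fun j a => f j a - f j a₀) (fun j _ => f j a₀))
    (Sum.elim g (fun j b => g j b - g j b₀))
    (Sum.elim (fun _ : Fin r => δ) (fun _ : Fin r => K))
    (Sum.elim (fun _ : Fin r => K + δ) (fun _ : Fin r => δ))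
    (fun j => ?_) (fun j => ?_) (fun a ha j => ?_) (fun b hb j => ?_)).mono ?_) fun a b => ?_⟩
  · cases j <;> simp <;> linarith
  · cases j <;> simp <;> linarith
  · rcases j with j | j
    · exact ha j
    · exact (hKf j).1
  · rcases j with j | j
    · simp only [Sum.elim_inl]
      have := abs_sub_abs_le_abs_sub (g j b) (g j b₀)
      linarith [hb j, (hKf j).2]
    · exact hb j
  · simp only [Fintype.sum_sum_type, Sum.elim_inl, Sum.elim_inr, Finset.sum_const,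
      Finset.card_univ, Fintype.card_fin, nsmul_eq_mul]
    have h2 : δ * ((3 * r + 1) * K) ≤ ε := by
      have := min_le_right (1 : ℝ) (ε / ((3 * r + 1) * K))
      rw [← hδ, le_div_iff₀ (by positivity)] at this
      exact this
    have h1 : δ * δ ≤ δ * K :=
      mul_le_mul_of_nonneg_left ((min_le_left _ _).trans hK1) hδpos.le
    nlinarith [mul_le_mul_of_nonneg_left h1 (Nat.cast_nonneg (α := ℝ) r), mul_pos hδpos
      (lt_of_lt_of_le one_pos hK1)]
  · have e : ∑ j, f j a₀ * g j b₀ = 0 := by rw [← hS, h0]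
    simp only [Fintype.sum_sum_type, Sum.elim_inl, Sum.elim_inr, sub_mul, mul_sub,
      Finset.sum_sub_distrib, hS a b, e]
    ring

variable {ι κ : Type*} [Fintype ι] [Fintype κ]

/-- A form positive on a kernel becomes positive after adding a multiple of the squares. -/
lemma exists_penalty (N : ι → ι → ℝ) (L : κ → ι → ℝ)
    (h : ∀ ξ : ι → ℝ, ξ ≠ 0 → (∀ k, ∑ i, L k i * ξ i = 0) → 0 < ∑ i, ∑ j, N i j * ξ i * ξ j) :
    ∃ μ η : ℝ, 0 < η ∧ ∀ ξ : ι → ℝ, η * ∑ i, ξ i ^ 2 ≤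
      (∑ i, ∑ j, N i j * ξ i * ξ j) + μ * ∑ k, (∑ i, L k i * ξ i) ^ 2 := by
  set Q : (ι → ℝ) → ℝ := fun ξ => ∑ i, ∑ j, N i j * ξ i * ξ j with hQ
  set P : (ι → ℝ) → ℝ := fun ξ => ∑ k, (∑ i, L k i * ξ i) ^ 2 with hP
  have hQc : Continuous Q := by fun_prop
  have hPc : Continuous P := by fun_prop
  set S : Set (ι → ℝ) := {ξ | ∑ i, ξ i ^ 2 = 1} with hS
  have hSc : IsCompact S := by
    refine (isCompact_closedBall (0 : ι → ℝ) 1).of_isClosed_subset
      (isClosed_eq (by fun_prop) continuous_const) fun ξ hξ => ?_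
    rw [mem_closedBall_zero_iff, pi_norm_le_iff_of_nonneg zero_le_one]
    intro i
    have hh : ∑ j, ξ j ^ 2 = 1 := hξ
    have : ξ i ^ 2 ≤ 1 := hh ▸
      Finset.single_le_sum (f := fun j => ξ j ^ 2) (fun j _ => sq_nonneg _) (Finset.mem_univ i)
    rw [Real.norm_eq_abs, abs_le]
    constructor <;> nlinarith
  have hne : ∀ ξ ∈ S, ξ ≠ 0 := fun ξ hξ h0 => by
    have hh : ∑ j, ξ j ^ 2 = 1 := hξ
    simp [h0] at hh
  obtain ⟨μ, hμ⟩ : ∃ μ : ℝ, ∀ ξ ∈ S, 0 < Q ξ + μ * P ξ := by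
    by_contra hcon
    push Not at hcon
    choose ξ hξS hξ using fun k : ℕ => hcon k
    obtain ⟨ξ₀, h₀S, φ, hφ, hlim⟩ := hSc.tendsto_subseq hξS
    obtain ⟨C, hC⟩ := hSc.bddBelow_image hQc.continuousOn
    have hP0 : P ξ₀ = 0 := by
      refine le_antisymm ?_ (Finset.sum_nonneg fun k _ => sq_nonneg _)
      refine le_of_tendsto_of_tendsto ((hPc.tendsto ξ₀).comp hlim)
        (tendsto_const_nhds.div_atTop (tendsto_natCast_atTop_atTop.comp hφ.tendsto_atTop) :
          Tendsto (fun k => (-C) / ((φ k : ℕ) : ℝ)) atTop (𝓝 0)) ?_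
      filter_upwards [eventually_gt_atTop 0] with k hk
      have hk' : (0 : ℝ) < (φ k : ℕ) := by
        exact_mod_cast lt_of_lt_of_le hk (hφ.id_le k)
      simp only [Function.comp_apply]
      rw [le_div_iff₀ hk']
      have h1 := hξ (φ k)
      have h2 : C ≤ Q (ξ (φ k)) := hC ⟨_, hξS _, rfl⟩
      linarith [mul_comm (P (ξ (φ k))) ((φ k : ℕ) : ℝ)]
    have hQ0 : Q ξ₀ ≤ 0 := by
      refine le_of_tendsto ((hQc.tendsto ξ₀).comp hlim) (Eventually.of_forall fun k => ?_)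
      have : 0 ≤ (φ k : ℝ) * P (ξ (φ k)) :=
        mul_nonneg (Nat.cast_nonneg _) (Finset.sum_nonneg fun k _ => sq_nonneg _)
      simp only [Function.comp_apply]
      linarith [hξ (φ k)]
    refine hQ0.not_gt (h ξ₀ (hne _ h₀S) fun k => ?_)
    have := (Finset.sum_eq_zero_iff_of_nonneg fun k _ => sq_nonneg _).1 hP0 k (Finset.mem_univ k)
    simpa using this
  rcases S.eq_empty_or_nonempty with hSe | hSne
  · refine ⟨0, 1, one_pos, fun ξ => ?_⟩
    have hξ : ξ = 0 := by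
      by_contra hne'
      have hpos : 0 < ∑ i, ξ i ^ 2 := by
        obtain ⟨i, hi⟩ := Function.ne_iff.1 hne'
        exact lt_of_lt_of_le (sq_pos_of_ne_zero hi)
          (Finset.single_le_sum (f := fun j => ξ j ^ 2) (fun j _ => sq_nonneg _) (Finset.mem_univ i))
      have : (fun i => ξ i / Real.sqrt (∑ i, ξ i ^ 2)) ∈ S := by
        simp [hS, div_pow, ← Finset.sum_div, Real.sq_sqrt hpos.le, hpos.ne']
      rw [hSe] at this
      exact this
    simp [hξ]
  obtain ⟨ξ₀, hξ₀, hmin⟩ := hSc.exists_isMinOn hSne (hQc.add (hPc.const_mul μ)).continuousOn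
  refine ⟨μ, Q ξ₀ + μ * P ξ₀, hμ _ hξ₀, fun ξ => ?_⟩
  rcases eq_or_ne (∑ i, ξ i ^ 2) 0 with h0 | h0
  · have : ξ = 0 := funext fun i => by
      have := (Finset.sum_eq_zero_iff_of_nonneg fun j _ => sq_nonneg (ξ j)).1 h0 i (Finset.mem_univ i)
      simpa using this
    simp [this]
  have hpos : 0 < ∑ i, ξ i ^ 2 := lt_of_le_of_ne (Finset.sum_nonneg fun i _ => sq_nonneg _) h0.symm
  set s := Real.sqrt (∑ i, ξ i ^ 2) with hs
  have hs0 : 0 < s := Real.sqrt_pos.2 hpos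
  have hmem : (fun i => ξ i / s) ∈ S := by
    simp [hS, div_pow, ← Finset.sum_div, hs, Real.sq_sqrt hpos.le, hpos.ne']
  have h1 : Q ξ₀ + μ * P ξ₀ ≤ Q (fun i => ξ i / s) + μ * P (fun i => ξ i / s) := hmin hmem
  have e : Q (fun i => ξ i / s) = Q ξ / s ^ 2 ∧ P (fun i => ξ i / s) = P ξ / s ^ 2 := by
    constructor <;> simp only [hQ, hP, Finset.sum_div]
    · exact Finset.sum_congr rfl fun i _ => Finset.sum_congr rfl fun j _ => by field_simp
    · refine Finset.sum_congr rfl fun k _ => ?_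
      rw [← div_pow, Finset.sum_div]
      congr 1
      exact Finset.sum_congr rfl fun i _ => by ring
  rw [e.1, e.2, mul_div_assoc', ← add_div, le_div_iff₀ (by positivity), hs,
    Real.sq_sqrt hpos.le] at h1
  exact h1

/-- The master cell: a quadratic form in finite rank kernels. -/
theorem quad_sos (v : ι → α → β → ℝ) (hv : ∀ i, FinRank (v i)) (N : ι → ι → α → β → ℝ)
    (hN : ∀ i j, NiceAt a₀ b₀ (N i j)) (L : κ → ι → α → β → ℝ)
    (hL : ∀ k i, NiceAt a₀ b₀ (L k i))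
    (hpd : ∀ ξ : ι → ℝ, ξ ≠ 0 → (∀ k, ∑ i, L k i a₀ b₀ * ξ i = 0) →
      0 < ∑ i, ∑ j, N i j a₀ b₀ * ξ i * ξ j)
    {A : Set α} {B : Set β} (hrel : ∀ a ∈ A, ∀ b ∈ B, ∀ k, ∑ i, L k i a b * v i a b = 0) :
    ∃ U ∈ 𝓝 a₀, ∃ V ∈ 𝓝 b₀,
      SOSOn (U ∩ A) (V ∩ B) (fun a b => ∑ i, ∑ j, N i j a b * v i a b * v j a b) := by
  classical
  obtain ⟨μ, η, hη, hbound⟩ := exists_penalty (fun i j => N i j a₀ b₀) (fun k i => L k i a₀ b₀) hpd
  let F : ι → ι → α → β → ℝ := fun i j a b =>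
    1 / 2 * (N i j a b + N j i a b) + μ * ∑ k, L k i a b * L k j a b
  have hF : ∀ i j, NiceAt a₀ b₀ (F i j) := fun i j =>
    (((niceAt_const (1 / 2 : ℝ)).mul ((hN i j).add (hN j i))).add
      ((niceAt_const μ).mul (niceAt_sum Finset.univ fun k _ => (hL k i).mul (hL k j))))
  let C : Matrix ι ι ℝ := fun i j => F i j a₀ b₀
  have hT : ∀ i j, NiceAt a₀ b₀ (fun a b => F i j a b - C i j) := fun i j =>
    (hF i j).sub (niceAt_const _)
  set ε := η / (Fintype.card ι + 1) with hε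
  have hεpos : 0 < ε := by positivity
  choose U hU V hV hUV using fun i j => (hT i j).bdd_of_zero (by simp [C]) hεpos
  have key : ∀ (ξ : ι → ℝ) a b, ∑ i, ∑ j, F i j a b * ξ i * ξ j =
      (∑ i, ∑ j, N i j a b * ξ i * ξ j) + μ * ∑ k, (∑ i, L k i a b * ξ i) ^ 2 := by
    intro ξ a b
    have e1 : ∑ i, ∑ j, N j i a b * ξ i * ξ j = ∑ i, ∑ j, N i j a b * ξ i * ξ j := by
      rw [Finset.sum_comm]
      exact Finset.sum_congr rfl fun i _ => Finset.sum_congr rfl fun j _ => by ring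
    have e2 : ∑ k, (∑ i, L k i a b * ξ i) ^ 2 =
        ∑ i, ∑ j, (∑ k, L k i a b * L k j a b) * ξ i * ξ j := by
      simp_rw [sq, Finset.sum_mul_sum, Finset.sum_mul]
      rw [Finset.sum_comm]
      refine Finset.sum_congr rfl fun i _ => ?_
      rw [Finset.sum_comm]
      exact Finset.sum_congr rfl fun j _ => Finset.sum_congr rfl fun k _ => by ring
    rw [e2]
    simp only [F, add_mul, mul_assoc (1 / 2 : ℝ), mul_assoc μ, Finset.sum_add_distrib,
      ← Finset.mul_sum]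
    rw [e1]
    ring
  refine ⟨⋂ i, ⋂ j, U i j, iInter_mem.2 fun i => iInter_mem.2 fun j => hU i j,
    ⋂ i, ⋂ j, V i j, iInter_mem.2 fun i => iInter_mem.2 fun j => hV i j, ?_⟩
  have hb : ∀ i j, Bdd ((⋂ i, ⋂ j, U i j) ∩ A) ((⋂ i, ⋂ j, V i j) ∩ B) ε
      (fun a b => F i j a b - C i j) := by
    intro i j
    obtain ⟨r, f, g, c, d, h1, h2, h3, h4, h5, h6⟩ := hUV i j
    exact ⟨r, f, g, c, d, h1, h2, fun a ha => h3 a (Set.mem_iInter.1 (Set.mem_iInter.1 ha.1 i) j),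
      fun b hb => h4 b (Set.mem_iInter.1 (Set.mem_iInter.1 hb.1 i) j), h5, h6⟩
  refine sosOn_congr (sosOn_quadForm v hv (fun _ => C) η (fun b _ => ?_) (fun b _ ξ => ?_)
    (fun i j a b => F i j a b - C i j) hb ?_) fun a ha b hb' => ?_
  · refine Matrix.IsSymm.ext fun i j => ?_
    simp only [C, F]
    rw [add_comm (N j i a₀ b₀)]
    congr 2
    exact Finset.sum_congr rfl fun k _ => mul_comm _ _
  · rw [key]; exact hbound ξ
  · rw [hε, mul_div, div_le_iff₀ (by positivity)]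
    nlinarith
  · 
    simp_rw [show ∀ i j, C i j + (F i j a b - C i j) = F i j a b from fun i j => by ring]
    rw [key]
    simp [hrel a ha.2 b hb'.2]

/-- A form with a positive definite value at the base point. -/
theorem quad_sos_pd (v : ι → α → β → ℝ) (hv : ∀ i, FinRank (v i)) (N : ι → ι → α → β → ℝ)
    (hN : ∀ i j, NiceAt a₀ b₀ (N i j))
    (hpd : ∀ ξ : ι → ℝ, ξ ≠ 0 → 0 < ∑ i, ∑ j, N i j a₀ b₀ * ξ i * ξ j) :
    ∃ U ∈ 𝓝 a₀, ∃ V ∈ 𝓝 b₀,
      SOSOn U V (fun a b => ∑ i, ∑ j, N i j a b * v i a b * v j a b) := by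
  obtain ⟨U, hU, V, hV, h⟩ := quad_sos (κ := Empty) v hv N hN (fun k => k.elim) (fun k => k.elim)
    (fun ξ hξ _ => hpd ξ hξ) (A := Set.univ) (B := Set.univ) (fun _ _ _ _ k => k.elim)
  exact ⟨U, hU, V, hV, sosOn_mono h (by simp) (by simp)⟩

end Vale.Agent.P256
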