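import Vale.Agent.P256.Gen.Tangent
import Vale.Agent.P256.Shadow

/-!
Removing the lineality space: hyperbolicity cones with only ordinary singular rays reduce to pointed
ones; products of such polynomials.
-/

namespace Vale.Agent.P256

open MvPolynomial

/-- Every singular ray of the cone is ordinary: at a singular point `s` of `p` in the cone outside
the lineality space, the singular points in the hyperbolicity cone of the tangent cone `T` of `p`
at `s` (the lowest nonzero homogeneous part of `p (s + ·)`) lie in `ℝ s` plus the lineality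
space. -/
def OrdinarySingularRays {n : ℕ} (p : MvPolynomial (Fin n) ℝ) (e : Fin n → ℝ) : Prop :=
  ∀ s ∈ hypCone p e, -s ∉ hypCone p e → (∀ i, eval s (pderiv i p) = 0) →
    ∀ m : ℕ, homogeneousComponent m (aeval (fun i => C (s i) + X i) p) ≠ 0 →
      (∀ j < m, homogeneousComponent j (aeval (fun i => C (s i) + X i) p) = 0) →
      ∀ v ∈ hypCone (homogeneousComponent m (aeval (fun i => C (s i) + X i) p)) e,
        (∀ i, eval v (pderiv i (homogeneousComponent m (aeval (fun i => C (s i) + X i) p))) = 0) →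
        ∃ c : ℝ, v - c • s ∈ hypCone p e ∧ -(v - c • s) ∈ hypCone p e

namespace Gen

open scoped Polynomial

variable {n : ℕ}

lemma eval_shift (f : MvPolynomial (Fin n) ℝ) (l v : Fin n → ℝ) :
    eval v (aeval (fun i => C (l i) + X i) f) = eval (l + v) f := by
  induction f using MvPolynomial.induction_on with
  | C c => simp
  | add a b ha hb => simp only [map_add, ha, hb]
  | mul_X a k ha => simp [-MvPolynomial.aeval_eq_bind₁, ha]

lemma eval_hc_shift (f : MvPolynomial (Fin n) ℝ) (s v : Fin n → ℝ) (k : ℕ) :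
    eval v (homogeneousComponent k (aeval (fun i => C (s i) + X i) f)) = cf f k s v := by
  classical
  set q := aeval (fun i => C (s i) + X i) f with hq
  have hline : line f s v = ∑ j ∈ Finset.range (q.totalDegree + 1),
      Polynomial.C (eval v (homogeneousComponent j q)) * Polynomial.X ^ j := by
    refine Polynomial.funext fun t => ?_
    rw [eval_line, ← eval_shift, ← hq]
    conv_lhs => rw [← sum_homogeneousComponent q, map_sum]
    rw [Polynomial.eval_finsetSum]
    refine Finset.sum_congr rfl fun j _ => ?_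
    have := aeval_smul_of_homogeneous (homogeneousComponent_isHomogeneous j q) t v
    simp only [aeval_eq_eval] at this
    rw [Polynomial.eval_mul, Polynomial.eval_C, Polynomial.eval_pow, Polynomial.eval_X, mul_comm]
    exact this
  rw [cf, hline, Polynomial.finsetSum_coeff]
  simp only [Polynomial.coeff_C_mul_X_pow, Finset.sum_ite_eq, Finset.mem_range]
  split_ifs with h
  · rfl
  · rw [homogeneousComponent_eq_zero k q (by omega), map_zero]

lemma eval_pderiv_eq_der (f : MvPolynomial (Fin n) ℝ) (x : Fin n → ℝ) (i : Fin n) :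
    eval x (pderiv i f) = der f x (Pi.single i 1) := by
  classical
  rw [der, Finset.sum_eq_single i (fun j _ hj => by rw [Pi.single_eq_of_ne hj, mul_zero])
    (fun h => absurd (Finset.mem_univ i) h), Pi.single_eq_same, mul_one]

namespace Hyp

variable (H : Hyp n)

/-- The lineality space. -/
def lineal : Submodule ℝ (Fin n → ℝ) where
  carrier := {x | x ∈ H.K ∧ -x ∈ H.K}
  zero_mem' := ⟨H.zero_mem, by rw [neg_zero]; exact H.zero_mem⟩
  add_mem' := by
    rintro x y ⟨hx, hx'⟩ ⟨hy, hy'⟩
    exact ⟨H.add_mem hx hy, by rw [neg_add]; exact H.add_mem hx' hy'⟩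
  smul_mem' := by
    rintro c x ⟨hx, hx'⟩
    rcases lt_trichotomy c 0 with h | h | h
    · refine ⟨?_, ?_⟩
      · have := H.smul_mem hx' (neg_pos.2 h)
        rwa [smul_neg, neg_smul, neg_neg] at this
      · have := H.smul_mem hx (neg_pos.2 h)
        rwa [neg_smul] at this
    · subst h
      refine ⟨?_, ?_⟩ <;> simpa using H.zero_mem
    · refine ⟨H.smul_mem hx h, ?_⟩
      rw [← smul_neg]; exact H.smul_mem hx' h

lemma mem_lineal {x : Fin n → ℝ} : x ∈ H.lineal ↔ x ∈ H.K ∧ -x ∈ H.K := Iff.rfl

/-- The polynomial is invariant under the lineality space. -/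
lemma eval_add_lineal {l : Fin n → ℝ} (hl : l ∈ H.lineal) (x : Fin n → ℝ) :
    eval (x + l) H.p = eval x H.p := by
  have key : ∀ y ∈ H.K, eval (y + l) H.p = eval y H.p := fun y hy => by
    refine le_antisymm ?_ (H.mono hy hl.1)
    have := H.mono (H.add_mem hy hl.1) hl.2
    rwa [add_neg_cancel_right] at this
  have h := eval_zero_of_eventually (f := aeval (fun i => C (l i) + X i) H.p - H.p) (c := H.e) (by
    filter_upwards [H.isOpen_core.mem_nhds H.e_mem_core] with y hy
    rw [map_sub, eval_shift, add_comm, key y (H.core_subset hy), sub_self]) x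
  rw [map_sub, eval_shift, sub_eq_zero] at h
  rw [add_comm, h]

lemma mult_congr {k : ℕ} (H' : Hyp k) {x : Fin n → ℝ} {y : Fin k → ℝ}
    (h : ∀ j, cf H'.p j y H'.e = cf H.p j x H.e) : H'.mult y = H.mult x := by
  rcases lt_trichotomy (H'.mult y) (H.mult x) with hlt | heq | hgt
  · exact absurd ((h _).trans (H.mult_low hlt)) (H'.mult_ne y)
  · exact heq
  · exact absurd ((h _).symm.trans (H'.mult_low hgt)) (H.mult_ne x)

end Hyp

end Gen

open Gen in
/-- Cones with ordinary singular rays are shadows as soon as the pointed ones are. -/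
theorem shadow_of_ordinary {n d : ℕ} (p : MvPolynomial (Fin n) ℝ) (e : Fin n → ℝ)
    (hp : p.IsHomogeneous d) (hh : IsHyperbolic p e) (hord : OrdinarySingularRays p e)
    (hSh : ∀ {k : ℕ} (H : Gen.Hyp k), H.Pointed → H.Ordinary → IsSpectrahedralShadow H.K) :
    IsSpectrahedralShadow (hypCone p e) := by
  classical
  let H : Gen.Hyp n := ⟨p, e, d, hp, hh⟩
  have hcone : hypCone p e = H.K := H.hypCone_eq
  obtain ⟨W, hW⟩ := Submodule.exists_isCompl H.lineal
  let φ := (Module.finBasis ℝ W).equivFun
  let ι : (Fin (Module.finrank ℝ W) → ℝ) →ₗ[ℝ] (Fin n → ℝ) := W.subtype.comp φ.symm.toLinearMap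
  let π : (Fin n → ℝ) →ₗ[ℝ] (Fin (Module.finrank ℝ W) → ℝ) :=
    φ.toLinearMap.comp (W.projectionOnto H.lineal hW.symm)
  have hπι : ∀ y, π (ι y) = y := fun y => by
    simp [π, ι, Submodule.projectionOnto_apply_left hW.symm]
  have hdiff : ∀ x, x - ι (π x) ∈ H.lineal := fun x => by
    rw [← Submodule.projectionOnto_apply_eq_zero_iff hW.symm, map_sub]
    simp [π, ι, Submodule.projectionOnto_projection hW.symm]
  have hι : ∀ y, ι y ∈ H.lineal → y = 0 := fun y hy => by
    have hmem : ι y ∈ W := by simp [ι]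
    have h0 : ι y = 0 := (Submodule.disjoint_def.1 hW.disjoint) _ hy hmem
    rw [← hπι y, h0, map_zero]
  have hinv : ∀ x, eval (ι (π x)) p = eval x p := fun x => by
    have := H.eval_add_lineal (hdiff x) (ι (π x))
    rw [add_sub_cancel] at this
    exact this.symm
  let p' : MvPolynomial (Fin (Module.finrank ℝ W)) ℝ :=
    aeval (fun i => ∑ k, C (ι (Pi.single k 1) i) * X k) p
  have hev : ∀ y, eval y p' = eval (ι y) p := fun y => by
    have e1 : ∀ i, eval y (∑ k, C (ι (Pi.single k 1) i) * X k :
        MvPolynomial (Fin (Module.finrank ℝ W)) ℝ) = ι y i := fun i => by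
      conv_rhs => rw [pi_eq_sum_univ' y, map_sum, Finset.sum_apply]
      simp [mul_comm]
    suffices h : ∀ f : MvPolynomial (Fin n) ℝ,
        eval y (aeval (fun i => (∑ k, C (ι (Pi.single k 1) i) * X k :
          MvPolynomial (Fin (Module.finrank ℝ W)) ℝ)) f) = eval (ι y) f from h p
    intro f
    induction f using MvPolynomial.induction_on with
    | C c => simp
    | add a b ha hb => simp only [map_add, ha, hb]
    | mul_X a k ha => rw [map_mul, map_mul, map_mul, ha, aeval_X, e1, eval_X]
  have hevπ : ∀ x, eval (π x) p' = eval x p := fun x => by rw [hev, hinv]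
  have hhom : p'.IsHomogeneous d := isHomogeneous_of_scale fun c v => by
    rw [hev, hev, map_smul]
    exact H.smul_eval c (ι v)
  have hline : ∀ y x, line p' y (π x) = line p (ι y) x := fun y x =>
    Polynomial.funext fun t => by
      rw [eval_line, eval_line]
      have := hevπ (ι y + t • x)
      rwa [map_add, map_smul, hπι] at this
  let H' : Gen.Hyp (Module.finrank ℝ W) :=
    { p := p'
      e := π e
      d := d
      hom := hhom
      hp := ⟨by rw [hevπ]; exact hh.1, fun y z hz => hh.2 (ι y) z (by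
        have h := aeval_line p' (-y) (π e) z
        rw [hline, map_neg, aeval_line] at h
        have e1 : (fun i => z * (π e i : ℂ) - (y i : ℂ)) =
            fun i => ((-y) i : ℂ) + z * (π e i : ℂ) := by ext i; simp; ring
        have e2 : (fun i => z * (e i : ℂ) - (ι y i : ℂ)) =
            fun i => ((-ι y) i : ℂ) + z * (e i : ℂ) := by ext i; simp; ring
        rw [e1] at hz
        rw [e2, h]
        exact hz)⟩ }
  have hK : H.K = π ⁻¹' H'.K := by
    ext x
    show (∀ s : ℝ, 0 < s → eval (x + s • e) p ≠ 0) ↔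
      ∀ s : ℝ, 0 < s → eval (π x + s • π e) p' ≠ 0
    simp only [← map_smul, ← map_add, hevπ]
  rw [hcone, hK]
  refine IsSpectrahedralShadow.preimage π (hSh H' ?_ ?_)
  · intro y hy hy'
    refine hι y ⟨?_, ?_⟩
    · rw [hK, Set.mem_preimage, hπι]; exact hy
    · rw [hK, Set.mem_preimage, map_neg, hπι]; exact hy'
  intro s hs hsing hs0 v hv
  have hSK : ι s ∈ H.K := by rw [hK, Set.mem_preimage, hπι]; exact hs
  have hnot : -ι s ∉ H.K := fun h => hs0 (hι s ⟨hSK, h⟩)
  have hcf : ∀ j w, cf p' j s (π w) = cf p j (ι s) w := fun j w => by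
    rw [cf, cf, hline]
  have hSing : H.Singular (ι s) := by
    refine ⟨hSK, (hev s).symm.trans hsing.2.1, ?_⟩
    show der p (ι s) e = 0
    rw [← cf_one, ← hcf, cf_one]
    exact hsing.2.2
  have hmult : H'.mult s = H.mult (ι s) := H.mult_congr H' fun j => hcf j e
  set T := (H.tg hSK).p with hT
  have hTeq : homogeneousComponent (H.mult (ι s)) (aeval (fun i => C (ι s i) + X i) p) = T :=
    MvPolynomial.funext fun w => by rw [hT, H.tg_eval, eval_hc_shift]
  have hTπ : ∀ w, eval (π w) (H'.tg hs).p = eval w T := fun w => by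
    rw [hT, H.tg_eval, H'.tg_eval, hmult]
    exact hcf _ w
  have hTev : ∀ (x : Fin n → ℝ) (t : ℝ),
      eval (π x + t • π e) (H'.tg hs).p = eval (x + t • e) T := fun x t => by
    rw [← hTπ, map_add, map_smul]
  have hVK : ι v ∈ (H.tg hSK).K := fun σ hσ => by
    show eval (ι v + σ • e) T ≠ 0
    rw [← hTev, hπι]
    exact hv.1 σ hσ
  have hVsing : (H.tg hSK).Singular (ι v) := by
    refine ⟨hVK, ?_, ?_⟩
    · show eval (ι v) T = 0
      rw [← hTπ, hπι]; exact hv.2.1
    · show der T (ι v) e = 0
      have hl : line T (ι v) e = line (H'.tg hs).p v (π e) := Polynomial.funext fun t => by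
        rw [eval_line, eval_line, ← hTev, hπι]
      rw [← cf_one, cf, hl, ← cf, cf_one]
      exact hv.2.2
  obtain ⟨c, hc1, hc2⟩ := hord (ι s) (by rw [hcone]; exact hSK) (by rw [hcone]; exact hnot)
    (fun i => by rw [eval_pderiv_eq_der]; exact hSing.der_eq _)
    (H.mult (ι s)) (by
      rw [hTeq]
      intro h0
      have := H.cf_mult_e_pos hSK
      rw [← H.tg_eval hSK, ← hT, h0, map_zero] at this
      exact lt_irrefl 0 this)
    (fun j hj => MvPolynomial.funext fun w => by
      rw [eval_hc_shift, map_zero]; exact H.cf_lt hSK hj w)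
    (ι v) (by
      rw [hTeq, show hypCone T e = (H.tg hSK).K from (H.tg hSK).hypCone_eq]
      exact hVK)
    (fun i => by rw [hTeq, eval_pderiv_eq_der]; exact hVsing.der_eq _)
  rw [hcone] at hc1 hc2
  refine ⟨c, sub_eq_zero.1 (hι (v - c • s) ?_)⟩
  rw [map_sub, map_smul]
  exact ⟨hc1, hc2⟩

/-- The whole space is a shadow. -/
lemma isSpectrahedralShadow_univ {n : ℕ} : IsSpectrahedralShadow (Set.univ : Set (Fin n → ℝ)) := by
  refine ⟨0, 0, 0, fun _ => 0, fun j => j.elim0, Matrix.isSymm_zero, fun _ => Matrix.isSymm_zero,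
    fun j => j.elim0, ?_⟩
  ext x
  simp [Matrix.PosSemidef.zero]

/-- An intersection of two shadows is a shadow. -/
lemma IsSpectrahedralShadow.inter {n : ℕ} {K K' : Set (Fin n → ℝ)}
    (hK : IsSpectrahedralShadow K) (hK' : IsSpectrahedralShadow K') :
    IsSpectrahedralShadow (K ∩ K') := by
  classical
  obtain ⟨N, a, A₀, A, B, h0, hA, hB, rfl⟩ := hK
  obtain ⟨N', a', A₀', A', B', h0', hA', hB', rfl⟩ := hK'
  let eN := finSumFinEquiv (m := N) (n := N')
  let M : Matrix (Fin N) (Fin N) ℝ → Matrix (Fin N') (Fin N') ℝ →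
      Matrix (Fin (N + N')) (Fin (N + N')) ℝ :=
    fun P Q => (Matrix.fromBlocks P 0 0 Q).submatrix eN.symm eN.symm
  have hsym : ∀ P Q, P.IsSymm → Q.IsSymm → (M P Q).IsSymm := fun P Q hP hQ =>
    (hP.fromBlocks (by simp) hQ).submatrix _
  let BB : Fin (a + a') → Matrix (Fin (N + N')) (Fin (N + N')) ℝ := fun k =>
    Sum.elim (fun j => M (B j) 0) (fun j => M 0 (B' j)) (finSumFinEquiv.symm k)
  refine ⟨N + N', a + a', M A₀ A₀', fun i => M (A i) (A' i), BB, hsym _ _ h0 h0',
    fun i => hsym _ _ (hA i) (hA' i), fun k => ?_, ?_⟩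
  · simp only [BB]
    rcases finSumFinEquiv.symm k with j | j
    · exact hsym _ _ (hB j) Matrix.isSymm_zero
    · exact hsym _ _ Matrix.isSymm_zero (hB' j)
  have key : ∀ (x : Fin n → ℝ) (u : Fin a → ℝ) (u' : Fin a' → ℝ),
      M A₀ A₀' + ∑ i, x i • M (A i) (A' i) +
        ∑ k, Sum.elim u u' (finSumFinEquiv.symm k) • BB k =
      M (A₀ + ∑ i, x i • A i + ∑ j, u j • B j) (A₀' + ∑ i, x i • A' i + ∑ j, u' j • B' j) := by
    intro x u u'
    simp only [BB]
    rw [Equiv.sum_comp finSumFinEquiv.symm (fun q =>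
      Sum.elim u u' q • Sum.elim (fun j => M (B j) 0) (fun j => M 0 (B' j)) q), Fintype.sum_sum_type]
    ext p q
    simp only [M, Matrix.add_apply, Matrix.sum_apply, Matrix.smul_apply, Matrix.submatrix_apply,
      Sum.elim_inl, Sum.elim_inr]
    rcases eN.symm p with p' | p' <;> rcases eN.symm q with q' | q' <;>
      simp [Matrix.sum_apply]
  have psd : ∀ P Q, (M P Q).PosSemidef ↔ P.PosSemidef ∧ Q.PosSemidef := fun P Q => by
    rw [Matrix.posSemidef_submatrix_equiv, posSemidef_blockDiag]
  ext x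
  simp only [Set.mem_inter_iff, Set.mem_ofPred_eq]
  constructor
  · rintro ⟨⟨u, hu⟩, u', hu'⟩
    refine ⟨fun k => Sum.elim u u' (finSumFinEquiv.symm k), ?_⟩
    rw [key, psd]
    exact ⟨hu, hu'⟩
  · rintro ⟨w, hw⟩
    have hw' : w = fun k => Sum.elim (fun j => w (finSumFinEquiv (Sum.inl j)))
        (fun j => w (finSumFinEquiv (Sum.inr j))) (finSumFinEquiv.symm k) := by
      funext k
      obtain ⟨q, rfl⟩ := finSumFinEquiv.surjective k
      rw [Equiv.symm_apply_apply]
      cases q <;> rfl
    rw [hw', key, psd] at hw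
    exact ⟨⟨_, hw.1⟩, _, hw.2⟩

/-- The cone of a product is the intersection of the cones. -/
lemma hypCone_prod {n : ℕ} {J : Type*} (s : Finset J) (p : J → MvPolynomial (Fin n) ℝ)
    (e : Fin n → ℝ) : hypCone (∏ j ∈ s, p j) e = ⋂ j ∈ s, hypCone (p j) e := by
  ext x
  simp only [hypCone, Set.mem_iInter, Set.mem_ofPred_eq, map_prod, Finset.prod_eq_zero_iff]
  exact ⟨fun h j hj t ht => h t ⟨j, hj, ht⟩, fun h t ⟨j, hj, ht⟩ => h j hj t ht⟩

/-- Products of polynomials with ordinary singular rays. -/
theorem shadow_prod {n : ℕ} {J : Type*} (s : Finset J) (p : J → MvPolynomial (Fin n) ℝ)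
    (e : Fin n → ℝ) (d : J → ℕ) (hp : ∀ j ∈ s, (p j).IsHomogeneous (d j))
    (hh : ∀ j ∈ s, IsHyperbolic (p j) e) (hord : ∀ j ∈ s, OrdinarySingularRays (p j) e)
    (hSh : ∀ {k : ℕ} (H : Gen.Hyp k), H.Pointed → H.Ordinary → IsSpectrahedralShadow H.K) :
    IsSpectrahedralShadow (hypCone (∏ j ∈ s, p j) e) := by
  classical
  rw [hypCone_prod]
  induction s using Finset.induction_on with
  | empty => simpa using isSpectrahedralShadow_univ (n := n)
  | insert a s _ ih =>
    rw [Finset.set_biInter_insert]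
    exact (shadow_of_ordinary (p a) e (hp a (Finset.mem_insert_self a s))
      (hh a (Finset.mem_insert_self a s)) (hord a (Finset.mem_insert_self a s)) hSh).inter
      (ih (fun j hj => hp j (Finset.mem_insert_of_mem hj))
        (fun j hj => hh j (Finset.mem_insert_of_mem hj))
        fun j hj => hord j (Finset.mem_insert_of_mem hj))

end Vale.Agent.P256
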