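import Vale.Agent.P256.Gen.Bdry
import Vale.Agent.P256.Shadow

/-!
Pointed hyperbolicity cones with ordinary singular rays are spectrahedral shadows.
-/

namespace Vale.Agent.P256.Gen

open MvPolynomial Filter Topology
open scoped BigOperators Polynomial MatrixOrder

set_option linter.unusedSectionVars false

variable {n : ℕ}

lemma interior_biUnion_submodule {ι : Type*} (t : Finset ι) (L : ι → Submodule ℝ (Fin n → ℝ))
    (h : ∀ i ∈ t, L i ≠ ⊤) : interior (⋃ i ∈ t, (L i : Set (Fin n → ℝ))) = ∅ := by
  classical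
  induction t using Finset.induction_on with
  | empty => simp
  | insert i t hi ih =>
    rw [Finset.set_biUnion_insert, interior_union_isClosed_of_interior_empty
      ((L i).closed_of_finiteDimensional) (ih fun j hj => h j (Finset.mem_insert_of_mem hj))]
    by_contra hne
    exact h i (Finset.mem_insert_self i t)
      ((L i).eq_top_of_nonempty_interior' (Set.nonempty_iff_ne_empty.2 hne))

namespace Hyp

variable (H : Hyp n)

lemma d_zero (hd : H.d = 0) : H.K = Set.univ := by
  refine Set.eq_univ_of_forall fun x s _ => ?_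
  have h0 := H.smul_eval 0 (x + s • H.e)
  have h1 := H.smul_eval 0 H.e
  simp only [zero_smul, hd, pow_zero, one_mul] at h0 h1
  rw [← h0, h1]
  exact H.pe_pos.ne'

lemma d_pos (hP : H.Pointed) (hn : 0 < n) : 0 < H.d := by
  refine Nat.pos_of_ne_zero fun hd => ?_
  have := hP (fun _ => 1) (by rw [H.d_zero hd]; trivial) (by rw [H.d_zero hd]; trivial)
  exact one_ne_zero (congrFun this ⟨0, hn⟩)

lemma line_e_ne (x : Fin n → ℝ) : line H.p x H.e ≠ 0 := H.line_ne_zero H.pe_pos.ne' x

/-- Pushing a point of the cone to the boundary against the interior direction. -/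
lemma decompose (hd : 0 < H.d) {a : Fin n → ℝ} (ha : a ∈ H.K) :
    ∃ t : ℝ, 0 ≤ t ∧ ∃ b ∈ H.K, eval b H.p = 0 ∧ a = b + t • H.e := by
  classical
  have hne : (line H.p a H.e).roots.toFinset.Nonempty := by
    have h := (H.splits_e a).natDegree_eq_card_roots
    rw [H.natDegree_eq H.pe_pos.ne'] at h
    obtain ⟨r, hr⟩ := Multiset.card_pos_iff_exists_mem.1 (h ▸ hd)
    exact ⟨r, Multiset.mem_toFinset.2 hr⟩
  obtain ⟨r, hr, hmax⟩ := Finset.exists_max_image _ (fun r => r) hne
  rw [Multiset.mem_toFinset] at hr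
  refine ⟨-r, neg_nonneg.2 (H.roots_nonpos ha r hr), a + r • H.e, ?_, ?_, by module⟩
  · intro s hs h0
    have := hmax (r + s) (Multiset.mem_toFinset.2
      ((Polynomial.mem_roots (H.line_e_ne a)).2 (by
        rw [Polynomial.IsRoot.def, eval_line, add_smul, ← add_assoc]; exact h0)))
    linarith
  · rw [Polynomial.mem_roots (H.line_e_ne a), Polynomial.IsRoot.def, eval_line] at hr
    exact hr

/-- Leaving the cone along a segment from an interior point. -/
lemma exit {z a : Fin n → ℝ} (hz : z ∈ H.core) (ha : a ∉ H.K) :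
    ∃ t ∈ Set.Ioo (0 : ℝ) 1, z + t • (a - z) ∈ H.K ∧ eval (z + t • (a - z)) H.p = 0 := by
  set g : ℝ → Fin n → ℝ := fun t => z + t • (a - z) with hg
  have hgc : Continuous g := by fun_prop
  obtain ⟨t, ⟨htI, htK⟩, hmax⟩ := (isCompact_Icc.inter_right (H.isClosed_K.preimage hgc)).exists_isMaxOn
    (s := Set.Icc (0 : ℝ) 1 ∩ g ⁻¹' H.K)
    ⟨0, ⟨le_rfl, zero_le_one⟩, by simpa [hg] using H.core_subset hz⟩ (f := fun t => t) continuousOn_id
  have ht1 : t < 1 := lt_of_le_of_ne htI.2 fun h => ha (by simpa [hg, h] using htK)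
  have hcore : g t ∉ H.core := by
    intro hc
    obtain ⟨s, hs, hts⟩ := (((hgc.continuousAt.eventually (H.isOpen_core.mem_nhds hc)).filter_mono
      nhdsWithin_le_nhds).and (Ioo_mem_nhdsGT ht1)).exists
    have : s ≤ t := hmax ⟨⟨htI.1.trans hts.1.le, hts.2.le⟩, H.core_subset hs⟩
    linarith [hts.1]
  refine ⟨t, ⟨lt_of_le_of_ne htI.1 fun h => hcore (by simpa [hg, ← h] using hz), ht1⟩, htK, ?_⟩
  by_contra h0
  exact hcore (H.core_iff.2 ⟨htK, h0⟩)

variable {H}

/-- Membership in the cone from the tangent functionals at normalised boundary points. -/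
theorem mem_of_slack (hP : H.Pointed) (hO : H.Ordinary) (hn : 3 ≤ n) {a : Fin n → ℝ}
    (hτ : 0 ≤ H.τ a) (h : ∀ x ∈ H.B, 0 ≤ H.slack a x) : a ∈ H.K := by
  classical
  by_contra ha
  set S := (H.finite_singB hP hO).toFinset
  have hsub : H.core ⊆ ⋃ s ∈ S, (Submodule.span ℝ ({s, a} : Set (Fin n → ℝ)) : Set (Fin n → ℝ)) := by
    intro z hz
    obtain ⟨t, ht, hxK, hx0⟩ := H.exit hz ha
    set x := z + t • (a - z) with hx
    have hz0 : z ≠ 0 := fun h0 => by
      have := H.core_pos hz
      rw [h0, show (0 : Fin n → ℝ) = (0 : ℝ) • H.e by simp, H.smul_eval,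
        zero_pow (H.d_pos hP (by omega)).ne', zero_mul] at this
      exact lt_irrefl _ this
    have hxe : x = (1 - t) • z + t • a := by rw [hx]; module
    have hτx : 0 < H.τ x := by
      rw [hxe, map_add, map_smul, map_smul]
      exact add_pos_of_pos_of_nonneg (mul_pos (by linarith [ht.2]) (H.τ_pos hP (H.core_subset hz) hz0))
        (mul_nonneg ht.1.le hτ)
    set y := (H.τ x)⁻¹ • x with hy
    have hyB : y ∈ H.B := ⟨H.smul_mem hxK (inv_pos.2 hτx),
      by rw [hy, map_smul, smul_eq_mul, inv_mul_cancel₀ hτx.ne'],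
      by rw [hy, H.smul_eval, hx0, mul_zero]⟩
    rcases H.smooth_or hxK hx0 with hsm | hsg
    · exfalso
      have h1 := hsm.der_core hz
      have h3 := H.der_scale (H.τ x)⁻¹ x a
      have h4 : 0 ≤ der H.p x a := by
        have h5 := mul_nonneg (inv_nonneg.2 hτx.le) (h y hyB)
        rw [show H.slack a y = der H.p ((H.τ x)⁻¹ • x) a from rfl, h3] at h5
        exact nonneg_of_mul_nonneg_right h5 (pow_pos (inv_pos.2 hτx) _)
      have h0 : der H.p x x = 0 := by rw [H.der_self, hx0, mul_zero]
      nth_rw 2 [hxe] at h0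
      rw [der_add, der_smul, der_smul] at h0
      have := mul_pos (show (0 : ℝ) < 1 - t by linarith [ht.2]) h1
      have := mul_nonneg ht.1.le h4
      linarith
    · have hys : H.Singular y := by
        refine ⟨hyB.1, hyB.2.2, ?_⟩
        have h3 := H.der_scale (H.τ x)⁻¹ x H.e
        rw [hsg.2.2, mul_zero, mul_eq_zero] at h3
        exact h3.resolve_left (inv_ne_zero hτx.ne')
      refine Set.mem_biUnion (x := y) ((Set.Finite.mem_toFinset _).2 ⟨hyB, hys⟩) ?_
      refine Submodule.mem_span_pair.2 ⟨H.τ x / (1 - t), -t / (1 - t), ?_⟩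
      have h1t : (1 : ℝ) - t ≠ 0 := by linarith [ht.2]
      rw [hy, smul_smul, hxe, smul_add, smul_smul, smul_smul]
      rw [show H.τ ((1 - t) • z + t • a) = H.τ x by rw [← hxe]]
      have e1 : H.τ x / (1 - t) * (H.τ x)⁻¹ * (1 - t) = 1 := by field_simp
      have e2 : H.τ x / (1 - t) * (H.τ x)⁻¹ * t + -t / (1 - t) = 0 := by field_simp; ring
      rw [e1, one_smul, add_assoc, ← add_smul, e2, zero_smul, add_zero]
  have hint : interior (⋃ s ∈ S, (Submodule.span ℝ ({s, a} : Set (Fin n → ℝ)) : Set (Fin n → ℝ))) = ∅ := by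
    refine interior_biUnion_submodule S (fun s => Submodule.span ℝ {s, a}) fun s _ htop => ?_
    have h2 := finrank_span_finset_le_card (R := ℝ) ({s, a} : Finset (Fin n → ℝ))
    rw [Set.finrank, Finset.coe_pair, htop, finrank_top, Module.finrank_fintype_fun_eq_card,
      Fintype.card_fin] at h2
    have := (Finset.card_le_two (a := s) (b := a))
    omega
  have := interior_maximal hsub H.isOpen_core H.e_mem_core
  rw [hint] at this
  exact this

/-- In at most two variables the cone is polyhedral. -/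
theorem shadow_two (H : Hyp n) (hn : n ≤ 2) : IsSpectrahedralShadow H.K := by
  classical
  by_cases hd : H.d = 0
  · rw [H.d_zero hd]
    refine shadow_of_lmi (ι := Empty) (κ := Empty) 0 0 (fun _ => Matrix.isSymm_zero)
      (fun _ => Matrix.isSymm_zero) fun x => ⟨fun _ => ⟨0, ?_⟩, fun _ => trivial⟩
    simpa using Matrix.PosSemidef.zero
  have he : H.e ≠ 0 := fun h0 => by
    have := H.smul_eval 0 H.e
    rw [zero_smul, zero_pow hd, zero_mul, ← h0] at this
    exact H.pe_pos.ne' this
  obtain ⟨i, hi⟩ : ∃ i, H.e i ≠ 0 := by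
    by_contra hc
    push Not at hc
    exact he (funext hc)
  set α : (Fin n → ℝ) →ₗ[ℝ] ℝ := (H.e i)⁻¹ • LinearMap.proj i with hα
  have hαe : α H.e = 1 := by simp [hα, hi]
  have hker : Module.finrank ℝ (LinearMap.ker α) ≤ 1 := by
    have h1 := LinearMap.finrank_range_add_finrank_ker α
    have hsurj : Function.Surjective α := fun c => ⟨c • H.e, by simp [hαe]⟩
    rw [LinearMap.range_eq_top.2 hsurj, finrank_top, Module.finrank_self,
      Module.finrank_fintype_fun_eq_card, Fintype.card_fin] at h1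
    omega
  obtain ⟨f, hf⟩ := finrank_le_one_iff.1 hker
  obtain ⟨β, hβ⟩ : ∃ β : (Fin n → ℝ) →ₗ[ℝ] ℝ, ∀ x, x = α x • H.e + β x • (f : Fin n → ℝ) := by
    have hmem : ∀ x, x - α x • H.e ∈ LinearMap.ker α := fun x => by simp [hαe]
    by_cases hf0 : (f : Fin n → ℝ) = 0
    · refine ⟨0, fun x => ?_⟩
      obtain ⟨c, hc⟩ := hf ⟨_, hmem x⟩
      have hc' := congrArg Subtype.val hc
      simp only [Submodule.coe_smul, hf0, smul_zero] at hc'
      simp [sub_eq_zero.1 hc'.symm |>.symm]
    · obtain ⟨j, hj⟩ : ∃ j, (f : Fin n → ℝ) j ≠ 0 := by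
        by_contra hc
        push Not at hc
        exact hf0 (funext hc)
      refine ⟨((f : Fin n → ℝ) j)⁻¹ •
        ((LinearMap.proj j).comp (LinearMap.id - α.smulRight H.e)), fun x => ?_⟩
      obtain ⟨c, hc⟩ := hf ⟨_, hmem x⟩
      have hc' : c • (f : Fin n → ℝ) = x - α x • H.e := congrArg Subtype.val hc
      have hcj : (x - α x • H.e) j = c * (f : Fin n → ℝ) j := by rw [← hc']; simp
      have : ((f : Fin n → ℝ) j)⁻¹ * (x - α x • H.e) j = c := by rw [hcj]; field_simp
      show x = α x • H.e + (((f : Fin n → ℝ) j)⁻¹ * (x - α x • H.e) j) • (f : Fin n → ℝ)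
      rw [this, hc']; abel
  set u := (line H.p (f : Fin n → ℝ) H.e).roots with hu
  have hcard : u.card = H.d := by
    rw [hu, ← (H.splits_e _).natDegree_eq_card_roots, H.natDegree_eq H.pe_pos.ne']
  have hev : ∀ a b : ℝ, eval (a • H.e + b • (f : Fin n → ℝ)) H.p =
      eval H.e H.p * (u.map fun r => a - b * r).prod := by
    intro a b
    rcases eq_or_ne b 0 with rfl | hb
    · rw [zero_smul, add_zero, H.smul_eval]
      simp [Multiset.map_const', hcard, mul_comm]
    · have h1 := (H.splits_e (f : Fin n → ℝ)).eval_eq_prod_roots (a / b)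
      rw [eval_line, H.leadingCoeff_eq H.pe_pos.ne', ← hu] at h1
      have e : a • H.e + b • (f : Fin n → ℝ) = b • ((f : Fin n → ℝ) + (a / b) • H.e) := by
        rw [smul_add, smul_smul, mul_div_cancel₀ _ hb, add_comm]
      rw [e, H.smul_eval, h1, mul_left_comm, ← hcard, ← Multiset.prod_replicate,
        ← Multiset.map_const', ← Multiset.prod_map_mul]
      congr 2
      refine Multiset.map_congr rfl fun r _ => ?_
      field_simp
  have hK : ∀ x, x ∈ H.K ↔ ∀ r ∈ u.toFinset, 0 ≤ α x - β x * r := by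
    intro x
    have hx : ∀ s : ℝ, eval (x + s • H.e) H.p =
        eval H.e H.p * (u.map fun r => α x + s - β x * r).prod := fun s => by
      rw [← hev]
      congr 2
      conv_lhs => rw [hβ x]
      module
    constructor
    · intro h r hr
      by_contra hneg
      refine h (-(α x - β x * r)) (by linarith) ?_
      rw [hx, Multiset.prod_eq_zero (Multiset.mem_map.2 ⟨r, Multiset.mem_toFinset.1 hr, by ring⟩),
        mul_zero]
    · intro h s hs h0
      rw [hx, mul_eq_zero] at h0
      have h0' := Multiset.prod_eq_zero_iff.1 (h0.resolve_left H.pe_pos.ne')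
      obtain ⟨r, hr, hr0⟩ := Multiset.mem_map.1 h0'
      have := h r (Multiset.mem_toFinset.2 hr)
      linarith
  refine shadow_of_lmi (ι := u.toFinset) (κ := Empty)
    { toFun := fun x => Matrix.diagonal fun r => α x - β x * (r : ℝ)
      map_add' := fun x y => by
        rw [Matrix.diagonal_add]
        congr 1
        funext r
        simp only [map_add]; ring
      map_smul' := fun c x => by
        rw [RingHom.id_apply, ← Matrix.diagonal_smul]
        congr 1
        funext r
        simp only [map_smul, Pi.smul_apply, smul_eq_mul]; ring }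
    0 (fun x => Matrix.isSymm_diagonal _) (fun _ => Matrix.isSymm_zero) fun x => ?_
  simp only [LinearMap.coe_mk, AddHom.coe_mk, LinearMap.zero_apply, add_zero,
    Matrix.posSemidef_diagonal_iff, exists_const, hK, Subtype.forall]

/-- A pointed cone with ordinary singular rays is a shadow. -/
theorem shadow_pointed (H : Hyp n) (hP : H.Pointed) (hO : H.Ordinary) :
    IsSpectrahedralShadow H.K := by
  classical
  by_cases hn : n ≤ 2
  · exact H.shadow_two hn
  have hn3 : 3 ≤ n := by omega
  have hd := H.d_pos hP (by omega)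
  have hext : SOSOn (H.B ∪ {H.e}) H.B H.slack := by
    refine sosOn_glue (fun b : Bool => if b then H.B else {H.e}) (fun _ => H.B) ?_ ?_
    · rintro a (ha | ha) x hx
      · exact ⟨true, ha, hx⟩
      · exact ⟨false, ha, hx⟩
    · rintro (_ | _)
      · simp only [Bool.false_eq_true, if_false]
        refine sosOn_congr (sosOn_prod (fun _ => (1 : ℝ)) (fun x => der H.p x H.e)
          (fun _ _ => zero_le_one)
          (fun x hx => H.der_nonneg hx.1 (H.core_subset H.e_mem_core))) fun a ha x _ => ?_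
        rw [Set.mem_singleton_iff] at ha
        rw [ha, one_mul]; rfl
      · simpa using H.sosOn_B hP hO
  obtain ⟨r, U, V, hU, hV, hUV⟩ := exists_psd_factor hext
  have hVsym : ∀ x i j, V x i j = V x j i := fun x i j => by
    simpa using ((hV x).1.apply i j).symm
  have hslin : ∀ (c : ℝ) a b x, H.slack (c • a + b) x = c * H.slack a x + H.slack b x :=
    fun c a b x => by simp [slack, der_add, der_smul]
  let Sol : Submodule ℝ ((Fin n → ℝ) × Matrix (Fin r) (Fin r) ℝ) :=
    { carrier := {q | ∀ x ∈ H.B, H.slack q.1 x = ∑ i, ∑ j, q.2 i j * V x i j}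
      zero_mem' := by intro x _; simp [slack, der_zero]
      add_mem' := by
        intro p q hp hq x hx
        have := hslin 1 p.1 q.1 x
        rw [one_smul, one_mul] at this
        simp [this, hp x hx, hq x hx, add_mul, Finset.sum_add_distrib]
      smul_mem' := by
        intro c q hq x hx
        have := hslin c q.1 0 x
        rw [add_zero, show H.slack 0 x = 0 by simp [slack, der_zero], add_zero] at this
        simp [this, hq x hx, Finset.mul_sum, mul_assoc] }
  let φ : (Fin (Module.finrank ℝ Sol) → ℝ) →ₗ[ℝ] (Fin n → ℝ) × Matrix (Fin r) (Fin r) ℝ :=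
    Sol.subtype.comp (Module.finBasis ℝ Sol).equivFun.symm.toLinearMap
  have φmem : ∀ u, φ u ∈ Sol := fun u => ((Module.finBasis ℝ Sol).equivFun.symm u).2
  have φsur : ∀ q ∈ Sol, ∃ u, φ u = q := fun q hq =>
    ⟨(Module.finBasis ℝ Sol).equivFun ⟨q, hq⟩, by simp [φ]⟩
  let L₁ : (Fin n → ℝ) →ₗ[ℝ]
      Matrix (Unit ⊕ (Fin r ⊕ (Fin n ⊕ Fin n))) (Unit ⊕ (Fin r ⊕ (Fin n ⊕ Fin n))) ℝ :=
    { toFun := fun x => Matrix.fromBlocks (Matrix.diagonal fun _ => H.τ x) 0 0
        (Matrix.fromBlocks 0 0 0 (Matrix.fromBlocks (Matrix.diagonal x) 0 0 (Matrix.diagonal (-x))))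
      map_add' := fun x y => by
        ext i j
        rcases i with i | i | i | i <;> rcases j with j | j | j | j <;>
          simp [Matrix.diagonal] <;> (try split_ifs) <;> (try simp) <;> (try ring)
      map_smul' := fun c x => by
        ext i j
        rcases i with i | i | i | i <;> rcases j with j | j | j | j <;>
          simp [Matrix.diagonal] }
  let L₂ : (Fin (Module.finrank ℝ Sol) → ℝ) →ₗ[ℝ]
      Matrix (Unit ⊕ (Fin r ⊕ (Fin n ⊕ Fin n))) (Unit ⊕ (Fin r ⊕ (Fin n ⊕ Fin n))) ℝ :=
    { toFun := fun u => Matrix.fromBlocks 0 0 0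
        (Matrix.fromBlocks ((φ u).2 + (φ u).2.transpose) 0 0
          (Matrix.fromBlocks (Matrix.diagonal (-(φ u).1)) 0 0 (Matrix.diagonal (φ u).1)))
      map_add' := fun x y => by
        ext i j
        rcases i with i | i | i | i <;> rcases j with j | j | j | j <;>
          simp [map_add, Matrix.diagonal] <;> (try split_ifs) <;> (try simp) <;> (try ring)
      map_smul' := fun c x => by
        ext i j
        rcases i with i | i | i | i <;> rcases j with j | j | j | j <;>
          simp [map_smul, Matrix.diagonal, mul_add] }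
  have sym₂ : ∀ u : Matrix (Fin r) (Fin r) ℝ, (u + u.transpose).IsSymm := fun u => by
    rw [Matrix.IsSymm, Matrix.transpose_add, Matrix.transpose_transpose, add_comm]
  refine shadow_of_lmi L₁ L₂ (fun x => ?_) (fun u => ?_) fun x => ?_
  · exact (Matrix.isSymm_diagonal _).fromBlocks (by simp) (Matrix.isSymm_zero.fromBlocks (by simp)
      ((Matrix.isSymm_diagonal _).fromBlocks (by simp) (Matrix.isSymm_diagonal _)))
  · exact Matrix.isSymm_zero.fromBlocks (by simp) ((sym₂ _).fromBlocks (by simp)
      ((Matrix.isSymm_diagonal _).fromBlocks (by simp) (Matrix.isSymm_diagonal _)))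
  have hsplit : ∀ u, (L₁ x + L₂ u).PosSemidef ↔
      (0 ≤ H.τ x ∧ ((φ u).2 + (φ u).2.transpose).PosSemidef ∧ (φ u).1 = x) := by
    intro u
    have eq : L₁ x + L₂ u = Matrix.fromBlocks (Matrix.diagonal fun _ => H.τ x) 0 0
        (Matrix.fromBlocks ((φ u).2 + (φ u).2.transpose) 0 0
          (Matrix.fromBlocks (Matrix.diagonal (x - (φ u).1)) 0 0
            (Matrix.diagonal ((φ u).1 - x)))) := by
      ext i j
      rcases i with i | i | i | i <;> rcases j with j | j | j | j <;>
        simp [L₁, L₂, Matrix.diagonal] <;> (try split_ifs) <;> (try simp) <;> (try ring)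
    rw [eq]
    simp only [posSemidef_blockDiag, Matrix.posSemidef_diagonal_iff, Pi.sub_apply]
    constructor
    · rintro ⟨h1, h3, h4, h5⟩
      exact ⟨h1 (), h3, funext fun i => by linarith [h4 i, h5 i]⟩
    · rintro ⟨h1, h3, h4⟩
      refine ⟨fun _ => h1, h3, fun i => ?_, fun i => ?_⟩ <;> simp [h4]
  simp only [hsplit]
  constructor
  · intro hx
    obtain ⟨t, ht, b, hb, hpb, hxb⟩ := H.decompose hd hx
    obtain ⟨W, hW, hWeq⟩ : ∃ W : Matrix (Fin r) (Fin r) ℝ, W.PosSemidef ∧
        ∀ y ∈ H.B, H.slack b y = ∑ i, ∑ j, W i j * V y i j := by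
      rcases eq_or_ne b 0 with hb0 | hb0
      · rw [hb0]
        exact ⟨0, Matrix.PosSemidef.zero, fun y _ => by simp [slack, der_zero]⟩
      · have hs := H.τ_pos hP hb hb0
        have hb1 : (H.τ b)⁻¹ • b ∈ H.B ∪ {H.e} := by
          refine Or.inl ⟨H.smul_mem hb (inv_pos.2 hs), ?_, by rw [H.smul_eval, hpb, mul_zero]⟩
          rw [map_smul, smul_eq_mul, inv_mul_cancel₀ hs.ne']
        refine ⟨H.τ b • U ((H.τ b)⁻¹ • b), (hU _).smul hs.le, fun y hy => ?_⟩
        have := hUV _ hb1 y hy
        simp only [slack, der_smul] at this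
        simp only [Matrix.smul_apply, smul_eq_mul, mul_assoc, ← Finset.mul_sum, ← this, slack]
        field_simp
    have hq : ((b + t • H.e, W + t • U H.e) : (Fin n → ℝ) × Matrix (Fin r) (Fin r) ℝ) ∈ Sol := by
      intro y hy
      have he := hUV H.e (Or.inr rfl) y hy
      have := hslin t H.e b y
      rw [add_comm (t • H.e)] at this
      simp [this, hWeq y hy, he, add_mul, Finset.sum_add_distrib, Finset.mul_sum, mul_assoc, add_comm]
    obtain ⟨u, hu⟩ := φsur _ hq
    refine ⟨u, H.τ_nonneg hx, ?_, by rw [hu, hxb]⟩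
    rw [hu]
    have hs := hW.add ((hU H.e).smul ht)
    exact hs.add hs.transpose
  · rintro ⟨u, h1, h3, h4⟩
    refine H.mem_of_slack hP hO hn3 h1 fun y hy => ?_
    have e := φmem u y hy
    rw [h4] at e
    set W := (φ u).2
    have e2 : ∑ i, ∑ j, (W + W.transpose) i j * V y i j = 2 * ∑ i, ∑ j, W i j * V y i j := by
      simp only [Matrix.add_apply, Matrix.transpose_apply, add_mul, Finset.sum_add_distrib]
      have : ∑ i, ∑ j, W j i * V y i j = ∑ i, ∑ j, W i j * V y i j := by
        rw [Finset.sum_comm]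
        exact Finset.sum_congr rfl fun i _ => Finset.sum_congr rfl fun j _ => by rw [hVsym y j i]
      rw [this]; ring
    obtain ⟨T, hT⟩ := CStarAlgebra.nonneg_iff_eq_star_mul_self.1 (hV y).nonneg
    have hpos : 0 ≤ ∑ i, ∑ j, (W + W.transpose) i j * V y i j := by
      have e3 : ∑ i, ∑ j, (W + W.transpose) i j * V y i j =
          ∑ k, ∑ i, ∑ j, T k i * ((W + W.transpose) i j * T k j) := by
        conv_rhs => rw [Finset.sum_comm]
        refine Finset.sum_congr rfl fun i _ => ?_
        conv_rhs => rw [Finset.sum_comm]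
        refine Finset.sum_congr rfl fun j _ => ?_
        rw [hT, Matrix.mul_apply, Finset.mul_sum]
        exact Finset.sum_congr rfl fun k _ => by simp [Matrix.star_apply]; ring
      rw [e3]
      refine Finset.sum_nonneg fun k _ => ?_
      have := h3.dotProduct_mulVec_nonneg (T k)
      simpa [dotProduct, Matrix.mulVec, Finset.mul_sum] using this
    rw [e]
    linarith

end Hyp

end Vale.Agent.P256.Gen
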