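import Vale.Agent.P256.Gen.Point

/-!
The tangent cone at a boundary point, its link, and the polar chart.
-/

namespace Vale.Agent.P256.Gen

open MvPolynomial Filter Topology
open scoped BigOperators Polynomial

set_option linter.unusedSectionVars false

variable {σ : Type*} [Fintype σ]

/-- Scaling determines homogeneity. -/
lemma isHomogeneous_of_scale {f : MvPolynomial σ ℝ} {m : ℕ}
    (h : ∀ (c : ℝ) (v : σ → ℝ), eval (c • v) f = c ^ m * eval v f) : f.IsHomogeneous m := by
  have hk : ∀ k v (c : ℝ), eval (c • v) (homogeneousComponent k f) =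
      c ^ k * eval v (homogeneousComponent k f) := fun k v c => by
    have := aeval_smul_of_homogeneous (homogeneousComponent_isHomogeneous k f) c v
    simp only [aeval_eq_eval] at this
    exact this
  have hzero : ∀ k, k ≠ m → homogeneousComponent k f = 0 := by
    intro k hkm
    by_cases hkd : f.totalDegree < k
    · exact homogeneousComponent_eq_zero k f hkd
    refine MvPolynomial.funext fun v => ?_
    rw [map_zero]
    set q : ℝ[X] := ∑ i ∈ Finset.range (f.totalDegree + 1),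
      Polynomial.C (eval v (homogeneousComponent i f)) * Polynomial.X ^ i with hq
    have hq' : q = Polynomial.C (eval v f) * Polynomial.X ^ m := by
      refine Polynomial.funext fun c => ?_
      have e : eval (c • v) f = ∑ i ∈ Finset.range (f.totalDegree + 1),
          eval (c • v) (homogeneousComponent i f) := by
        conv_lhs => rw [← sum_homogeneousComponent f, map_sum]
      rw [h] at e
      simp only [hk] at e
      simp only [hq, Polynomial.eval_finsetSum, Polynomial.eval_mul, Polynomial.eval_C,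
        Polynomial.eval_pow, Polynomial.eval_X]
      rw [mul_comm (eval v f), e]
      exact Finset.sum_congr rfl fun i _ => mul_comm _ _
    have hc := congrArg (fun r : ℝ[X] => r.coeff k) hq'
    simp only [hq, Polynomial.finsetSum_coeff, Polynomial.coeff_C_mul_X_pow, if_neg hkm] at hc
    rwa [Finset.sum_ite_eq, if_pos (Finset.mem_range.2 (by omega))] at hc
  have hf : f = homogeneousComponent m f := by
    conv_lhs => rw [← sum_homogeneousComponent f]
    refine Finset.sum_eq_single m (fun i _ hi => hzero i hi) fun hm => ?_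
    exact homogeneousComponent_eq_zero m f (by simpa [Nat.succ_le_iff] using hm)
  rw [hf]
  exact homogeneousComponent_isHomogeneous m f

/-- A closed cone with a positive functional has bounded slices. -/
lemma exists_slice_bound {n : ℕ} {C : Set (Fin n → ℝ)} (hC : IsClosed C)
    (hs : ∀ x ∈ C, ∀ t : ℝ, 0 < t → t • x ∈ C) (L : (Fin n → ℝ) →ₗ[ℝ] ℝ)
    (hL : ∀ x ∈ C, x ≠ 0 → 0 < L x) : ∃ c : ℝ, 0 < c ∧ ∀ x ∈ C, c * ‖x‖ ≤ L x := by
  have hS : IsCompact (C ∩ Metric.sphere 0 1) := (isCompact_sphere _ _).inter_left hC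
  have hLc : Continuous L := LinearMap.continuous_of_finiteDimensional L
  rcases (C ∩ Metric.sphere 0 1).eq_empty_or_nonempty with hE | hne
  · refine ⟨1, one_pos, fun x hx => ?_⟩
    rcases eq_or_ne x 0 with rfl | hx0
    · simp
    exfalso
    have : ‖x‖⁻¹ • x ∈ C ∩ Metric.sphere 0 1 :=
      ⟨hs x hx _ (inv_pos.2 (norm_pos_iff.2 hx0)), by simp [norm_smul, hx0]⟩
    rw [hE] at this
    exact this
  obtain ⟨y, hy, hmin⟩ := hS.exists_isMinOn hne hLc.continuousOn
  refine ⟨L y, hL y hy.1 (by intro h; simp [h] at hy), fun x hx => ?_⟩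
  rcases eq_or_ne x 0 with rfl | hx0
  · simp
  have hn : 0 < ‖x‖ := norm_pos_iff.2 hx0
  have : L y ≤ L (‖x‖⁻¹ • x) := hmin (a := ‖x‖⁻¹ • x)
    ⟨hs x hx _ (inv_pos.2 hn), by simp [norm_smul, hx0]⟩
  rw [map_smul, smul_eq_mul] at this
  calc L y * ‖x‖ ≤ ‖x‖⁻¹ * L x * ‖x‖ := mul_le_mul_of_nonneg_right this hn.le
    _ = L x := by field_simp

namespace Hyp

variable {n : ℕ} (H : Hyp n)

lemma mult_le (x : Fin n → ℝ) : H.mult x ≤ H.d := by
  classical
  exact Nat.find_le (by rw [cf, H.coeff_top]; exact H.pe_pos.ne')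

lemma tangent_hyperbolic {s : Fin n → ℝ} (hs : s ∈ H.K) :
    IsHyperbolic (dirPoly H.p (H.mult s) s) H.e := by
  refine ⟨by rw [eval_dirPoly]; exact H.cf_mult_e_pos hs, fun x z hz => ?_⟩
  set T := dirPoly H.p (H.mult s) s with hT
  set m := H.mult s
  have hhom : T.IsHomogeneous m := isHomogeneous_of_scale fun c v => by
    rw [eval_dirPoly, eval_dirPoly, cf_smul]
  set w : Fin n → ℝ := -x with hw
  set ε : ℕ → ℝ := fun k => 1 / ((k : ℝ) + 1)
  have hε : ∀ k, 0 < ε k := fun k => by positivity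
  have hε0 : Tendsto ε atTop (𝓝[>] 0) :=
    tendsto_nhdsWithin_iff.2 ⟨tendsto_one_div_add_atTop_nhds_zero_nat, Eventually.of_forall hε⟩
  have hsp : Polynomial.Splits (line T w H.e) := by
    refine splits_limit (d := H.d)
      (f := fun k => Polynomial.C ((ε k ^ m)⁻¹) * line H.p (s + ε k • w) (ε k • H.e))
      (fun k => (H.garding _ (H.smul_mem_core H.e_mem_core (hε k))).C_mul _)
      (fun k => (Polynomial.natDegree_C_mul_le _ _).trans (H.natDegree_line _ _))
      ((natDegree_lineS hhom _ _).trans (H.mult_le s)) ?_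
    refine tendsto_coeff (fun k => (Polynomial.natDegree_C_mul_le _ _).trans (H.natDegree_line _ _))
      ((natDegree_lineS hhom _ _).trans (H.mult_le s)) Set.infinite_univ fun t _ => ?_
    rw [eval_line, eval_dirPoly]
    refine ((H.tendsto_mult hs (w + t • H.e)).comp hε0).congr fun k => ?_
    rw [Function.comp_apply, Polynomial.eval_mul, Polynomial.eval_C, eval_line, div_eq_inv_mul,
      show s + ε k • (w + t • H.e) = s + ε k • w + t • (ε k • H.e) by module]
  refine im_zero_of_splits hsp (fun h0 => ?_) ?_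
  · have := coeff_lineS_top hhom w H.e
    rw [← line, h0, Polynomial.coeff_zero, aeval_eq_eval, eval_dirPoly] at this
    exact (H.cf_mult_e_pos hs).ne this
  · rw [aeval_line, ← hz]
    congr 2
    ext i
    simp [hw]
    ring

/-- The tangent cone as a hyperbolicity cone. -/
noncomputable def tg {s : Fin n → ℝ} (hs : s ∈ H.K) : Hyp n where
  p := dirPoly H.p (H.mult s) s
  e := H.e
  d := H.mult s
  hom := isHomogeneous_of_scale fun c v => by rw [eval_dirPoly, eval_dirPoly, cf_smul]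
  hp := H.tangent_hyperbolic hs

variable {s : Fin n → ℝ} (hs : s ∈ H.K)

lemma tg_eval (v : Fin n → ℝ) : eval v (H.tg hs).p = cf H.p (H.mult s) s v := eval_dirPoly _ _ _ _

lemma subset_tg {v : Fin n → ℝ} (hv : v ∈ H.K) : v ∈ (H.tg hs).K := fun σ hσ => by
  show eval (v + σ • H.e) (H.tg hs).p ≠ 0
  rw [tg_eval, add_comm]
  refine (lt_of_lt_of_le ?_ (H.cf_mult_mono hs (H.smul_mem (H.core_subset H.e_mem_core) hσ) hv)).ne'
  rw [cf_smul]
  exact mul_pos (pow_pos hσ _) (H.cf_mult_e_pos hs)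

lemma tg_translate (v : Fin n → ℝ) (c : ℝ) :
    eval (v + c • s) (H.tg hs).p = eval v (H.tg hs).p := by
  rw [tg_eval, tg_eval]
  set m := H.mult s
  refine tendsto_nhds_unique (H.tendsto_mult hs (v + c • s)) ?_
  have h1 : Tendsto (fun t : ℝ => t / (1 + t * c)) (𝓝[>] 0) (𝓝[>] 0) := by
    refine tendsto_nhdsWithin_iff.2 ⟨tendsto_nhdsWithin_of_tendsto_nhds ?_, ?_⟩
    · have := (tendsto_id (x := 𝓝 (0 : ℝ))).div
        ((by fun_prop : Continuous fun t : ℝ => 1 + t * c).tendsto 0) (by simp)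
      simpa [Pi.div_def] using this
    · have h0 : ∀ᶠ t in 𝓝 (0 : ℝ), 0 < 1 + t * c :=
        (by fun_prop : Continuous fun t : ℝ => 1 + t * c).continuousAt.eventually
          (lt_mem_nhds (by simp))
      filter_upwards [h0.filter_mono nhdsWithin_le_nhds, self_mem_nhdsWithin] with t a b
      exact div_pos b a
  have h2 : Tendsto (fun t : ℝ => (1 + t * c) ^ (H.d - m)) (𝓝[>] 0) (𝓝 1) :=
    tendsto_nhdsWithin_of_tendsto_nhds (by
      simpa using ((by fun_prop : Continuous fun t : ℝ => (1 + t * c) ^ (H.d - m)).tendsto 0))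
  have h3 := h2.mul ((H.tendsto_mult hs v).comp h1)
  rw [one_mul] at h3
  refine h3.congr' ?_
  have h0 : ∀ᶠ t in 𝓝 (0 : ℝ), 0 < 1 + t * c :=
    (by fun_prop : Continuous fun t : ℝ => 1 + t * c).continuousAt.eventually
      (lt_mem_nhds (by simp))
  filter_upwards [h0.filter_mono nhdsWithin_le_nhds, self_mem_nhdsWithin] with t a b
  have b' : t ≠ 0 := (Set.mem_Ioi.1 b).ne'
  have e : s + t • (v + c • s) = (1 + t * c) • (s + (t / (1 + t * c)) • v) := by
    rw [smul_add (1 + t * c), smul_smul, mul_div_cancel₀ _ a.ne']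
    module
  rw [Function.comp_apply, e, H.smul_eval, div_pow, div_div_eq_mul_div,
    ← Nat.sub_add_cancel (H.mult_le s), pow_add, Nat.add_sub_cancel]
  field_simp

lemma tg_translate_mem {v : Fin n → ℝ} (hv : v ∈ (H.tg hs).K) (c : ℝ) :
    v + c • s ∈ (H.tg hs).K := fun σ hσ => by
  have := hv σ hσ
  rwa [add_right_comm, tg_translate]

lemma line_mem (c : ℝ) : c • s ∈ (H.tg hs).K := by
  simpa using H.tg_translate_mem hs (H.tg hs).zero_mem c

lemma tg_τ_self : (H.tg hs).τ s = 0 := by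
  have a := (H.tg hs).τ_nonneg (H.line_mem hs 1)
  have b := (H.tg hs).τ_nonneg (H.line_mem hs (-1))
  rw [map_smul, smul_eq_mul] at a b
  linarith

lemma tg_der_self {θ : Fin n → ℝ} (hθ : θ ∈ (H.tg hs).K) : der (H.tg hs).p θ s = 0 := by
  have a := (H.tg hs).der_nonneg hθ (H.line_mem hs 1)
  have b := (H.tg hs).der_nonneg hθ (H.line_mem hs (-1))
  rw [der_smul] at a b
  linarith

/-- At every singular point other than the vertex, the tangent cone is singular only along the
point's own ray. -/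
def Ordinary : Prop :=
  ∀ s, ∀ hs : s ∈ H.K, H.Singular s → s ≠ 0 →
    ∀ v, (H.tg hs).Singular v → ∃ c : ℝ, v = c • s

/-- The normalised boundary. -/
def B : Set (Fin n → ℝ) := {x | x ∈ H.K ∧ H.τ x = 1 ∧ eval x H.p = 0}

/-- Its smooth part. -/
def Bs : Set (Fin n → ℝ) := {x | x ∈ H.B ∧ H.Smooth x}

lemma continuous_τ : Continuous H.τ := LinearMap.continuous_of_finiteDimensional _

lemma ne_zero_of_τ {x : Fin n → ℝ} (h : H.τ x = 1) : x ≠ 0 := fun h0 => by simp [h0] at h

lemma isCompact_B (hP : H.Pointed) : IsCompact H.B := by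
  obtain ⟨c, hc, hb⟩ := exists_slice_bound H.isClosed_K (fun x hx t ht => H.smul_mem hx ht) H.τ
    fun x hx h0 => H.τ_pos hP hx h0
  refine (isCompact_closedBall (0 : Fin n → ℝ) c⁻¹).of_isClosed_subset ?_ ?_
  · exact H.isClosed_K.inter ((isClosed_eq H.continuous_τ continuous_const).inter
      (isClosed_eq H.continuous_p continuous_const))
  · rintro x ⟨hx, h1, -⟩
    rw [Metric.mem_closedBall, dist_zero_right, ← one_div, le_div_iff₀ hc, mul_comm]
    exact (hb x hx).trans h1.le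

/-- A singular point of the normalised boundary. -/
def SingB (s : Fin n → ℝ) : Prop := s ∈ H.B ∧ H.Singular s

variable {H}

lemma SingB.mem {s : Fin n → ℝ} (h : H.SingB s) : s ∈ H.K := h.1.1

/-- The tangent cone at a singular point. -/
noncomputable def SingB.T {s : Fin n → ℝ} (h : H.SingB s) : Hyp n := H.tg h.mem

lemma SingB.two_le {s : Fin n → ℝ} (h : H.SingB s) : 2 ≤ h.T.d := h.2.two_le

lemma SingB.τ_eq {s : Fin n → ℝ} (h : H.SingB s) : H.τ s = 1 := h.1.2.1

lemma SingB.mult_pos {s : Fin n → ℝ} (h : H.SingB s) : 1 ≤ H.mult s := le_trans one_le_two h.two_le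

/-- In the tangent cone's slice the height is positive. -/
lemma SingB.ℓ_pos {s : Fin n → ℝ} (h : H.SingB s) (hO : H.Ordinary) {v : Fin n → ℝ}
    (hv : v ∈ h.T.K) (hτ : H.τ v = 0) (hv0 : v ≠ 0) : 0 < h.T.τ v := by
  refine lt_of_le_of_ne (h.T.τ_nonneg hv) fun h0 => hv0 ?_
  obtain ⟨-, hc⟩ := h.T.τ_zero hv h0.symm
  have hl : line h.T.p v h.T.e = Polynomial.C (eval h.T.e h.T.p) * Polynomial.X ^ h.T.d := by
    refine Polynomial.eq_of_infinite_eval_eq _ _ ((Set.Ioi_infinite (0 : ℝ)).mono fun t ht => ?_)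
    simp only [Set.mem_ofPred_eq, eval_line, Polynomial.eval_mul, Polynomial.eval_C,
      Polynomial.eval_pow, Polynomial.eval_X]
    have e : v + t • h.T.e = t • (h.T.e + t⁻¹ • v) := by
      rw [smul_add, smul_smul, mul_inv_cancel₀ (Set.mem_Ioi.1 ht).ne', one_smul, add_comm]
    rw [e, h.T.smul_eval, hc, mul_comm]
  have c0 : eval v h.T.p = 0 := by
    have := congrArg (fun f : ℝ[X] => f.coeff 0) hl
    simp only [Polynomial.coeff_C_mul_X_pow] at this
    rw [if_neg (by have := h.two_le; omega)] at this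
    rwa [← cf, cf_zero] at this
  have c1 : der h.T.p v h.T.e = 0 := by
    have := congrArg (fun f : ℝ[X] => f.coeff 1) hl
    simp only [Polynomial.coeff_C_mul_X_pow] at this
    rw [if_neg (by have := h.two_le; omega)] at this
    rwa [← cf, cf_one] at this
  obtain ⟨c, rfl⟩ := hO s h.mem h.2 (H.ne_zero_of_τ h.τ_eq) v ⟨hv, c0, c1⟩
  rw [map_smul, h.τ_eq, smul_eq_mul, mul_one] at hτ
  rw [hτ, zero_smul]

/-- The slice of the tangent cone. -/
def SingB.link {s : Fin n → ℝ} (h : H.SingB s) : Set (Fin n → ℝ) :=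
  {θ | θ ∈ h.T.K ∧ H.τ θ = 0 ∧ h.T.τ θ = 1}

lemma SingB.isCompact_link {s : Fin n → ℝ} (h : H.SingB s) (hO : H.Ordinary) :
    IsCompact h.link := by
  have hC : IsClosed (h.T.K ∩ {v | H.τ v = 0}) :=
    h.T.isClosed_K.inter (isClosed_eq H.continuous_τ continuous_const)
  obtain ⟨c, hc, hb⟩ := exists_slice_bound hC
    (fun x hx t ht => ⟨h.T.smul_mem hx.1 ht, by
      show H.τ (t • x) = 0
      rw [map_smul, show H.τ x = 0 from hx.2, smul_zero]⟩) h.T.τ
    fun x hx h0 => h.ℓ_pos hO hx.1 hx.2 h0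
  refine (isCompact_closedBall (0 : Fin n → ℝ) c⁻¹).of_isClosed_subset ?_ ?_
  · exact h.T.isClosed_K.inter ((isClosed_eq H.continuous_τ continuous_const).inter
      (isClosed_eq h.T.continuous_τ continuous_const))
  · rintro x ⟨hx, h1, h2⟩
    rw [Metric.mem_closedBall, dist_zero_right, ← one_div, le_div_iff₀ hc, mul_comm]
    exact (hb x ⟨hx, h1⟩).trans h2.le

/-- Points of the link on the boundary of the tangent cone are smooth. -/
lemma SingB.link_smooth {s : Fin n → ℝ} (h : H.SingB s) (hO : H.Ordinary) {θ : Fin n → ℝ}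
    (hθ : θ ∈ h.link) (h0 : eval θ h.T.p = 0) : h.T.Smooth θ := by
  rcases h.T.smooth_or hθ.1 h0 with hs | hs
  · exact hs
  · obtain ⟨c, rfl⟩ := hO s h.mem h.2 (H.ne_zero_of_τ h.τ_eq) θ hs
    have := hθ.2.2
    rw [map_smul, show h.T.τ s = 0 from H.tg_τ_self h.mem, smul_zero] at this
    exact absurd this zero_ne_one

/-- The link has no segment in its boundary. -/
lemma SingB.no_line {s : Fin n → ℝ} (h : H.SingB s) (hO : H.Ordinary) {θ v : Fin n → ℝ}
    (hθ : θ ∈ h.link) (hv : H.τ v = 0) (hv' : h.T.τ v = 0) (hl : line h.T.p θ v = 0) : v = 0 := by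
  by_contra hv0
  obtain ⟨t, -, hsg, -⟩ := h.T.flat_exit hθ.1 hl
    (fun hk => absurd hv' (h.ℓ_pos hO hk hv hv0).ne')
  have hmem : θ + t • v ∈ h.link :=
    ⟨hsg.1, by simp [hθ.2.1, hv], by simp [hθ.2.2, hv']⟩
  exact (h.link_smooth hO hmem hsg.2.1).2.2.ne' hsg.2.2

lemma SingB.strict {s : Fin n → ℝ} (h : H.SingB s) (hO : H.Ordinary) {θ θ' : Fin n → ℝ}
    (hθ : θ ∈ h.link) (h0 : eval θ h.T.p = 0) (hθ' : θ' ∈ h.link)
    (hd : der h.T.p θ θ' = 0) : θ' = θ := by
  have hl := (h.link_smooth hO hθ h0).segment hθ'.1 hd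
  exact sub_eq_zero.1 (h.no_line hO hθ (by simp [hθ.2.1, hθ'.2.1]) (by simp [hθ.2.2, hθ'.2.2]) hl)

/-- Tangential curvature of the link. -/
lemma SingB.curved {s : Fin n → ℝ} (h : H.SingB s) (hO : H.Ordinary) {θ v : Fin n → ℝ}
    (hθ : θ ∈ h.link) (h0 : eval θ h.T.p = 0) (hv : H.τ v = 0) (hv' : h.T.τ v = 0)
    (hd : der h.T.p θ v = 0) (hv0 : v ≠ 0) : cf h.T.p 2 θ v < 0 := by
  have hs := h.link_smooth hO hθ h0
  refine lt_of_le_of_ne (hs.cf_two_nonpos hd) fun h2 => hv0 ?_
  exact h.no_line hO hθ hv hv' (hs.line_eq_zero hd h2)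

/-- Height above a singular point and direction seen from it. -/
noncomputable def SingB.ρ {s : Fin n → ℝ} (h : H.SingB s) (x : Fin n → ℝ) : ℝ := h.T.τ x

/-- Direction seen from a singular point. -/
noncomputable def SingB.θ {s : Fin n → ℝ} (h : H.SingB s) (x : Fin n → ℝ) : Fin n → ℝ :=
  (h.ρ x)⁻¹ • (x - s)

lemma SingB.ρ_s {s : Fin n → ℝ} (h : H.SingB s) : h.ρ s = 0 := H.tg_τ_self h.mem

lemma SingB.continuous_ρ {s : Fin n → ℝ} (h : H.SingB s) : Continuous h.ρ := h.T.continuous_τ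

lemma SingB.continuousAt_θ {s x : Fin n → ℝ} (h : H.SingB s) (hx : h.ρ x ≠ 0) :
    ContinuousAt h.θ x :=
  (h.continuous_ρ.continuousAt.inv₀ hx).smul (continuousAt_id.sub continuousAt_const)

lemma SingB.ρ_pos {s x : Fin n → ℝ} (h : H.SingB s) (hO : H.Ordinary) (hx : x ∈ H.K)
    (h1 : H.τ x = 1) (hne : x ≠ s) : 0 < h.ρ x := by
  have hm : x - s ∈ h.T.K := by
    rw [sub_eq_add_neg, ← neg_one_smul ℝ s]
    exact H.tg_translate_mem h.mem (H.subset_tg h.mem hx) (-1)
  have := h.ℓ_pos hO hm (by rw [map_sub, h1, h.τ_eq, sub_self]) (sub_ne_zero.2 hne)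
  rwa [map_sub, show h.T.τ s = 0 from h.ρ_s, sub_zero] at this

lemma SingB.eq_θ {s x : Fin n → ℝ} (h : H.SingB s) (hx : h.ρ x ≠ 0) :
    x = s + h.ρ x • h.θ x := by
  rw [SingB.θ, smul_smul, mul_inv_cancel₀ hx, one_smul, add_sub_cancel]

lemma SingB.θ_mem {s x : Fin n → ℝ} (h : H.SingB s) (hO : H.Ordinary) (hx : x ∈ H.K)
    (h1 : H.τ x = 1) (hne : x ≠ s) : h.θ x ∈ h.link := by
  have hp := h.ρ_pos hO hx h1 hne
  refine ⟨?_, ?_, ?_⟩
  · refine h.T.smul_mem ?_ (inv_pos.2 hp)
    rw [sub_eq_add_neg, ← neg_one_smul ℝ s]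
    exact H.tg_translate_mem h.mem (H.subset_tg h.mem hx) (-1)
  · simp [SingB.θ, h1, h.τ_eq]
  · rw [SingB.θ, map_smul, map_sub, show h.T.τ s = 0 from h.ρ_s, sub_zero, smul_eq_mul]
    exact inv_mul_cancel₀ hp.ne'

end Hyp

end Vale.Agent.P256.Gen
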